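import Mathlib

/-!
# The radial Lane-Emden system in the variable `ρ = r ^ 2`

`4 ρ u'' + 2 N u' = - f v` is the integral equation `u' ρ = - (1/4) ∫₀¹ t ^ (N/2 - 1) f (v (ρ t))`,
regular across `ρ = 0`. For bounded Lipschitz nonlinearities we prove global existence and
stability; for powers we prove the Pohozaev first integral at the critical exponents.
-/

open MeasureTheory Set Filter Topology intervalIntegral
open scoped NNReal BoundedContinuousFunction

namespace Vale.Agent.P100.Bubble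

/-- The weighted average `∫₀¹ t ^ (N/2 - 1) h (s t)`. -/
noncomputable def avg (N : ℝ) (h : ℝ → ℝ) (s : ℝ) : ℝ :=
  ∫ t in (0 : ℝ)..1, t ^ (N / 2 - 1) * h (s * t)

/-- `- (1/4) ∫₀^ρ avg`. -/
noncomputable def prim (N : ℝ) (h : ℝ → ℝ) (ρ : ℝ) : ℝ :=
  -(1 / 4) * ∫ s in (0 : ℝ)..ρ, avg N h s

/-- A global solution of the integral equation with `u 0 = 1`, `v 0 = b`. -/
structure IsIntSol (N : ℝ) (f g : ℝ → ℝ) (b : ℝ) (u v : ℝ → ℝ) : Prop where
  contU : Continuous u
  contV : Continuous v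
  eqU : ∀ ρ, u ρ = 1 + prim N (f ∘ v) ρ
  eqV : ∀ ρ, v ρ = b + prim N (g ∘ u) ρ

variable {N : ℝ}

theorem continuous_kernel (hN : 2 < N) {h : ℝ → ℝ} (hh : Continuous h) :
    Continuous fun z : ℝ × ℝ => z.2 ^ (N / 2 - 1) * h (z.1 * z.2) :=
  (continuous_snd.rpow_const fun _ => Or.inr (by linarith)).mul
    (hh.comp (continuous_fst.mul continuous_snd))

theorem continuous_avg (hN : 2 < N) {h : ℝ → ℝ} (hh : Continuous h) : Continuous (avg N h) :=
  continuous_parametric_intervalIntegral_of_continuous' (f := fun s t => t ^ (N / 2 - 1) * h (s * t))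
    (continuous_kernel hN hh) 0 1

theorem integral_weight (hN : 2 < N) : ∫ t in (0 : ℝ)..1, t ^ (N / 2 - 1) = 2 / N := by
  rw [integral_rpow (Or.inl (by linarith)), sub_add_cancel, Real.one_rpow,
    Real.zero_rpow (by linarith), sub_zero, one_div_div]

theorem mem_uIcc_mul {s t : ℝ} (ht : t ∈ Icc (0 : ℝ) 1) : s * t ∈ uIcc 0 s := by
  rcases le_total 0 s with h | h
  · rw [uIcc_of_le h]
    exact ⟨mul_nonneg h ht.1, mul_le_of_le_one_right h ht.2⟩
  · rw [uIcc_of_ge h]
    exact ⟨by nlinarith [ht.2], mul_nonpos_of_nonpos_of_nonneg h ht.1⟩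

theorem integrable_kernel (hN : 2 < N) {h : ℝ → ℝ} (hh : Continuous h) (s a b : ℝ) :
    IntervalIntegrable (fun t => t ^ (N / 2 - 1) * h (s * t)) volume a b :=
  ((continuous_kernel hN hh).comp (continuous_const.prodMk continuous_id)).intervalIntegrable a b

theorem avg_sub (hN : 2 < N) {h₁ h₂ : ℝ → ℝ} (h1 : Continuous h₁) (h2 : Continuous h₂) (s : ℝ) :
    avg N h₁ s - avg N h₂ s = avg N (fun x => h₁ x - h₂ x) s := by
  simp only [avg]
  rw [← integral_sub (integrable_kernel hN h1 s 0 1) (integrable_kernel hN h2 s 0 1)]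
  exact integral_congr fun t _ => by ring

theorem abs_avg_le (hN : 2 < N) {h : ℝ → ℝ} {C s : ℝ} (hb : ∀ x ∈ uIcc 0 s, |h x| ≤ C) :
    |avg N h s| ≤ C * (2 / N) := by
  rw [← integral_weight hN, ← intervalIntegral.integral_const_mul, avg, ← Real.norm_eq_abs]
  refine norm_integral_le_of_norm_le zero_le_one (Eventually.of_forall fun t ht => ?_)
    ((continuous_const.mul (continuous_id.rpow_const fun _ => Or.inr (by linarith))).intervalIntegrable 0 1)
  rw [Real.norm_eq_abs, abs_mul, abs_of_nonneg (Real.rpow_nonneg ht.1.le _), mul_comm]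
  exact mul_le_mul_of_nonneg_right (hb _ (mem_uIcc_mul ⟨ht.1.le, ht.2⟩))
    (Real.rpow_nonneg ht.1.le _)

theorem avg_congr {h₁ h₂ : ℝ → ℝ} {s : ℝ} (h : ∀ x ∈ uIcc 0 s, h₁ x = h₂ x) :
    avg N h₁ s = avg N h₂ s := by
  refine integral_congr fun t ht => ?_
  rw [uIcc_of_le zero_le_one] at ht
  simp only [h _ (mem_uIcc_mul ht)]

theorem prim_congr {h₁ h₂ : ℝ → ℝ} {ρ : ℝ} (h : ∀ x ∈ uIcc 0 ρ, h₁ x = h₂ x) :
    prim N h₁ ρ = prim N h₂ ρ := by
  simp only [prim]
  congr 1
  refine integral_congr fun s hs => avg_congr fun x hx => h x ?_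
  exact uIcc_subset_uIcc left_mem_uIcc hs hx

theorem hasDerivAt_prim (hN : 2 < N) {h : ℝ → ℝ} (hh : Continuous h) (ρ : ℝ) :
    HasDerivAt (prim N h) (-(1 / 4) * avg N h ρ) ρ :=
  (((continuous_avg hN hh).integral_hasStrictDerivAt 0 ρ).hasDerivAt).const_mul (-(1 / 4))

theorem continuous_prim (hN : 2 < N) {h : ℝ → ℝ} (hh : Continuous h) : Continuous (prim N h) :=
  continuous_iff_continuousAt.2 fun ρ => (hasDerivAt_prim hN hh ρ).continuousAt

theorem prim_zero (h : ℝ → ℝ) : prim N h 0 = 0 := by simp [prim]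

theorem prim_sub (hN : 2 < N) {h₁ h₂ : ℝ → ℝ} (h1 : Continuous h₁) (h2 : Continuous h₂) (ρ : ℝ) :
    prim N h₁ ρ - prim N h₂ ρ = prim N (fun x => h₁ x - h₂ x) ρ := by
  simp only [prim]
  rw [← mul_sub, ← integral_sub ((continuous_avg hN h1).intervalIntegrable 0 ρ)
    ((continuous_avg hN h2).intervalIntegrable 0 ρ)]
  congr 1
  exact integral_congr fun s _ => avg_sub hN h1 h2 s

theorem abs_integral_le_exp {F : ℝ → ℝ} {C K ρ : ℝ} (hC : 0 ≤ C) (hK : 0 < K)
    (hF : ∀ s ∈ uIcc 0 ρ, |F s| ≤ C * Real.exp (K * |s|)) :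
    |∫ s in (0 : ℝ)..ρ, F s| ≤ C * Real.exp (K * |ρ|) / K := by
  have key : ∀ (G : ℝ → ℝ) (a : ℝ), 0 ≤ a → (∀ s ∈ Icc 0 a, |G s| ≤ C * Real.exp (K * s)) →
      |∫ s in (0 : ℝ)..a, G s| ≤ C * Real.exp (K * a) / K := by
    intro G a ha hG
    refine le_trans ?_ (show C * (K⁻¹ * (Real.exp (K * a) - Real.exp (K * 0))) ≤
      C * Real.exp (K * a) / K by
        rw [div_eq_mul_inv, mul_comm K⁻¹, ← mul_assoc, mul_zero, Real.exp_zero]
        gcongr
        linarith)
    have e : ∫ s in (0 : ℝ)..a, C * Real.exp (K * s) =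
        C * (K⁻¹ * (Real.exp (K * a) - Real.exp (K * 0))) := by
      rw [intervalIntegral.integral_const_mul, integral_comp_mul_left _ hK.ne', integral_exp,
        smul_eq_mul]
    rw [← e, ← Real.norm_eq_abs]
    exact norm_integral_le_of_norm_le ha
      (Eventually.of_forall fun s hs => hG s ⟨hs.1.le, hs.2⟩)
      ((continuous_const.mul (Real.continuous_exp.comp (continuous_const.mul continuous_id))
        ).intervalIntegrable 0 a)
  rcases le_total 0 ρ with h | h
  · rw [abs_of_nonneg h]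
    refine key F ρ h fun s hs => ?_
    simpa [abs_of_nonneg hs.1] using hF s (by rw [uIcc_of_le h]; exact hs)
  · rw [abs_of_nonpos h]
    have e : ∫ s in (0 : ℝ)..ρ, F s = -∫ s in (0 : ℝ)..(-ρ), F (-s) := by
      rw [integral_comp_neg F, neg_neg, neg_zero]
      exact integral_symm ρ 0
    rw [e, abs_neg]
    refine key (fun s => F (-s)) (-ρ) (by linarith) fun s hs => ?_
    have := hF (-s) (by rw [uIcc_of_ge h]; exact ⟨by linarith [hs.2], by linarith [hs.1]⟩)
    rwa [abs_neg, abs_of_nonneg hs.1] at this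

theorem abs_prim_le_exp (hN : 2 < N) {h : ℝ → ℝ} {C K ρ : ℝ} (hC : 0 ≤ C) (hK : 0 < K)
    (hh : ∀ s ∈ uIcc 0 ρ, |h s| ≤ C * Real.exp (K * |s|)) :
    |prim N h ρ| ≤ C / (2 * N * K) * Real.exp (K * |ρ|) := by
  have h1 : |∫ s in (0 : ℝ)..ρ, avg N h s| ≤ C * (2 / N) * Real.exp (K * |ρ|) / K := by
    refine abs_integral_le_exp (by positivity) hK fun s hs => ?_
    refine (abs_avg_le hN (C := C * Real.exp (K * |s|)) fun x hx => ?_).trans_eq (by ring)
    refine (hh x (uIcc_subset_uIcc left_mem_uIcc hs hx)).trans ?_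
    gcongr C * Real.exp ?_
    refine mul_le_mul_of_nonneg_left ?_ hK.le
    simpa using abs_sub_left_of_mem_uIcc hx
  rw [prim, abs_mul, abs_neg, abs_of_pos (by norm_num : (0 : ℝ) < 1 / 4)]
  calc 1 / 4 * |∫ s in (0 : ℝ)..ρ, avg N h s|
      ≤ 1 / 4 * (C * (2 / N) * Real.exp (K * |ρ|) / K) := by linarith
    _ = _ := by field_simp; ring

theorem abs_prim_le (hN : 2 < N) {h : ℝ → ℝ} {C ρ : ℝ} (hh : ∀ s ∈ uIcc 0 ρ, |h s| ≤ C) :
    |prim N h ρ| ≤ C / (2 * N) * |ρ| := by
  rw [prim, abs_mul, abs_neg, abs_of_pos (by norm_num : (0 : ℝ) < 1 / 4), ← Real.norm_eq_abs]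
  refine (mul_le_mul_of_nonneg_left (intervalIntegral.norm_integral_le_of_norm_le_const (C := C * (2 / N))
    fun s hs => ?_) (by norm_num)).trans_eq (by rw [sub_zero]; field_simp; ring)
  exact abs_avg_le hN fun x hx => hh x (uIcc_subset_uIcc left_mem_uIcc (uIoc_subset_uIcc hs) hx)

/-- Stability of solutions on an interval around zero. -/
theorem stability (hN : 2 < N) {f g : ℝ → ℝ} {L : ℝ≥0} (hf : LipschitzWith L f)
    (hg : LipschitzWith L g) {S T b₁ b₂ : ℝ} (hS : S ≤ 0) (hT : 0 ≤ T) {u₁ v₁ u₂ v₂ : ℝ → ℝ}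
    (hu₁ : Continuous u₁) (hv₁ : Continuous v₁) (hu₂ : Continuous u₂) (hv₂ : Continuous v₂)
    (e₁ : ∀ ρ ∈ Icc S T, u₁ ρ = 1 + prim N (f ∘ v₁) ρ ∧ v₁ ρ = b₁ + prim N (g ∘ u₁) ρ)
    (e₂ : ∀ ρ ∈ Icc S T, u₂ ρ = 1 + prim N (f ∘ v₂) ρ ∧ v₂ ρ = b₂ + prim N (g ∘ u₂) ρ)
    {ρ : ℝ} (hρ : ρ ∈ Icc S T) :
    |u₁ ρ - u₂ ρ| ≤ 2 * |b₁ - b₂| * Real.exp ((L / N + 1) * |ρ|) ∧
      |v₁ ρ - v₂ ρ| ≤ 2 * |b₁ - b₂| * Real.exp ((L / N + 1) * |ρ|) := by
  set K : ℝ := L / N + 1 with hK
  have hK0 : 0 < K := by positivity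
  let D : ℝ → ℝ := fun x => max |u₁ x - u₂ x| |v₁ x - v₂ x| * Real.exp (-(K * |x|))
  have hD : Continuous D := ((hu₁.sub hu₂).abs.max (hv₁.sub hv₂).abs).mul
    (Real.continuous_exp.comp (continuous_const.mul continuous_abs).neg)
  obtain ⟨x₀, hx₀, hmax⟩ := isCompact_Icc.exists_isMaxOn
    (nonempty_Icc.2 (hS.trans hT)) hD.continuousOn
  have hD0 : 0 ≤ D x₀ := mul_nonneg (le_max_of_le_left (abs_nonneg _)) (Real.exp_nonneg _)
  have hle : ∀ x ∈ Icc S T, max |u₁ x - u₂ x| |v₁ x - v₂ x| ≤ D x₀ * Real.exp (K * |x|) := by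
    intro x hx
    have h1 := mul_le_mul_of_nonneg_right (hmax hx) (Real.exp_nonneg (K * |x|))
    rw [mul_assoc (max |u₁ x - u₂ x| _), ← Real.exp_add, neg_add_cancel, Real.exp_zero, mul_one] at h1
    exact h1
  have step : ∀ x ∈ Icc S T, ∀ (h : ℝ → ℝ) (w₁ w₂ : ℝ → ℝ), LipschitzWith L h → Continuous w₁ →
      Continuous w₂ → (∀ y ∈ Icc S T, |w₁ y - w₂ y| ≤ D x₀ * Real.exp (K * |y|)) →
      |prim N (h ∘ w₁) x - prim N (h ∘ w₂) x| ≤ D x₀ / 2 * Real.exp (K * |x|) := by
    intro x hx h w₁ w₂ hh h1 h2 hb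
    rw [prim_sub hN (hh.continuous.comp h1) (hh.continuous.comp h2)]
    refine (abs_prim_le_exp hN (C := L * D x₀) (by positivity) hK0 fun s hs => ?_).trans ?_
    · refine ((Real.dist_eq _ _).symm.trans_le (hh.dist_le_mul _ _)).trans ?_
      rw [Real.dist_eq, mul_assoc]
      exact mul_le_mul_of_nonneg_left (hb s (uIcc_subset_Icc ⟨hS, hT⟩ hx hs)) L.coe_nonneg
    · refine mul_le_mul_of_nonneg_right ?_ (Real.exp_nonneg _)
      rw [div_le_iff₀ (by positivity)]
      have : (L : ℝ) ≤ N * K := by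
        rw [hK, mul_add, mul_one, mul_div_cancel₀ _ (by linarith : N ≠ 0)]
        linarith
      nlinarith
  have hone : ∀ x, 1 ≤ Real.exp (K * |x|) := fun x => Real.one_le_exp (by positivity)
  have hbound : ∀ x ∈ Icc S T,
      max |u₁ x - u₂ x| |v₁ x - v₂ x| ≤ (|b₁ - b₂| + D x₀ / 2) * Real.exp (K * |x|) := by
    intro x hx
    have hb : 0 ≤ |b₁ - b₂| * (Real.exp (K * |x|) - 1) :=
      mul_nonneg (abs_nonneg _) (sub_nonneg.2 (hone x))
    refine max_le ?_ ?_
    · rw [(e₁ x hx).1, (e₂ x hx).1, add_sub_add_left_eq_sub]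
      refine (step x hx f v₁ v₂ hf hv₁ hv₂ fun y hy => (le_max_right _ _).trans (hle y hy)).trans ?_
      nlinarith [abs_nonneg (b₁ - b₂), Real.exp_nonneg (K * |x|)]
    · rw [(e₁ x hx).2, (e₂ x hx).2, add_sub_add_comm]
      refine (abs_add_le _ _).trans ?_
      have := step x hx g u₁ u₂ hg hu₁ hu₂ fun y hy => (le_max_left _ _).trans (hle y hy)
      nlinarith
  have hDle : D x₀ ≤ |b₁ - b₂| + D x₀ / 2 := by
    have h1 := mul_le_mul_of_nonneg_right (hbound x₀ hx₀) (Real.exp_nonneg (-(K * |x₀|)))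
    simpa only [D, mul_assoc, ← Real.exp_add, add_neg_cancel, Real.exp_zero, mul_one] using h1
  have hfin : max |u₁ ρ - u₂ ρ| |v₁ ρ - v₂ ρ| ≤ 2 * |b₁ - b₂| * Real.exp (K * |ρ|) :=
    (hle ρ hρ).trans (mul_le_mul_of_nonneg_right (by linarith) (Real.exp_nonneg _))
  exact ⟨(le_max_left _ _).trans hfin, (le_max_right _ _).trans hfin⟩

/-- Global existence for bounded Lipschitz nonlinearities. -/
theorem exists_isIntSol (hN : 2 < N) {f g : ℝ → ℝ} {L : ℝ≥0} (hf : LipschitzWith L f)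
    (hg : LipschitzWith L g) {B : ℝ} (hfB : ∀ x, |f x| ≤ B) (hgB : ∀ x, |g x| ≤ B) (b : ℝ) :
    ∃ u v : ℝ → ℝ, IsIntSol N f g b u v := by
  set K : ℝ := L / N + 1 with hK
  have hK0 : 0 < K := by positivity
  have hB : 0 ≤ B := (abs_nonneg _).trans (hfB 0)
  have cexp : Continuous fun x : ℝ => Real.exp (K * |x|) :=
    Real.continuous_exp.comp (continuous_const.mul continuous_abs)
  let compU : (ℝ →ᵇ ℝ × ℝ) → ℝ → ℝ := fun w x => 1 + Real.exp (K * |x|) * (w x).1
  let compV : (ℝ →ᵇ ℝ × ℝ) → ℝ → ℝ := fun w x => b + Real.exp (K * |x|) * (w x).2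
  have cU : ∀ w, Continuous (compU w) := fun w =>
    continuous_const.add (cexp.mul (continuous_fst.comp w.continuous))
  have cV : ∀ w, Continuous (compV w) := fun w =>
    continuous_const.add (cexp.mul (continuous_snd.comp w.continuous))
  have bnd : ∀ (h : ℝ → ℝ) (x : ℝ), (∀ y, |h y| ≤ B) →
      |Real.exp (-(K * |x|)) * prim N h x| ≤ B / (2 * N * K) := by
    intro h x hh
    rw [abs_mul, abs_of_pos (Real.exp_pos _)]
    refine (mul_le_mul_of_nonneg_left (abs_prim_le_exp hN hB hK0 fun s _ =>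
      (hh s).trans (le_mul_of_one_le_right hB (Real.one_le_exp (by positivity))))
      (Real.exp_nonneg _)).trans_eq ?_
    rw [mul_left_comm, ← Real.exp_add, neg_add_cancel, Real.exp_zero, mul_one]
  let Φ : (ℝ →ᵇ ℝ × ℝ) → (ℝ →ᵇ ℝ × ℝ) := fun w =>
    BoundedContinuousFunction.ofNormedAddCommGroup
      (fun x => (Real.exp (-(K * |x|)) * prim N (f ∘ compV w) x,
        Real.exp (-(K * |x|)) * prim N (g ∘ compU w) x))
      (((Real.continuous_exp.comp (continuous_const.mul continuous_abs).neg).mul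
        (continuous_prim hN (hf.continuous.comp (cV w)))).prodMk
        ((Real.continuous_exp.comp (continuous_const.mul continuous_abs).neg).mul
        (continuous_prim hN (hg.continuous.comp (cU w)))))
      (B / (2 * N * K))
      (fun x => max_le (bnd _ x fun y => hfB _) (bnd _ x fun y => hgB _))
  have hΦ : ContractingWith (1 / 2) Φ := by
    refine ⟨by rw [← NNReal.coe_lt_coe]; norm_num, LipschitzWith.of_dist_le_mul fun w w' => ?_⟩
    push_cast
    refine (BoundedContinuousFunction.dist_le (by positivity)).2 fun x => ?_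
    have key : ∀ (h : ℝ → ℝ) (c c' : ℝ → ℝ), LipschitzWith L h → Continuous c → Continuous c' →
        (∀ y, |c y - c' y| ≤ dist w w' * Real.exp (K * |y|)) →
        |Real.exp (-(K * |x|)) * prim N (h ∘ c) x - Real.exp (-(K * |x|)) * prim N (h ∘ c') x| ≤
          1 / 2 * dist w w' := by
      intro h c c' hh hc hc' hb
      rw [← mul_sub, prim_sub hN (hh.continuous.comp hc) (hh.continuous.comp hc'), abs_mul,
        abs_of_pos (Real.exp_pos _)]
      refine (mul_le_mul_of_nonneg_left (abs_prim_le_exp hN (C := L * dist w w') (by positivity)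
        hK0 fun s _ => ?_) (Real.exp_nonneg _)).trans ?_
      · refine ((Real.dist_eq _ _).symm.trans_le (hh.dist_le_mul _ _)).trans ?_
        rw [Real.dist_eq, mul_assoc]
        exact mul_le_mul_of_nonneg_left (hb s) L.coe_nonneg
      · rw [mul_left_comm, ← Real.exp_add, neg_add_cancel, Real.exp_zero, mul_one,
          div_le_iff₀ (by positivity)]
        have : (L : ℝ) ≤ N * K := by
          rw [hK, mul_add, mul_one, mul_div_cancel₀ _ (by linarith : N ≠ 0)]
          linarith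
        nlinarith [dist_nonneg (x := w) (y := w')]
    have hc : ∀ y, max (dist (w y).1 (w' y).1) (dist (w y).2 (w' y).2) ≤ dist w w' := fun y => by
      rw [← Prod.dist_eq]
      exact BoundedContinuousFunction.dist_coe_le_dist y
    rw [Prod.dist_eq]
    refine max_le ?_ ?_ <;> rw [Real.dist_eq]
    · refine key f (compV w) (compV w') hf (cV w) (cV w') fun y => ?_
      simp only [compV, add_sub_add_left_eq_sub, ← mul_sub, abs_mul, abs_of_pos (Real.exp_pos _)]
      rw [mul_comm]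
      exact mul_le_mul_of_nonneg_right ((le_max_right _ _).trans (hc y)) (Real.exp_nonneg _)
    · refine key g (compU w) (compU w') hg (cU w) (cU w') fun y => ?_
      simp only [compU, add_sub_add_left_eq_sub, ← mul_sub, abs_mul, abs_of_pos (Real.exp_pos _)]
      rw [mul_comm]
      exact mul_le_mul_of_nonneg_right ((le_max_left _ _).trans (hc y)) (Real.exp_nonneg _)
  obtain ⟨w, hw⟩ : ∃ w, Φ w = w := ⟨_, hΦ.fixedPoint_isFixedPt⟩
  refine ⟨compU w, compV w, cU w, cV w, fun x => ?_, fun x => ?_⟩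
  · have h := congrArg Prod.fst (DFunLike.congr_fun hw x)
    simp only [Φ, BoundedContinuousFunction.coe_ofNormedAddCommGroup] at h
    change 1 + Real.exp (K * |x|) * (w x).1 = _
    rw [← h, ← mul_assoc, ← Real.exp_add, add_neg_cancel, Real.exp_zero, one_mul]
  · have h := congrArg Prod.snd (DFunLike.congr_fun hw x)
    simp only [Φ, BoundedContinuousFunction.coe_ofNormedAddCommGroup] at h
    change b + Real.exp (K * |x|) * (w x).2 = _
    rw [← h, ← mul_assoc, ← Real.exp_add, add_neg_cancel, Real.exp_zero, one_mul]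

namespace IsIntSol

variable {f g : ℝ → ℝ} {b : ℝ} {u v : ℝ → ℝ}

theorem u_zero (h : IsIntSol N f g b u v) : u 0 = 1 := by rw [h.eqU, prim_zero, add_zero]

theorem v_zero (h : IsIntSol N f g b u v) : v 0 = b := by rw [h.eqV, prim_zero, add_zero]

theorem hasDerivAt_u (h : IsIntSol N f g b u v) (hN : 2 < N) (hf : Continuous f) (ρ : ℝ) :
    HasDerivAt u (-(1 / 4) * avg N (f ∘ v) ρ) ρ := by
  rw [show u = fun ρ => 1 + prim N (f ∘ v) ρ from funext h.eqU]
  exact (hasDerivAt_prim hN (hf.comp h.contV) ρ).const_add 1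

theorem hasDerivAt_v (h : IsIntSol N f g b u v) (hN : 2 < N) (hg : Continuous g) (ρ : ℝ) :
    HasDerivAt v (-(1 / 4) * avg N (g ∘ u) ρ) ρ := by
  rw [show v = fun ρ => b + prim N (g ∘ u) ρ from funext h.eqV]
  exact (hasDerivAt_prim hN (hg.comp h.contU) ρ).const_add b

end IsIntSol

theorem avg_eq_div {h : ℝ → ℝ} {s : ℝ} (hs : 0 < s) :
    avg N h s = (∫ x in (0 : ℝ)..s, x ^ (N / 2 - 1) * h x) / s ^ (N / 2) := by
  have e : ∫ t in (0 : ℝ)..1, (s * t) ^ (N / 2 - 1) * h (s * t) =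
      s ^ (N / 2 - 1) * avg N h s := by
    rw [avg, ← intervalIntegral.integral_const_mul]
    refine integral_congr fun t ht => ?_
    rw [uIcc_of_le zero_le_one] at ht
    simp only [Real.mul_rpow hs.le ht.1]
    ring
  rw [integral_comp_mul_left (fun x => x ^ (N / 2 - 1) * h x) hs.ne', mul_zero, mul_one,
    smul_eq_mul] at e
  rw [eq_div_iff (Real.rpow_pos_of_pos hs _).ne',
    show s ^ (N / 2) = s * s ^ (N / 2 - 1) by
      rw [mul_comm, ← Real.rpow_add_one hs.ne', sub_add_cancel]]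
  rw [mul_left_comm, mul_comm (avg N h s), ← e, ← mul_assoc, mul_inv_cancel₀ hs.ne', one_mul]

theorem hasDerivAt_avg (hN : 2 < N) {h : ℝ → ℝ} (hh : Continuous h) {s : ℝ} (hs : 0 < s) :
    HasDerivAt (avg N h) ((h s - N / 2 * avg N h s) / s) s := by
  have hJ : HasDerivAt (fun x => ∫ y in (0 : ℝ)..x, y ^ (N / 2 - 1) * h y)
      (s ^ (N / 2 - 1) * h s) s :=
    (((continuous_id.rpow_const fun _ => Or.inr (by linarith)).mul hh
      ).integral_hasStrictDerivAt 0 s).hasDerivAt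
  have hd := hJ.fun_div (Real.hasDerivAt_rpow_const (p := N / 2) (Or.inl hs.ne'))
    (Real.rpow_pos_of_pos hs _).ne'
  refine HasDerivAt.congr_of_eventuallyEq ?_
    (eventuallyEq_of_mem (Ioi_mem_nhds hs) fun x hx => avg_eq_div hx)
  refine hd.congr_deriv ?_
  rw [avg_eq_div hs]
  have h2 : s ^ (N / 2) = s * s ^ (N / 2 - 1) := by
    rw [mul_comm, ← Real.rpow_add_one hs.ne', sub_add_cancel]
  have := Real.rpow_pos_of_pos hs (N / 2 - 1)
  rw [h2]
  field_simp

/-- The Pohozaev first integral, vanishing for regular solutions at the critical exponents. -/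
theorem IsIntSol.pohozaev {f g : ℝ → ℝ} {b : ℝ} {u v : ℝ → ℝ} (h : IsIntSol N f g b u v)
    (hN : 2 < N) (hf : Continuous f) (hg : Continuous g) {p q T : ℝ} (hp : 0 < p) (hq : 0 < q)
    (hcrit : 1 / (p + 1) + 1 / (q + 1) = (N - 2) / N) (hT : 0 < T)
    (hu : ∀ s ∈ Icc 0 T, 0 < u s ∧ g (u s) = u s ^ q)
    (hv : ∀ s ∈ Icc 0 T, 0 < v s ∧ f (v s) = v s ^ p) :
    4 * T * (-(1 / 4) * avg N (f ∘ v) T) * (-(1 / 4) * avg N (g ∘ u) T) +
      1 / (p + 1) * v T ^ (p + 1) + 1 / (q + 1) * u T ^ (q + 1) +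
      2 * N * (1 / (p + 1) * v T * (-(1 / 4) * avg N (f ∘ v) T) +
        1 / (q + 1) * u T * (-(1 / 4) * avg N (g ∘ u) T)) = 0 := by
  set al : ℝ := 1 / (p + 1) with hal
  set be : ℝ := 1 / (q + 1) with hbe
  set A : ℝ → ℝ := fun s => -(1 / 4) * avg N (f ∘ v) s with hA
  set B : ℝ → ℝ := fun s => -(1 / 4) * avg N (g ∘ u) s with hB
  set F : ℝ → ℝ := fun s => 4 * s * A s * B s + al * v s ^ (p + 1) + be * u s ^ (q + 1) +
    2 * N * (al * v s * A s + be * u s * B s) with hF
  have cA : Continuous A := continuous_const.mul (continuous_avg hN (hf.comp h.contV))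
  have cB : Continuous B := continuous_const.mul (continuous_avg hN (hg.comp h.contU))
  have cF : Continuous F :=
    ((((continuous_const.mul continuous_id).mul cA).mul cB).add
      (continuous_const.mul (h.contV.rpow_const fun _ => Or.inr (by linarith)))).add
      (continuous_const.mul (h.contU.rpow_const fun _ => Or.inr (by linarith))) |>.add
      (continuous_const.mul (((continuous_const.mul h.contV).mul cA).add
        ((continuous_const.mul h.contU).mul cB)))
  set G : ℝ → ℝ := fun s => s ^ (N / 2) * F s with hG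
  have hGd : ∀ s ∈ Ioo 0 T, HasDerivAt G 0 s := by
    intro s hs
    obtain ⟨hus, hgs⟩ := hu s ⟨hs.1.le, hs.2.le⟩
    obtain ⟨hvs, hfs⟩ := hv s ⟨hs.1.le, hs.2.le⟩
    have du : HasDerivAt u (A s) s := h.hasDerivAt_u hN hf s
    have dv : HasDerivAt v (B s) s := h.hasDerivAt_v hN hg s
    have dA : HasDerivAt A ((-(1 / 4) * v s ^ p - N / 2 * A s) / s) s := by
      refine ((hasDerivAt_avg hN (hf.comp h.contV) hs.1).const_mul (-(1 / 4))).congr_deriv ?_
      simp only [A, Function.comp_apply, hfs]; ring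
    have dB : HasDerivAt B ((-(1 / 4) * u s ^ q - N / 2 * B s) / s) s := by
      refine ((hasDerivAt_avg hN (hg.comp h.contU) hs.1).const_mul (-(1 / 4))).congr_deriv ?_
      simp only [B, Function.comp_apply, hgs]; ring
    have dvp : HasDerivAt (fun x => v x ^ (p + 1)) (B s * (p + 1) * v s ^ p) s := by
      simpa using dv.rpow_const (p := p + 1) (Or.inl hvs.ne')
    have duq : HasDerivAt (fun x => u x ^ (q + 1)) (A s * (q + 1) * u s ^ q) s := by
      simpa using du.rpow_const (p := q + 1) (Or.inl hus.ne')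
    have dF := ((((((hasDerivAt_id s).const_mul 4).fun_mul dA).fun_mul dB).fun_add
      (dvp.const_mul al)).fun_add (duq.const_mul be)).fun_add
      ((((dv.const_mul al).fun_mul dA).fun_add ((du.const_mul be).fun_mul dB)).const_mul (2 * N))
    have dG := (Real.hasDerivAt_rpow_const (p := N / 2) (Or.inl hs.1.ne')).fun_mul dF
    refine dG.congr_deriv ?_
    simp only [id]
    rw [show v s ^ (p + 1) = v s ^ p * v s by rw [Real.rpow_add_one hvs.ne'],
      show u s ^ (q + 1) = u s ^ q * u s by rw [Real.rpow_add_one hus.ne'],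
      show s ^ (N / 2 - 1) = s ^ (N / 2) / s by rw [Real.rpow_sub_one hs.1.ne']]
    have ha1 : al * (p + 1) = 1 := by rw [hal]; field_simp
    have hb1 : be * (q + 1) = 1 := by rw [hbe]; field_simp
    have hab : N * (al + be) = N - 2 := by
      rw [hal, hbe, hcrit]; field_simp
    have hs0 : s ≠ 0 := hs.1.ne'
    field_simp
    linear_combination (8 * s ^ 1 * s ^ (N / 2) * B s * v s ^ p) * ha1 +
      (8 * s ^ 1 * s ^ (N / 2) * A s * u s ^ q) * hb1 +
      (16 * s ^ 1 * s ^ (N / 2) * A s * B s) * hab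
  have hGc : ContinuousOn G (Icc 0 T) :=
    ((continuous_id.rpow_const fun _ => Or.inr (by linarith)).mul cF).continuousOn
  obtain ⟨c, hc, hslope⟩ := exists_hasDerivAt_eq_slope G (fun _ => 0) hT hGc hGd
  have hG0 : G 0 = 0 := by simp [G, Real.zero_rpow (by linarith : N / 2 ≠ 0)]
  have hGT : G T = 0 := by
    have := eq_div_iff (by linarith : T - 0 ≠ 0) |>.1 hslope
    linarith
  exact (mul_eq_zero.1 hGT).resolve_left (Real.rpow_pos_of_pos hT _).ne'

end Vale.Agent.P100.Bubble
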