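import Mathlib
import Vale.Agent.P100.Bubble.ODE

/-!
# Shooting for the critical Lane-Emden bubble

For every small `δ` some initial value `b` makes both components reach `δ` at the same radius.
The Pohozaev integral sends that radius to infinity with `δ → 0`, and a limit of `b` gives a
positive global radial solution of the critical system.
-/

open MeasureTheory Set Filter Topology
open scoped NNReal

namespace Vale.Agent.P100.Bubble

/-- The power `x ^ p` frozen outside `[δ, M]`. -/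
noncomputable def clampPow (p δ M x : ℝ) : ℝ := max δ (min M x) ^ p

variable {p q N δ M : ℝ}

theorem clamp_mem (hM : δ ≤ M) (x : ℝ) : max δ (min M x) ∈ Icc δ M :=
  ⟨le_max_left _ _, max_le hM (min_le_left _ _)⟩

theorem clampPow_eq {x : ℝ} (h : x ∈ Icc δ M) : clampPow p δ M x = x ^ p := by
  rw [clampPow, min_eq_right h.2, max_eq_right h.1]

theorem le_clampPow (hδ : 0 < δ) (hp : 0 ≤ p) {c x : ℝ} (hc : 0 ≤ c) (hcM : c ≤ M) (hcx : c ≤ x) :
    c ^ p ≤ clampPow p δ M x :=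
  Real.rpow_le_rpow hc (le_max_of_le_right (le_min hcM hcx)) hp

theorem clampPow_le (hδ : 0 < δ) (hp : 0 ≤ p) {c x : ℝ} (hδc : δ ≤ c) (hxc : x ≤ c) :
    clampPow p δ M x ≤ c ^ p :=
  Real.rpow_le_rpow (hδ.le.trans (le_max_left _ _)) (max_le hδc (min_le_of_right_le hxc)) hp

theorem rpow_le_clampPow (hδ : 0 < δ) (hp : 0 ≤ p) (x : ℝ) : δ ^ p ≤ clampPow p δ M x :=
  Real.rpow_le_rpow hδ.le (le_max_left _ _) hp

theorem clampPow_nonneg (hδ : 0 < δ) (x : ℝ) : 0 ≤ clampPow p δ M x :=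
  Real.rpow_nonneg (hδ.le.trans (le_max_left _ _)) p

theorem clampPow_bounded (hδ : 0 < δ) (hp : 0 ≤ p) (hM : δ ≤ M) (x : ℝ) :
    |clampPow p δ M x| ≤ M ^ p := by
  rw [abs_of_nonneg (clampPow_nonneg hδ x)]
  exact Real.rpow_le_rpow (hδ.le.trans (le_max_left _ _)) (clamp_mem hM x).2 hp

theorem exists_lipschitz_clampPow (hδ : 0 < δ) (hM : δ ≤ M) (p : ℝ) :
    ∃ L : ℝ≥0, LipschitzWith L (clampPow p δ M) := by
  obtain ⟨C, hC⟩ := (isCompact_Icc (a := δ) (b := M)).exists_bound_of_continuousOn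
    (f := fun x => p * x ^ (p - 1)) (continuousOn_const.mul
      (continuousOn_id.rpow_const fun x hx => Or.inl (hδ.trans_le hx.1).ne'))
  have h := (convex_Icc δ M).lipschitzOnWith_of_nnnorm_hasDerivWithin_le
    (f := fun x : ℝ => x ^ p) (f' := fun x => p * x ^ (p - 1)) (C := C.toNNReal)
    (fun x hx => (Real.hasDerivAt_rpow_const (Or.inl (hδ.trans_le hx.1).ne')).hasDerivWithinAt)
    (fun x hx => NNReal.coe_le_coe.1 ((hC x hx).trans (Real.le_coe_toNNReal C)))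
  refine ⟨C.toNNReal, LipschitzWith.of_dist_le_mul fun x y => ?_⟩
  refine (h.dist_le_mul _ (clamp_mem hM x) _ (clamp_mem hM y)).trans
    (mul_le_mul_of_nonneg_left ?_ C.toNNReal.coe_nonneg)
  have h' := ((LipschitzWith.id.const_min M).const_max δ).dist_le_mul x y
  simpa using h'

theorem exists_lipschitz_pair (hδ : 0 < δ) (hM : δ ≤ M) (p q : ℝ) :
    ∃ L : ℝ≥0, LipschitzWith L (clampPow p δ M) ∧ LipschitzWith L (clampPow q δ M) := by
  obtain ⟨L₁, h₁⟩ := exists_lipschitz_clampPow hδ hM p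
  obtain ⟨L₂, h₂⟩ := exists_lipschitz_clampPow hδ hM q
  exact ⟨max L₁ L₂, h₁.weaken (le_max_left _ _), h₂.weaken (le_max_right _ _)⟩

theorem continuous_clampPow (hδ : 0 < δ) (p : ℝ) : Continuous (clampPow p δ M) :=
  (continuous_const.max (continuous_const.min continuous_id)).rpow_const fun _ =>
    Or.inl (hδ.trans_le (le_max_left _ _)).ne'

theorem avg_ge (hN : 2 < N) {h : ℝ → ℝ} (hh : Continuous h) {s c : ℝ}
    (hb : ∀ x ∈ uIcc 0 s, c ≤ h x) : c * (2 / N) ≤ avg N h s := by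
  rw [← integral_weight hN, ← intervalIntegral.integral_const_mul, avg]
  refine intervalIntegral.integral_mono_on zero_le_one ?_ (integrable_kernel hN hh s 0 1)
    fun t ht => ?_
  · exact (continuous_const.mul
      (continuous_id.rpow_const fun _ => Or.inr (by linarith))).intervalIntegrable 0 1
  · rw [mul_comm c]
    exact mul_le_mul_of_nonneg_left (hb _ (mem_uIcc_mul ht)) (Real.rpow_nonneg ht.1 _)

theorem avg_ge_initial (hN : 2 < N) {h : ℝ → ℝ} (hh : Continuous h) {s τ R c : ℝ} (hs : 0 ≤ s)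
    (hsR : s ≤ R) (hτ : 0 < τ) (hR : 0 < R) (h0 : ∀ x, 0 ≤ h x) (hc : 0 ≤ c)
    (hb : ∀ x ∈ Icc 0 τ, c ≤ h x) :
    c * (2 / N) * min 1 (τ / R) ^ (N / 2) ≤ avg N h s := by
  set θ : ℝ := min 1 (τ / R) with hθ
  have hθ0 : 0 ≤ θ := le_min zero_le_one (by positivity)
  have hθ1 : θ ≤ 1 := min_le_left _ _
  have e : ∫ t in (0 : ℝ)..θ, t ^ (N / 2 - 1) * c = c * (2 / N) * θ ^ (N / 2) := by
    rw [intervalIntegral.integral_mul_const, integral_rpow (Or.inl (by linarith)), sub_add_cancel,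
      Real.zero_rpow (by linarith), sub_zero]
    field_simp
  rw [← e, avg, ← intervalIntegral.integral_add_adjacent_intervals
    (integrable_kernel hN hh s 0 θ) (integrable_kernel hN hh s θ 1)]
  refine le_add_of_le_of_nonneg (intervalIntegral.integral_mono_on hθ0 ?_
    (integrable_kernel hN hh s 0 θ) fun t ht => ?_) ?_
  · exact ((continuous_id.rpow_const fun _ => Or.inr (by linarith)).mul
      continuous_const).intervalIntegrable 0 θ
  · refine mul_le_mul_of_nonneg_left (hb _ ⟨mul_nonneg hs ht.1, ?_⟩) (Real.rpow_nonneg ht.1 _)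
    calc s * t ≤ R * (τ / R) :=
          mul_le_mul hsR (ht.2.trans (min_le_right _ _)) ht.1 hR.le
      _ = τ := by field_simp
  · exact intervalIntegral.integral_nonneg hθ1 fun t ht =>
      mul_nonneg (Real.rpow_nonneg (hθ0.trans ht.1) _) (h0 _)

/-- Drop of a component controlled from below by the average. -/
theorem drop_ge {w : ℝ → ℝ} {h : ℝ → ℝ} (hw : ∀ s, HasDerivAt w (-(1 / 4) * avg N h s) s)
    {x y c : ℝ} (hxy : x ≤ y) (hc : ∀ s ∈ Ioo x y, c ≤ avg N h s) :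
    w y - w x ≤ -(1 / 4) * c * (y - x) := by
  refine (convex_Icc x y).image_sub_le_mul_sub_of_deriv_le
    (fun s _ => (hw s).continuousAt.continuousWithinAt)
    (fun s _ => (hw s).differentiableAt.differentiableWithinAt) (fun s hs => ?_) x
    (left_mem_Icc.2 hxy) y (right_mem_Icc.2 hxy) hxy
  rw [(hw s).deriv]
  rw [interior_Icc] at hs
  linarith [hc s hs]

theorem drop_le {w : ℝ → ℝ} {h : ℝ → ℝ} (hw : ∀ s, HasDerivAt w (-(1 / 4) * avg N h s) s)
    {x y c : ℝ} (hxy : x ≤ y) (hc : ∀ s ∈ Ioo x y, avg N h s ≤ c) :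
    -(1 / 4) * c * (y - x) ≤ w y - w x := by
  refine (convex_Icc x y).mul_sub_le_image_sub_of_le_deriv
    (fun s _ => (hw s).continuousAt.continuousWithinAt)
    (fun s _ => (hw s).differentiableAt.differentiableWithinAt) (fun s hs => ?_) x
    (left_mem_Icc.2 hxy) y (right_mem_Icc.2 hxy) hxy
  rw [(hw s).deriv]
  rw [interior_Icc] at hs
  linarith [hc s hs]

/-- The truncated system. -/
def IsTruncSol (N p q δ b : ℝ) (u v : ℝ → ℝ) : Prop :=
  IsIntSol N (clampPow p δ 3) (clampPow q δ 3) b u v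

theorem IsTruncSol.basic {b : ℝ} {u v : ℝ → ℝ} (h : IsTruncSol N p q δ b u v) (hN : 2 < N)
    (hp : 0 < p) (hq : 0 < q) (hδ : 0 < δ) :
    StrictAnti u ∧ StrictAnti v ∧
      (∀ s, HasDerivAt u (-(1 / 4) * avg N (clampPow p δ 3 ∘ v) s) s) ∧
      (∀ s, HasDerivAt v (-(1 / 4) * avg N (clampPow q δ 3 ∘ u) s) s) := by
  have du := fun s => h.hasDerivAt_u hN (continuous_clampPow hδ p) s
  have dv := fun s => h.hasDerivAt_v hN (continuous_clampPow hδ q) s
  have pos : ∀ (a : ℝ) (w : ℝ → ℝ), 0 < a → Continuous w → ∀ s,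
      0 < avg N (clampPow a δ 3 ∘ w) s := fun a w ha hw s =>
    lt_of_lt_of_le (by positivity)
      (avg_ge hN ((continuous_clampPow hδ a).comp hw) fun x _ => rpow_le_clampPow hδ ha.le _)
  exact ⟨strictAnti_of_hasDerivAt_neg du fun s => by linarith [pos p v hp h.contV s],
    strictAnti_of_hasDerivAt_neg dv fun s => by linarith [pos q u hq h.contU s], du, dv⟩

theorem exists_truncSol (hN : 2 < N) (hp : 0 < p) (hq : 0 < q) (hδ : 0 < δ) (hδ3 : δ ≤ 3) (b : ℝ) :
    ∃ u v, IsTruncSol N p q δ b u v := by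
  obtain ⟨L, hf, hg⟩ := exists_lipschitz_pair hδ hδ3 p q
  exact exists_isIntSol hN hf hg (B := max ((3 : ℝ) ^ p) ((3 : ℝ) ^ q))
    (fun x => (clampPow_bounded hδ hp.le hδ3 x).trans (le_max_left _ _))
    (fun x => (clampPow_bounded hδ hq.le hδ3 x).trans (le_max_right _ _)) b

/-- Both components reach `δ` together for some initial value. -/
theorem exists_double (hN : 2 < N) (hp : 0 < p) (hq : 0 < q) {b₀ : ℝ} (hb₀ : 0 < b₀) (hb₀1 : b₀ ≤ 1)
    (hb₀q : 2 ^ q * b₀ ^ (p + 1) ≤ 1 / 2) (hδ : 0 < δ) (hδb : δ < b₀ / 2) :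
    ∃ b ∈ Icc b₀ 2, ∃ u v : ℝ → ℝ, ∃ T : ℝ, IsTruncSol N p q δ b u v ∧ 0 < T ∧ u T = δ ∧ v T = δ := by
  have hδ2 : δ < 1 / 2 := by linarith
  choose U V hUV using exists_truncSol (N := N) hN hp hq hδ (by linarith : δ ≤ 3)
  obtain ⟨L, hf, hg⟩ := exists_lipschitz_pair hδ (by linarith : δ ≤ 3) p q
  have cb : ∀ s, Continuous (fun b => U b s) ∧ Continuous (fun b => V b s) := by
    intro s
    have key : ∀ b b', |U b s - U b' s| ≤ 2 * Real.exp ((L / N + 1) * |s|) * |b - b'| ∧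
        |V b s - V b' s| ≤ 2 * Real.exp ((L / N + 1) * |s|) * |b - b'| := fun b b' => by
      have := stability hN hf hg (S := -|s|) (T := |s|) (by simp) (abs_nonneg s)
        (hUV b).contU (hUV b).contV (hUV b').contU (hUV b').contV
        (fun x _ => ⟨(hUV b).eqU x, (hUV b).eqV x⟩) (fun x _ => ⟨(hUV b').eqU x, (hUV b').eqV x⟩)
        (ρ := s) ⟨neg_abs_le s, le_abs_self s⟩
      constructor
      · exact this.1.trans_eq (by ring)
      · exact this.2.trans_eq (by ring)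
    exact ⟨(LipschitzWith.of_dist_le' fun b b' => (key b b').1).continuous,
      (LipschitzWith.of_dist_le' fun b b' => (key b b').2).continuous⟩
  set A : Set ℝ := ⋃ s ∈ Ioi (0 : ℝ), {b | V b s < δ ∧ δ < U b s} with hA
  set B : Set ℝ := ⋃ s ∈ Ioi (0 : ℝ), {b | U b s < δ ∧ δ < V b s} with hB
  have oA : IsOpen A := isOpen_biUnion fun s _ =>
    (isOpen_lt (cb s).2 continuous_const).inter (isOpen_lt continuous_const (cb s).1)
  have oB : IsOpen B := isOpen_biUnion fun s _ =>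
    (isOpen_lt (cb s).1 continuous_const).inter (isOpen_lt continuous_const (cb s).2)
  have hAB : ∀ b, b ∈ A → b ∉ B := by
    intro b ha hb
    simp only [A, B, mem_iUnion, mem_setOf_eq, exists_prop] at ha hb
    obtain ⟨s, -, hs1, hs2⟩ := ha
    obtain ⟨t, -, ht1, ht2⟩ := hb
    obtain ⟨au, av, -, -⟩ := (hUV b).basic hN hp hq hδ
    rcases le_total s t with h | h
    · exact lt_irrefl _ ((ht2.trans_le (av.antitone h)).trans hs1)
    · exact lt_irrefl _ ((hs2.trans_le (au.antitone h)).trans ht1)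
  have memA : b₀ ∈ A := by
    obtain ⟨au, av, du, dv⟩ := (hUV b₀).basic hN hp hq hδ
    set S : ℝ := 2 * N * (2 ^ q * b₀) with hS
    have hS0 : 0 < S := by positivity
    have hu : ∀ s ∈ Icc 0 S, 1 / 2 ≤ U b₀ s := by
      intro s hs
      have h1 := drop_le du hs.1 (c := b₀ ^ p * (2 / N)) fun x hx => by
        refine (le_abs_self _).trans (abs_avg_le hN fun y hy => ?_)
        rw [uIcc_of_le hx.1.le] at hy
        simp only [Function.comp_apply]
        rw [abs_of_nonneg (clampPow_nonneg hδ _)]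
        refine clampPow_le hδ hp.le (by linarith) ?_
        exact (av.antitone hy.1).trans_eq (hUV b₀).v_zero
      rw [(hUV b₀).u_zero] at h1
      have h2 : b₀ ^ p * s ≤ b₀ ^ p * S := mul_le_mul_of_nonneg_left hs.2 (by positivity)
      have h3 : b₀ ^ p * S / (2 * N) ≤ 1 / 2 := by
        rw [hS, show b₀ ^ p * (2 * N * (2 ^ q * b₀)) / (2 * N) = 2 ^ q * (b₀ ^ p * b₀) by
          field_simp, ← Real.rpow_add_one hb₀.ne']
        exact hb₀q
      have h4 : (1 : ℝ) / 4 * (b₀ ^ p * (2 / N)) * (s - 0) = b₀ ^ p * s / (2 * N) := by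
        field_simp; ring
      have h5 : b₀ ^ p * s / (2 * N) ≤ b₀ ^ p * S / (2 * N) := by gcongr
      linarith
    have hv := drop_ge dv hS0.le (c := (1 / 2 : ℝ) ^ q * (2 / N)) fun x hx => by
      refine avg_ge hN ((continuous_clampPow hδ q).comp (hUV b₀).contU) fun y hy => ?_
      rw [uIcc_of_le hx.1.le] at hy
      exact le_clampPow hδ hq.le (by norm_num) (by norm_num) (hu y ⟨hy.1, hy.2.trans hx.2.le⟩)
    rw [(hUV b₀).v_zero] at hv
    have h6 : (1 : ℝ) / 4 * ((1 / 2 : ℝ) ^ q * (2 / N)) * (S - 0) = b₀ := by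
      rw [hS, Real.div_rpow (by norm_num) (by norm_num), Real.one_rpow]
      field_simp
      ring
    refine mem_biUnion (mem_Ioi.2 hS0) ⟨?_, ?_⟩
    · linarith
    · linarith [hu S ⟨hS0.le, le_rfl⟩]
  have memB : (2 : ℝ) ∈ B := by
    obtain ⟨au, av, du, dv⟩ := (hUV 2).basic hN hp hq hδ
    set S : ℝ := 2 * N with hS
    have hS0 : 0 < S := by positivity
    have hv : ∀ s ∈ Icc 0 S, 1 ≤ V 2 s := by
      intro s hs
      have h1 := drop_le dv hs.1 (c := (1 : ℝ) * (2 / N)) fun x hx => by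
        refine (le_abs_self _).trans (abs_avg_le hN fun y hy => ?_)
        rw [uIcc_of_le hx.1.le] at hy
        simp only [Function.comp_apply]
        rw [abs_of_nonneg (clampPow_nonneg hδ _), ← Real.one_rpow q]
        refine clampPow_le hδ hq.le (by linarith) ?_
        exact (au.antitone hy.1).trans_eq (hUV 2).u_zero
      rw [(hUV 2).v_zero] at h1
      have h4 : (1 : ℝ) / 4 * (1 * (2 / N)) * (s - 0) = s / (2 * N) := by field_simp; ring
      have h5 : s / (2 * N) ≤ 1 := by rw [div_le_one (by positivity)]; exact hs.2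
      linarith
    have hu := drop_ge du hS0.le (c := (1 : ℝ) * (2 / N)) fun x hx => by
      refine avg_ge hN ((continuous_clampPow hδ p).comp (hUV 2).contV) fun y hy => ?_
      rw [uIcc_of_le hx.1.le] at hy
      simp only [Function.comp_apply]
      rw [← Real.one_rpow p]
      exact le_clampPow hδ hp.le zero_le_one (by norm_num) (hv y ⟨hy.1, hy.2.trans hx.2.le⟩)
    rw [(hUV 2).u_zero] at hu
    have h6 : (1 : ℝ) / 4 * (1 * (2 / N)) * (S - 0) = 1 := by rw [hS]; field_simp; ring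
    refine mem_biUnion (mem_Ioi.2 hS0) ⟨?_, ?_⟩
    · linarith
    · linarith [hv S ⟨hS0.le, le_rfl⟩]
  obtain ⟨b, hb, hbA, hbB⟩ : ∃ b ∈ Icc b₀ 2, b ∉ A ∧ b ∉ B := by
    by_contra hcon
    push Not at hcon
    obtain ⟨x, hx, hxA, hxB⟩ := isPreconnected_Icc A B oA oB
      (fun b hb => (em (b ∈ A)).elim Or.inl fun h => Or.inr (hcon b hb h))
      ⟨b₀, left_mem_Icc.2 (by linarith), memA⟩ ⟨2, right_mem_Icc.2 (by linarith), memB⟩
    exact hAB x hxA hxB
  obtain ⟨au, av, du, dv⟩ := (hUV b).basic hN hp hq hδ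
  obtain ⟨S, hS0, hS⟩ : ∃ S : ℝ, 0 < S ∧ V b S ≤ δ := by
    have hc : 0 < (1 : ℝ) / 4 * (δ ^ q * (2 / N)) := by positivity
    refine ⟨b / ((1 : ℝ) / 4 * (δ ^ q * (2 / N))), div_pos (by linarith [hb.1]) hc, ?_⟩
    have hS1 : 0 ≤ b / ((1 : ℝ) / 4 * (δ ^ q * (2 / N))) := (div_pos (by linarith [hb.1]) hc).le
    have h1 := drop_ge dv hS1 (c := δ ^ q * (2 / N)) fun x _ =>
      avg_ge hN ((continuous_clampPow hδ q).comp (hUV b).contU) fun y _ => rpow_le_clampPow hδ hq.le _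
    rw [(hUV b).v_zero, sub_zero, neg_mul, neg_mul, mul_div_cancel₀ _ hc.ne'] at h1
    linarith
  obtain ⟨T, hT, hvT⟩ := intermediate_value_Icc' hS0.le (hUV b).contV.continuousOn
    ⟨hS, by rw [(hUV b).v_zero]; linarith [hb.1]⟩
  have hT0 : 0 < T := by
    rcases hT.1.eq_or_lt with h | h
    · rw [← h, (hUV b).v_zero] at hvT; linarith [hb.1]
    · exact h
  refine ⟨b, hb, U b, V b, T, hUV b, hT0, ?_, hvT⟩
  rcases lt_trichotomy (U b T) δ with h | h | h
  · exfalso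
    obtain ⟨l, hl, hnear⟩ := mem_nhdsLT_iff_exists_Ioo_subset.1
      (mem_nhdsWithin_of_mem_nhds (inter_mem (Ioi_mem_nhds hT0)
        ((isOpen_lt (hUV b).contU continuous_const).mem_nhds h)))
    obtain ⟨t, ht⟩ := exists_between (mem_Iio.1 hl)
    obtain ⟨ht0, htu⟩ := hnear ⟨ht.1, ht.2⟩
    exact hbB (mem_biUnion ht0 ⟨htu, hvT ▸ av ht.2⟩)
  · exact h
  · exfalso
    obtain ⟨r, hr, hnear⟩ := mem_nhdsGT_iff_exists_Ioo_subset.1
      (mem_nhdsWithin_of_mem_nhds (inter_mem (Ioi_mem_nhds hT0)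
        ((isOpen_lt continuous_const (hUV b).contU).mem_nhds h)))
    obtain ⟨t, ht⟩ := exists_between (mem_Ioi.1 hr)
    obtain ⟨ht0, htu⟩ := hnear ⟨ht.1, ht.2⟩
    exact hbA (mem_biUnion ht0 ⟨hvT ▸ av ht.1, htu⟩)

theorem truncSol_range {b T : ℝ} {u v : ℝ → ℝ} (h : IsTruncSol N p q δ b u v) (hN : 2 < N)
    (hp : 0 < p) (hq : 0 < q) (hδ : 0 < δ) (hb2 : b ≤ 2) (huT : u T = δ) (hvT : v T = δ) {s : ℝ}
    (hs : s ∈ Icc 0 T) : u s ∈ Icc δ 1 ∧ v s ∈ Icc δ 2 := by
  obtain ⟨au, av, -, -⟩ := h.basic hN hp hq hδ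
  exact ⟨⟨huT ▸ au.antitone hs.2, h.u_zero ▸ au.antitone hs.1⟩,
    ⟨hvT ▸ av.antitone hs.2, (av.antitone hs.1).trans (h.v_zero.trans_le hb2)⟩⟩

/-- Uniform negative bounds of the derivatives. -/
theorem avg_lower (hN : 2 < N) (hp : 0 < p) (hq : 0 < q) {b₀ b R s : ℝ} (hb₀ : 0 < b₀)
    (hb₀1 : b₀ ≤ 1) (hb : b₀ ≤ b) (hb2 : b ≤ 2) (hδ : 0 < δ) (hδb : δ < b₀ / 2) {u v : ℝ → ℝ}
    (h : IsTruncSol N p q δ b u v) (hR : 0 < R) (hs : s ∈ Icc 0 R) :
    (b₀ / 2) ^ p * (2 / N) * min 1 (N * b₀ / R) ^ (N / 2) ≤ avg N (clampPow p δ 3 ∘ v) s ∧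
      (1 / 2 : ℝ) ^ q * (2 / N) * min 1 (N / 2 ^ p / R) ^ (N / 2) ≤
        avg N (clampPow q δ 3 ∘ u) s := by
  obtain ⟨au, av, du, dv⟩ := h.basic hN hp hq hδ
  constructor
  · refine avg_ge_initial hN ((continuous_clampPow hδ p).comp h.contV) hs.1 hs.2 (by positivity)
      hR (fun x => clampPow_nonneg hδ _) (by positivity) fun x hx => ?_
    refine le_clampPow hδ hp.le (by positivity) (by linarith) ?_
    have h1 := drop_le dv hx.1 (c := (1 : ℝ) * (2 / N)) fun y hy => by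
      refine (le_abs_self _).trans (abs_avg_le hN fun z hz => ?_)
      rw [uIcc_of_le hy.1.le] at hz
      simp only [Function.comp_apply]
      rw [abs_of_nonneg (clampPow_nonneg hδ _), ← Real.one_rpow q]
      exact clampPow_le hδ hq.le (by linarith) ((au.antitone hz.1).trans_eq h.u_zero)
    rw [h.v_zero] at h1
    have h4 : (1 : ℝ) / 4 * (1 * (2 / N)) * (x - 0) = x / (2 * N) := by field_simp; ring
    have h5 : x / (2 * N) ≤ b₀ / 2 := by
      rw [div_le_iff₀ (by positivity)]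
      linarith [hx.2]
    linarith
  · refine avg_ge_initial hN ((continuous_clampPow hδ q).comp h.contU) hs.1 hs.2 (by positivity)
      hR (fun x => clampPow_nonneg hδ _) (by positivity) fun x hx => ?_
    refine le_clampPow hδ hq.le (by norm_num) (by norm_num) ?_
    have h1 := drop_le du hx.1 (c := (2 : ℝ) ^ p * (2 / N)) fun y hy => by
      refine (le_abs_self _).trans (abs_avg_le hN fun z hz => ?_)
      rw [uIcc_of_le hy.1.le] at hz
      simp only [Function.comp_apply]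
      rw [abs_of_nonneg (clampPow_nonneg hδ _)]
      exact clampPow_le hδ hp.le (by linarith) ((av.antitone hz.1).trans (h.v_zero.trans_le hb2))
    rw [h.u_zero] at h1
    have h4 : (1 : ℝ) / 4 * (2 ^ p * (2 / N)) * (x - 0) = 2 ^ p * x / (2 * N) := by field_simp; ring
    have h5 : 2 ^ p * x / (2 * N) ≤ 1 / 2 := by
      rw [div_le_iff₀ (by positivity)]
      have := hx.2
      rw [le_div_iff₀ (by positivity)] at this
      linarith
    linarith

/-- Upper bounds of the averages at a positive argument. -/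
theorem avg_upper (hN : 2 < N) (hp : 0 < p) (hq : 0 < q) {b s : ℝ} (hb2 : b ≤ 2) (hδ : 0 < δ)
    (hδ1 : δ ≤ 1) {u v : ℝ → ℝ} (h : IsTruncSol N p q δ b u v) (hs : 0 ≤ s) :
    avg N (clampPow p δ 3 ∘ v) s ≤ 2 ^ p * (2 / N) ∧
      avg N (clampPow q δ 3 ∘ u) s ≤ 1 * (2 / N) := by
  obtain ⟨au, av, -, -⟩ := h.basic hN hp hq hδ
  constructor
  · refine (le_abs_self _).trans (abs_avg_le hN fun z hz => ?_)
    rw [uIcc_of_le hs] at hz
    simp only [Function.comp_apply]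
    rw [abs_of_nonneg (clampPow_nonneg hδ _)]
    exact clampPow_le hδ hp.le (by linarith) ((av.antitone hz.1).trans (h.v_zero.trans_le hb2))
  · refine (le_abs_self _).trans (abs_avg_le hN fun z hz => ?_)
    rw [uIcc_of_le hs] at hz
    simp only [Function.comp_apply]
    rw [abs_of_nonneg (clampPow_nonneg hδ _), ← Real.one_rpow q]
    exact clampPow_le hδ hq.le hδ1 ((au.antitone hz.1).trans_eq h.u_zero)

/-- The final arithmetic of `hitting_radius`. -/
theorem radius_arith {al be T a c δ X Y cA cB K τ : ℝ} (hN : 2 < N) (hal : al ∈ Icc (0 : ℝ) 1)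
    (hbe : be ∈ Icc (0 : ℝ) 1) (hδ : 0 < δ) (hX : 0 ≤ X) (hY : 0 ≤ Y) (hcA : 0 < cA)
    (hcB : 0 < cB) (hτ : 0 < τ) (hK : 0 < K) (hA : cA ≤ a) (hB : cB ≤ c) (hT : τ ≤ T)
    (hsum : a + c ≤ K * (2 / N)) (hsmall : δ * (4 * K) < τ * cA * cB)
    (h : 4 * T * (-(1 / 4) * a) * (-(1 / 4) * c) + al * X + be * Y +
      2 * N * (al * δ * (-(1 / 4) * a) + be * δ * (-(1 / 4) * c)) = 0) : False := by
  have ha0 : 0 ≤ a := hcA.le.trans hA
  have hc0 : 0 ≤ c := hcB.le.trans hB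
  have h5 : τ * (cA * cB) ≤ T * (a * c) :=
    mul_le_mul hT (mul_le_mul hA hB hcB.le ha0) (by positivity) (hτ.le.trans hT)
  have h1 : al * (δ * a) ≤ δ * a := mul_le_of_le_one_left (by positivity) hal.2
  have h2 : be * (δ * c) ≤ δ * c := mul_le_of_le_one_left (by positivity) hbe.2
  have h1' : N * (al * (δ * a)) ≤ N * (δ * a) := mul_le_mul_of_nonneg_left h1 (by linarith)
  have h2' : N * (be * (δ * c)) ≤ N * (δ * c) := mul_le_mul_of_nonneg_left h2 (by linarith)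
  have h6 : N * δ * (a + c) ≤ 2 * δ * K := by
    calc N * δ * (a + c) ≤ N * δ * (K * (2 / N)) :=
          mul_le_mul_of_nonneg_left hsum (by positivity)
      _ = _ := by field_simp
  nlinarith [mul_nonneg hal.1 hX, mul_nonneg hbe.1 hY]

/-- The double hitting radius tends to infinity as `δ → 0`. -/
theorem hitting_radius (hN : 2 < N) (hp : 0 < p) (hq : 0 < q)
    (hcrit : 1 / (p + 1) + 1 / (q + 1) = (N - 2) / N) {b₀ R : ℝ} (hb₀ : 0 < b₀) (hb₀1 : b₀ ≤ 1)
    (hR : 0 < R) :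
    ∃ δ₀ : ℝ, 0 < δ₀ ∧ ∀ δ b T : ℝ, ∀ u v : ℝ → ℝ, 0 < δ → δ < δ₀ → δ < b₀ / 2 → b₀ ≤ b → b ≤ 2 →
      IsTruncSol N p q δ b u v → 0 < T → u T = δ → v T = δ → R < T := by
  set cA : ℝ := (b₀ / 2) ^ p * (2 / N) * min 1 (N * b₀ / R) ^ (N / 2) with hcA
  set cB : ℝ := (1 / 2 : ℝ) ^ q * (2 / N) * min 1 (N / 2 ^ p / R) ^ (N / 2) with hcB
  have hcA0 : 0 < cA := by
    have : 0 < min 1 (N * b₀ / R) := lt_min one_pos (by positivity)
    positivity
  have hcB0 : 0 < cB := by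
    have : 0 < min 1 (N / 2 ^ p / R) := lt_min one_pos (by positivity)
    positivity
  set K : ℝ := 2 ^ p + 1 with hK
  refine ⟨N / 2 ^ p * cA * cB / (4 * K), by positivity, ?_⟩
  intro δ b T u v hδ hδ0 hδb hb hb2 h hT huT hvT
  by_contra hTR
  rw [not_lt] at hTR
  obtain ⟨au, av, du, dv⟩ := h.basic hN hp hq hδ
  have hrange := fun s (hs : s ∈ Icc (0 : ℝ) T) => truncSol_range h hN hp hq hδ hb2 huT hvT hs
  have hpoho := h.pohozaev hN (continuous_clampPow hδ p) (continuous_clampPow hδ q) hp hq hcrit hT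
    (fun s hs => ⟨hδ.trans_le (hrange s hs).1.1,
      clampPow_eq ⟨(hrange s hs).1.1, by linarith [(hrange s hs).1.2]⟩⟩)
    (fun s hs => ⟨hδ.trans_le (hrange s hs).2.1,
      clampPow_eq ⟨(hrange s hs).2.1, by linarith [(hrange s hs).2.2]⟩⟩)
  obtain ⟨hlA, hlB⟩ := avg_lower hN hp hq hb₀ hb₀1 hb hb2 hδ hδb h hR ⟨hT.le, hTR⟩
  obtain ⟨hua, huc⟩ := avg_upper hN hp hq hb2 hδ (by linarith) h hT.le
  have hTlow : N / 2 ^ p ≤ T := by
    have h1 := drop_le du hT.le (c := (2 : ℝ) ^ p * (2 / N)) fun y hy =>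
      (avg_upper hN hp hq hb2 hδ (by linarith) h hy.1.le).1
    rw [h.u_zero, huT] at h1
    have h4 : (1 : ℝ) / 4 * (2 ^ p * (2 / N)) * (T - 0) = 2 ^ p * T / (2 * N) := by field_simp; ring
    have h5 : 1 / 2 ≤ 2 ^ p * T / (2 * N) := by linarith
    rw [le_div_iff₀ (by positivity)] at h5
    rw [div_le_iff₀ (by positivity)]
    linarith
  rw [huT, hvT] at hpoho
  rw [lt_div_iff₀ (by positivity)] at hδ0
  exact radius_arith hN
    ⟨by positivity, by rw [div_le_one (by linarith)]; linarith⟩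
    ⟨by positivity, by rw [div_le_one (by linarith)]; linarith⟩ hδ
    (Real.rpow_nonneg hδ.le _) (Real.rpow_nonneg hδ.le _) hcA0 hcB0 (by positivity) (by positivity)
    hlA hlB hTlow (by rw [hK]; linarith) hδ0 hpoho

/-- **The critical bubble exists**: a positive radial solution on all of `[0, ∞)`, presented on
each `[0, R]` as a solution of a truncated system in which the truncation is inactive. -/
theorem exists_bubble (hN : 2 < N) (hp : 0 < p) (hq : 0 < q)
    (hcrit : 1 / (p + 1) + 1 / (q + 1) = (N - 2) / N) :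
    ∃ b : ℝ, 0 < b ∧ b ≤ 2 ∧ ∀ R : ℝ, 0 < R → ∃ δ : ℝ, 0 < δ ∧ ∃ u v : ℝ → ℝ,
      IsTruncSol N p q δ b u v ∧ ∀ s ∈ Icc 0 R, u s ∈ Icc δ 1 ∧ v s ∈ Icc δ 2 := by
  obtain ⟨b₀, hb₀, hb₀1, hb₀q⟩ : ∃ b₀ : ℝ, 0 < b₀ ∧ b₀ ≤ 1 ∧ 2 ^ q * b₀ ^ (p + 1) ≤ 1 / 2 := by
    refine ⟨(2 : ℝ) ^ (-(q + 1)), by positivity,
      Real.rpow_le_one_of_one_le_of_nonpos (by norm_num) (by linarith), ?_⟩
    calc (2 : ℝ) ^ q * ((2 : ℝ) ^ (-(q + 1))) ^ (p + 1)
        ≤ (2 : ℝ) ^ q * (2 : ℝ) ^ (-(q + 1)) := by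
          refine mul_le_mul_of_nonneg_left ?_ (by positivity)
          calc ((2 : ℝ) ^ (-(q + 1))) ^ (p + 1) ≤ ((2 : ℝ) ^ (-(q + 1))) ^ (1 : ℝ) :=
                Real.rpow_le_rpow_of_exponent_ge (by positivity)
                  (Real.rpow_le_one_of_one_le_of_nonpos (by norm_num) (by linarith)) (by linarith)
            _ = _ := Real.rpow_one _
      _ = _ := by
          rw [← Real.rpow_add (by norm_num), show q + -(q + 1) = -1 by ring, Real.rpow_neg_one]
          norm_num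
  set d : ℕ → ℝ := fun k => b₀ / (4 * ((k : ℝ) + 1)) with hd
  have hd0 : ∀ k, 0 < d k := fun k => by simp only [d]; positivity
  have hdb : ∀ k, d k < b₀ / 2 := fun k => by
    simp only [d]
    rw [div_lt_div_iff₀ (by positivity) two_pos]
    have : (0 : ℝ) ≤ k := k.cast_nonneg
    nlinarith
  have hdlim : Tendsto d atTop (𝓝 0) :=
    tendsto_const_nhds.div_atTop
      ((tendsto_natCast_atTop_atTop.atTop_add tendsto_const_nhds).const_mul_atTop (by norm_num))
  choose bk hbk uk vk Tk hsol hTk huk hvk using fun k =>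
    exists_double hN hp hq hb₀ hb₀1 hb₀q (hd0 k) (hdb k)
  obtain ⟨b, hb, φ, hφ, hlim⟩ := isCompact_Icc.tendsto_subseq hbk
  refine ⟨b, hb₀.trans_le hb.1, hb.2, fun R hR => ?_⟩
  obtain ⟨δ₀, hδ₀, hrad⟩ := hitting_radius hN hp hq hcrit hb₀ hb₀1 (R := 2 * R) (by linarith)
  set cA : ℝ := (b₀ / 2) ^ p * (2 / N) * min 1 (N * b₀ / (2 * R)) ^ (N / 2) with hcA
  set cB : ℝ := (1 / 2 : ℝ) ^ q * (2 / N) * min 1 (N / 2 ^ p / (2 * R)) ^ (N / 2) with hcB
  have hcA0 : 0 < cA := by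
    have : 0 < min 1 (N * b₀ / (2 * R)) := lt_min one_pos (by positivity)
    positivity
  have hcB0 : 0 < cB := by
    have : 0 < min 1 (N / 2 ^ p / (2 * R)) := lt_min one_pos (by positivity)
    positivity
  set δ : ℝ := min (min (1 / 4 * cA * R) (1 / 4 * cB * R)) (b₀ / 4) with hδdef
  have hδ : 0 < δ := lt_min (lt_min (by positivity) (by positivity)) (by positivity)
  have hδ3 : δ ≤ 3 := (min_le_right _ _).trans (by linarith)
  obtain ⟨u, v, huv⟩ := exists_truncSol hN hp hq hδ hδ3 b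
  refine ⟨δ, hδ, u, v, huv, fun s hs => ?_⟩
  have hev : ∀ᶠ k in atTop, d (φ k) < δ₀ :=
    (hdlim.comp hφ.tendsto_atTop).eventually (Iio_mem_nhds hδ₀)
  obtain ⟨L, hf, hg⟩ := exists_lipschitz_pair hδ hδ3 p q
  have hclose : ∀ᶠ k in atTop, (uk (φ k) s ∈ Icc δ 1 ∧ vk (φ k) s ∈ Icc δ 2) ∧
      |uk (φ k) s - u s| ≤ 2 * |bk (φ k) - b| * Real.exp ((L / N + 1) * |s|) ∧
      |vk (φ k) s - v s| ≤ 2 * |bk (φ k) - b| * Real.exp ((L / N + 1) * |s|) := by
    filter_upwards [hev] with k hk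
    set j := φ k
    have hT2 : 2 * R < Tk j := hrad _ _ _ _ _ (hd0 j) hk (hdb j) (hbk j).1 (hbk j).2 (hsol j)
      (hTk j) (huk j) (hvk j)
    obtain ⟨au, av, du, dv⟩ := (hsol j).basic hN hp hq (hd0 j)
    have hran := fun x (hx : x ∈ Icc (0 : ℝ) (Tk j)) =>
      truncSol_range (hsol j) hN hp hq (hd0 j) (hbk j).2 (huk j) (hvk j) hx
    have hrange : ∀ x ∈ Icc (0 : ℝ) R, uk j x ∈ Icc δ 1 ∧ vk j x ∈ Icc δ 2 := by
      intro x hx
      have hu2 := drop_ge du (show R ≤ 2 * R by linarith) (c := cA) fun y hy =>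
        (avg_lower hN hp hq hb₀ hb₀1 (hbk j).1 (hbk j).2 (hd0 j) (hdb j) (hsol j) (by linarith)
          ⟨by linarith [hy.1], hy.2.le⟩).1
      have hv2 := drop_ge dv (show R ≤ 2 * R by linarith) (c := cB) fun y hy =>
        (avg_lower hN hp hq hb₀ hb₀1 (hbk j).1 (hbk j).2 (hd0 j) (hdb j) (hsol j) (by linarith)
          ⟨by linarith [hy.1], hy.2.le⟩).2
      obtain ⟨⟨h1, -⟩, h2, -⟩ := hran (2 * R) ⟨by linarith, hT2.le⟩
      obtain ⟨⟨-, h3⟩, -, h4⟩ := hran x ⟨hx.1, by linarith [hx.2]⟩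
      have h5 := (hd0 j).le
      have h6 := au.antitone hx.2
      have h7 := av.antitone hx.2
      have h8 : δ ≤ 1 / 4 * cA * R := (min_le_left _ _).trans (min_le_left _ _)
      have h9 : δ ≤ 1 / 4 * cB * R := (min_le_left _ _).trans (min_le_right _ _)
      exact ⟨⟨by linarith, h3⟩, ⟨by linarith, h4⟩⟩
    refine ⟨hrange s hs, ?_⟩
    refine stability hN hf hg le_rfl hR.le (hsol j).contU (hsol j).contV huv.contU huv.contV
      (fun x hx => ?_) (fun x _ => ⟨huv.eqU x, huv.eqV x⟩) hs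
    have hin : ∀ y ∈ uIcc 0 x, y ∈ Icc (0 : ℝ) R := fun y hy => by
      rw [uIcc_of_le hx.1] at hy; exact ⟨hy.1, hy.2.trans hx.2⟩
    refine ⟨((hsol j).eqU x).trans (congrArg _ (prim_congr fun y hy => ?_)),
      ((hsol j).eqV x).trans (congrArg _ (prim_congr fun y hy => ?_))⟩
    · obtain ⟨-, h10, h11⟩ := hrange y (hin y hy)
      obtain ⟨h12, -⟩ := hran y ⟨(hin y hy).1, by linarith [(hin y hy).2]⟩
      simp only [Function.comp_apply]
      rw [clampPow_eq ⟨(hran y ⟨(hin y hy).1, by linarith [(hin y hy).2]⟩).2.1, by linarith⟩,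
        clampPow_eq ⟨h10, by linarith⟩]
    · obtain ⟨⟨h10, h11⟩, -⟩ := hrange y (hin y hy)
      simp only [Function.comp_apply]
      rw [clampPow_eq ⟨(hran y ⟨(hin y hy).1, by linarith [(hin y hy).2]⟩).1.1, by linarith⟩,
        clampPow_eq ⟨h10, by linarith⟩]
  have hz : Tendsto (fun k => 2 * |bk (φ k) - b| * Real.exp ((L / N + 1) * |s|)) atTop (𝓝 0) := by
    have := ((hlim.sub_const b).abs.const_mul 2).mul_const (Real.exp ((L / N + 1) * |s|))
    simpa using this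
  have tu : Tendsto (fun k => uk (φ k) s) atTop (𝓝 (u s)) := tendsto_sub_nhds_zero_iff.1
    (squeeze_zero_norm' (hclose.mono fun k hk => hk.2.1) hz)
  have tv : Tendsto (fun k => vk (φ k) s) atTop (𝓝 (v s)) := tendsto_sub_nhds_zero_iff.1
    (squeeze_zero_norm' (hclose.mono fun k hk => hk.2.2) hz)
  exact ⟨isClosed_Icc.mem_of_tendsto tu (hclose.mono fun k hk => hk.1.1),
    isClosed_Icc.mem_of_tendsto tv (hclose.mono fun k hk => hk.1.2)⟩

end Vale.Agent.P100.Bubble
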