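import Mathlib
import Vale.Agent.P100.Bubble.Shoot

/-!
# Branches of the critical bubble across `ρ = 0`

A branch solves the integral equations with exact powers on `(lo, ∞)`, `lo < 0`. It is twice
continuously differentiable there and satisfies the quadric at the critical exponents.
-/

open MeasureTheory Set Filter Topology
open scoped NNReal

namespace Vale.Agent.P100.Bubble

variable {N p q lo : ℝ} {U V : ℝ → ℝ}

theorem avg_neg (h : ℝ → ℝ) (s : ℝ) : avg N h s = avg N (fun x => h (-x)) (-s) := by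
  simp [avg]

theorem avg_ibp (hN : 2 < N) {h g : ℝ → ℝ} {s : ℝ} (hh : Continuous h) (hg : Continuous g)
    (hd : ∀ x ∈ uIcc 0 s, HasDerivAt h (g x) x) :
    s * avg (N + 2) g s = h s - N / 2 * avg N h s := by
  have hF : ∀ t ∈ uIcc (0 : ℝ) 1, HasDerivAt (fun t => t ^ (N / 2) * h (s * t))
      (N / 2 * (t ^ (N / 2 - 1) * h (s * t)) + s * (t ^ ((N + 2) / 2 - 1) * g (s * t))) t := by
    intro t ht
    rw [uIcc_of_le zero_le_one] at ht
    have h1 := (Real.hasDerivAt_rpow_const (x := t) (p := N / 2) (Or.inr (by linarith))).fun_mul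
      ((hd _ (mem_uIcc_mul ht)).comp t ((hasDerivAt_id t).const_mul s))
    refine h1.congr_deriv ?_
    rw [show (N + 2) / 2 - 1 = N / 2 by ring]
    simp only [Function.comp_apply, id_eq]
    ring
  have i1 := (integrable_kernel hN hh s 0 1).const_mul (N / 2)
  have i2 := (integrable_kernel (N := N + 2) (by linarith) hg s 0 1).const_mul s
  have h2 := intervalIntegral.integral_eq_sub_of_hasDerivAt hF (i1.add i2)
  rw [intervalIntegral.integral_add i1 i2, intervalIntegral.integral_const_mul,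
    intervalIntegral.integral_const_mul, Real.one_rpow, Real.zero_rpow (by linarith), one_mul,
    zero_mul, sub_zero, mul_one] at h2
  rw [avg, avg]
  linarith

theorem hasDerivAt_avg_ne (hN : 2 < N) {h : ℝ → ℝ} (hh : Continuous h) {s : ℝ} (hs : s ≠ 0) :
    HasDerivAt (avg N h) ((h s - N / 2 * avg N h s) / s) s := by
  rcases hs.lt_or_gt with hs | hs
  · have h1 : HasDerivAt (avg N fun x => h (-x))
        ((h s - N / 2 * avg N h s) / (-s)) (-s) := by
      refine (hasDerivAt_avg hN (hh.comp continuous_neg) (neg_pos.2 hs)).congr_deriv ?_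
      rw [avg_neg h s]
      simp only [Function.comp_apply, neg_neg]
      rfl
    have h2 := h1.comp s (hasDerivAt_neg s)
    refine (h2.congr_of_eventuallyEq (Eventually.of_forall fun x => avg_neg h x)).congr_deriv ?_
    ring
  · exact hasDerivAt_avg hN hh hs

/-- Differentiation of the average under a one-sided global hypothesis. -/
theorem hasDerivAt_avg_smooth (hN : 2 < N) (hlo : lo < 0) {h g : ℝ → ℝ} (hg : Continuous g)
    (hd : ∀ x, lo < x → HasDerivAt h (g x) x) {s : ℝ} (hs : lo < s) :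
    HasDerivAt (avg N h) (avg (N + 2) g s) s := by
  set e : ℝ → ℝ := fun x => h 0 + ∫ y in (0 : ℝ)..x, g y with he
  have hde : ∀ x, HasDerivAt e (g x) x := fun x =>
    ((hg.integral_hasStrictDerivAt 0 x).hasDerivAt).const_add (h 0)
  have heq : ∀ x, lo < x → h x = e x := by
    intro x hx
    simp only [e]
    rw [intervalIntegral.integral_eq_sub_of_hasDerivAt
      (fun y hy => hd y ((lt_min hlo hx).trans_le hy.1)) (hg.intervalIntegrable 0 x)]
    ring
  have hce : Continuous e := continuous_iff_continuousAt.2 fun x => (hde x).continuousAt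
  have hne : ∀ y, y ≠ 0 → HasDerivAt (avg N e) (avg (N + 2) g y) y := fun y hy => by
    refine (hasDerivAt_avg_ne hN hce hy).congr_deriv ?_
    rw [← avg_ibp hN hce hg fun x _ => hde x, mul_div_cancel_left₀ _ hy]
  have hall : HasDerivAt (avg N e) (avg (N + 2) g s) s := by
    by_cases h0 : s = 0
    · subst h0
      exact hasDerivAt_of_hasDerivAt_of_ne' hne (continuous_avg hN hce).continuousAt
        (continuous_avg (by linarith) hg).continuousAt _
    · exact hne s h0
  refine hall.congr_of_eventuallyEq (eventuallyEq_of_mem (Ioi_mem_nhds hs) fun x hx => ?_)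
  exact avg_congr fun y hy => heq y ((lt_min hlo hx).trans_le hy.1)

theorem avg_pos (hN : 2 < N) {h : ℝ → ℝ} (hh : Continuous h) (hp : ∀ x, 0 < h x) (s : ℝ) :
    0 < avg N h s := by
  obtain ⟨x, -, hx⟩ := isCompact_uIcc.exists_isMinOn (nonempty_uIcc (a := (0 : ℝ)) (b := s))
    hh.continuousOn
  exact lt_of_lt_of_le (mul_pos (hp x) (by positivity)) (avg_ge hN hh fun y hy => hx hy)

theorem avg_zero (hN : 2 < N) (h : ℝ → ℝ) : avg N h 0 = 2 / N * h 0 := by
  simp only [avg, zero_mul]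
  rw [intervalIntegral.integral_mul_const, integral_weight hN]

/-- The velocity `u' = - (1/4) avg (v ^ p)`. -/
noncomputable def vel (N p : ℝ) (V : ℝ → ℝ) (ρ : ℝ) : ℝ :=
  -(1 / 4) * avg N (fun s => V s ^ p) ρ

/-- The derivative of `vel`, given the velocity `B` of `V`. -/
noncomputable def acc (N p : ℝ) (V B : ℝ → ℝ) (ρ : ℝ) : ℝ :=
  -(1 / 4) * avg (N + 2) (fun s => p * V s ^ (p - 1) * B s) ρ

theorem vel_neg (hN : 2 < N) (cV : Continuous V) (hV : ∀ s, 0 < V s) (ρ : ℝ) : vel N p V ρ < 0 := by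
  have := avg_pos hN (cV.rpow_const fun x => Or.inl (hV x).ne') (fun x => Real.rpow_pos_of_pos (hV x) p) ρ
  rw [vel]; linarith

theorem continuous_vel (hN : 2 < N) (cV : Continuous V) (hV : ∀ s, 0 < V s) :
    Continuous (vel N p V) :=
  continuous_const.mul (continuous_avg hN (cV.rpow_const fun x => Or.inl (hV x).ne'))

theorem continuous_acc (hN : 2 < N) {B : ℝ → ℝ} (cV : Continuous V) (hV : ∀ s, 0 < V s)
    (cB : Continuous B) : Continuous (acc N p V B) :=
  continuous_const.mul (continuous_avg (by linarith)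
    ((continuous_const.mul (cV.rpow_const fun x => Or.inl (hV x).ne')).mul cB))

theorem hasDerivAt_vel (hN : 2 < N) (hlo : lo < 0) {B : ℝ → ℝ} (cV : Continuous V)
    (hV : ∀ s, 0 < V s) (cB : Continuous B) (hd : ∀ x, lo < x → HasDerivAt V (B x) x)
    {ρ : ℝ} (hρ : lo < ρ) :
    HasDerivAt (vel N p V) (acc N p V B ρ) ρ ∧
      ρ * acc N p V B ρ = -(1 / 4) * V ρ ^ p - N / 2 * vel N p V ρ := by
  have hg : Continuous fun s => p * V s ^ (p - 1) * B s :=
    (continuous_const.mul (cV.rpow_const fun x => Or.inl (hV x).ne')).mul cB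
  have hh : ∀ x, lo < x → HasDerivAt (fun s => V s ^ p) (p * V x ^ (p - 1) * B x) x := fun x hx => by
    refine ((hd x hx).rpow_const (p := p) (Or.inl (hV x).ne')).congr_deriv ?_
    ring
  refine ⟨(hasDerivAt_avg_smooth hN hlo hg hh hρ).const_mul _, ?_⟩
  have := avg_ibp hN (cV.rpow_const fun x => Or.inl (hV x).ne') hg
    fun x hx => hh x ((lt_min hlo hρ).trans_le hx.1)
  rw [acc, vel, mul_left_comm, this]
  ring

/-- A function regular at zero with `ρ f' = - (N/2) f` vanishes. -/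
theorem eq_zero_of_euler {n T : ℝ} (hn : 0 < n) {f f' : ℝ → ℝ} (hT : 0 < T)
    (hf : ContinuousOn f (Icc 0 T)) (hd : ∀ s ∈ Ioo 0 T, HasDerivAt f (f' s) s)
    (he : ∀ s ∈ Ioo 0 T, s * f' s = -n * f s) : f T = 0 := by
  set G : ℝ → ℝ := fun s => s ^ n * f s with hG
  have hGd : ∀ s ∈ Ioo 0 T, HasDerivAt G 0 s := fun s hs => by
    refine ((Real.hasDerivAt_rpow_const (p := n) (Or.inl hs.1.ne')).fun_mul (hd s hs)).congr_deriv ?_
    have h2 : s ^ n * f' s = s ^ (n - 1) * (s * f' s) := by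
      rw [← mul_assoc, ← Real.rpow_add_one hs.1.ne', sub_add_cancel]
    rw [h2, he s hs]
    ring
  have hGc : ContinuousOn G (Icc 0 T) :=
    ((Real.continuous_rpow_const hn.le).continuousOn).mul hf
  obtain ⟨c, -, hslope⟩ := exists_hasDerivAt_eq_slope G (fun _ => 0) hT hGc hGd
  have hG0 : G 0 = 0 := by simp [G, Real.zero_rpow hn.ne']
  have hGT : G T = 0 := by
    have := eq_div_iff (by linarith : T - 0 ≠ 0) |>.1 hslope
    linarith
  exact (mul_eq_zero.1 hGT).resolve_left (Real.rpow_pos_of_pos hT _).ne'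

/-- Critical parameters with `q < p`. -/
structure IsCrit (N p q : ℝ) : Prop where
  dim : 2 < N
  q_pos : 0 < q
  lt : q < p
  crit : 1 / (p + 1) + 1 / (q + 1) = (N - 2) / N

theorem IsCrit.p_pos (h : IsCrit N p q) : 0 < p := h.q_pos.trans h.lt

theorem IsCrit.weights (h : IsCrit N p q) :
    0 < 1 / (p + 1) ∧ 1 / (p + 1) < 1 / (q + 1) ∧
      N * (1 / (p + 1)) + N * (1 / (q + 1)) = N - 2 := by
  have := h.p_pos
  have := h.q_pos
  refine ⟨by positivity, one_div_lt_one_div_of_lt (by linarith) (by linarith [h.lt]), ?_⟩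
  rw [← mul_add, h.crit, mul_div_cancel₀ _ (by linarith [h.dim])]

/-- Positive solutions of the critical system in `ρ` on `(lo, ∞)`. -/
structure IsBranch (N p q lo : ℝ) (U V : ℝ → ℝ) : Prop where
  lo_neg : lo < 0
  contU : Continuous U
  contV : Continuous V
  posU : ∀ ρ, 0 < U ρ
  posV : ∀ ρ, 0 < V ρ
  one : U 0 = 1
  eqU : ∀ ρ, lo < ρ → U ρ = 1 + prim N (fun s => V s ^ p) ρ
  eqV : ∀ ρ, lo < ρ → V ρ = V 0 + prim N (fun s => U s ^ q) ρ

namespace IsBranch

theorem hasDerivAt_U (h : IsBranch N p q lo U V) (hN : 2 < N) {ρ : ℝ} (hρ : lo < ρ) :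
    HasDerivAt U (vel N p V ρ) ρ := by
  refine HasDerivAt.congr_of_eventuallyEq ?_
    (eventuallyEq_of_mem (Ioi_mem_nhds hρ) fun x hx => h.eqU x hx)
  exact (hasDerivAt_prim hN (h.contV.rpow_const fun x => Or.inl (h.posV x).ne') ρ).const_add 1

theorem hasDerivAt_V (h : IsBranch N p q lo U V) (hN : 2 < N) {ρ : ℝ} (hρ : lo < ρ) :
    HasDerivAt V (vel N q U ρ) ρ := by
  refine HasDerivAt.congr_of_eventuallyEq ?_
    (eventuallyEq_of_mem (Ioi_mem_nhds hρ) fun x hx => h.eqV x hx)
  exact (hasDerivAt_prim hN (h.contU.rpow_const fun x => Or.inl (h.posU x).ne') ρ).const_add _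

theorem velU_spec (h : IsBranch N p q lo U V) (hN : 2 < N) {ρ : ℝ} (hρ : lo < ρ) :
    HasDerivAt (vel N p V) (acc N p V (vel N q U) ρ) ρ ∧
      ρ * acc N p V (vel N q U) ρ = -(1 / 4) * V ρ ^ p - N / 2 * vel N p V ρ :=
  hasDerivAt_vel hN h.lo_neg h.contV h.posV (continuous_vel hN h.contU h.posU)
    (fun _ hx => h.hasDerivAt_V hN hx) hρ

theorem velV_spec (h : IsBranch N p q lo U V) (hN : 2 < N) {ρ : ℝ} (hρ : lo < ρ) :
    HasDerivAt (vel N q U) (acc N q U (vel N p V) ρ) ρ ∧
      ρ * acc N q U (vel N p V) ρ = -(1 / 4) * U ρ ^ q - N / 2 * vel N q U ρ :=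
  hasDerivAt_vel hN h.lo_neg h.contU h.posU (continuous_vel hN h.contV h.posV)
    (fun _ hx => h.hasDerivAt_U hN hx) hρ

theorem velU_zero (hN : 2 < N) (V : ℝ → ℝ) : vel N p V 0 = -(V 0 ^ p) / (2 * N) := by
  rw [vel, avg_zero hN]; field_simp; ring

theorem quadric (h : IsBranch N p q lo U V) (hc : IsCrit N p q) {ρ : ℝ} (hρ : lo < ρ) :
    4 * ρ * vel N p V ρ * vel N q U ρ + 1 / (p + 1) * V ρ ^ (p + 1) +
      1 / (q + 1) * U ρ ^ (q + 1) +
      2 * N * (1 / (p + 1) * V ρ * vel N p V ρ + 1 / (q + 1) * U ρ * vel N q U ρ) = 0 := by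
  have hN := hc.dim
  obtain ⟨-, -, hab⟩ := hc.weights
  set al : ℝ := 1 / (p + 1) with hal
  set be : ℝ := 1 / (q + 1) with hbe
  have ha1 : al * (p + 1) = 1 := by rw [hal]; field_simp [(by linarith [hc.p_pos] : p + 1 ≠ 0)]
  have hb1 : be * (q + 1) = 1 := by rw [hbe]; field_simp [(by linarith [hc.q_pos] : q + 1 ≠ 0)]
  set A := vel N p V
  set B := vel N q U
  set a := acc N p V B
  set c := acc N q U A
  set F : ℝ → ℝ := fun s => 4 * s * A s * B s + al * V s ^ (p + 1) + be * U s ^ (q + 1) +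
    2 * N * (al * V s * A s + be * U s * B s) with hF
  set F' : ℝ → ℝ := fun s => 4 * A s * B s + 4 * s * a s * B s + 4 * s * A s * c s +
    V s ^ p * B s + U s ^ q * A s +
    2 * N * (al * (B s * A s + V s * a s) + be * (A s * B s + U s * c s)) with hF'
  have key : ∀ s, lo < s → HasDerivAt F (F' s) s ∧ s * F' s = -(N / 2) * F s := by
    intro s hs
    obtain ⟨dA, eA⟩ := h.velU_spec hN hs
    obtain ⟨dB, eB⟩ := h.velV_spec hN hs
    have du := h.hasDerivAt_U hN hs
    have dv := h.hasDerivAt_V hN hs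
    have dvp : HasDerivAt (fun x => V x ^ (p + 1)) (B s * (p + 1) * V s ^ p) s := by
      simpa [B] using dv.rpow_const (p := p + 1) (Or.inl (h.posV s).ne')
    have duq : HasDerivAt (fun x => U x ^ (q + 1)) (A s * (q + 1) * U s ^ q) s := by
      simpa [A] using du.rpow_const (p := q + 1) (Or.inl (h.posU s).ne')
    have dF := ((((((hasDerivAt_id s).const_mul 4).fun_mul dA).fun_mul dB).fun_add
      (dvp.const_mul al)).fun_add (duq.const_mul be)).fun_add
      ((((dv.const_mul al).fun_mul dA).fun_add ((du.const_mul be).fun_mul dB)).const_mul (2 * N))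
    constructor
    · refine dF.congr_deriv ?_
      simp only [id, F', a, c, A, B]
      linear_combination (vel N q U s * V s ^ p) * ha1 + (vel N p V s * U s ^ q) * hb1
    · simp only [F, F']
      rw [show V s ^ (p + 1) = V s ^ p * V s by rw [Real.rpow_add_one (h.posV s).ne'],
        show U s ^ (q + 1) = U s ^ q * U s by rw [Real.rpow_add_one (h.posU s).ne']]
      linear_combination (4 * s * B s + 2 * N * al * V s) * eA +
        (4 * s * A s + 2 * N * be * U s) * eB + (2 * s * A s * B s) * hab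
  have hFc : ∀ s, lo < s → ContinuousAt F s := fun s hs => (key s hs).1.continuousAt
  rcases lt_trichotomy ρ 0 with h0 | h0 | h0
  · have h1 := eq_zero_of_euler (n := N / 2) (f := fun s => F (-s)) (f' := fun s => -F' (-s))
      (by linarith) (neg_pos.2 h0) (fun s hs => ((hFc (-s) (by linarith [hs.2])).comp
        continuous_neg.continuousAt).continuousWithinAt)
      (fun s hs => by
        refine ((key (-s) (by linarith [hs.2])).1.comp s (hasDerivAt_neg s)).congr_deriv ?_
        ring)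
      (fun s hs => by
        have := (key (-s) (by linarith [hs.2])).2
        linarith)
    simpa [F] using h1
  · subst h0
    simp only [A, B, velU_zero hN]
    rw [show V 0 ^ (p + 1) = V 0 ^ p * V 0 by rw [Real.rpow_add_one (h.posV 0).ne'],
      show U 0 ^ (q + 1) = U 0 ^ q * U 0 by rw [Real.rpow_add_one (h.posU 0).ne']]
    field_simp
    ring
  · exact eq_zero_of_euler (n := N / 2) (f := F) (by linarith) h0
      (fun s hs => (hFc s (h.lo_neg.trans_le hs.1)).continuousWithinAt)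
      (fun s hs => (key s (h.lo_neg.trans hs.1)).1) (fun s hs => (key s (h.lo_neg.trans hs.1)).2)

end IsBranch

/-- A branch through the bubble exists. -/
theorem exists_isBranch (hc : IsCrit N p q) :
    ∃ (lo : ℝ) (U V : ℝ → ℝ), IsBranch N p q lo U V := by
  have hN := hc.dim
  have hp := hc.p_pos
  have hq := hc.q_pos
  obtain ⟨b, hb, hb2, hR⟩ := exists_bubble hN hp hq hc.crit
  choose δ hδ uR vR hsol hran using fun R : {R : ℝ // 0 < R} => hR R.1 R.2
  have agree : ∀ R S : {R : ℝ // 0 < R}, R.1 ≤ S.1 → ∀ s ∈ Icc 0 R.1,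
      uR R s = uR S s ∧ vR R s = vR S s := by
    intro R S hRS s hs
    set d : ℝ := min (δ R) (δ S) with hd
    have hd0 : 0 < d := lt_min (hδ R) (hδ S)
    have hδ1 : δ R ≤ 1 := ((hran R 0 (left_mem_Icc.2 R.2.le)).1.1).trans
      ((hran R 0 (left_mem_Icc.2 R.2.le)).1.2)
    obtain ⟨L, hf, hg⟩ := exists_lipschitz_pair hd0
      (show d ≤ 3 by linarith [min_le_left (δ R) (δ S)]) p q
    have eqs : ∀ T : {R : ℝ // 0 < R}, R.1 ≤ T.1 → d ≤ δ T → ∀ x ∈ Icc 0 R.1,
        uR T x = 1 + prim N (clampPow p d 3 ∘ vR T) x ∧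
          vR T x = b + prim N (clampPow q d 3 ∘ uR T) x := by
      intro T hT hdT x hx
      refine ⟨((hsol T).eqU x).trans (congrArg _ (prim_congr fun y hy => ?_)),
        ((hsol T).eqV x).trans (congrArg _ (prim_congr fun y hy => ?_))⟩ <;>
      · rw [uIcc_of_le hx.1] at hy
        obtain ⟨⟨h1, h2⟩, h3, h4⟩ := hran T y ⟨hy.1, by linarith [hy.2, hx.2]⟩
        simp only [Function.comp_apply]
        rw [clampPow_eq ⟨by linarith, by linarith⟩, clampPow_eq ⟨by linarith, by linarith⟩]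
    have := stability hN hf hg le_rfl R.2.le (hsol R).contU (hsol R).contV (hsol S).contU
      (hsol S).contV (eqs R le_rfl (min_le_left _ _)) (eqs S hRS (min_le_right _ _)) hs
    simpa [sub_eq_zero] using this
  let idx : ℝ → {R : ℝ // 0 < R} := fun ρ => ⟨|ρ| + 1, by positivity⟩
  set P₁ : ℝ → ℝ := fun ρ => uR (idx ρ) |ρ| with hP₁
  set P₂ : ℝ → ℝ := fun ρ => vR (idx ρ) |ρ| with hP₂
  have loc : ∀ (R : {R : ℝ // 0 < R}) (ρ : ℝ), |ρ| ≤ R.1 → P₁ ρ = uR R |ρ| ∧ P₂ ρ = vR R |ρ| := by
    intro R ρ hρ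
    rcases le_total (idx ρ).1 R.1 with hh | hh
    · exact agree _ _ hh _ ⟨abs_nonneg _, by simp [idx]⟩
    · exact ⟨(agree _ _ hh _ ⟨abs_nonneg _, hρ⟩).1.symm, (agree _ _ hh _ ⟨abs_nonneg _, hρ⟩).2.symm⟩
  have cP : Continuous P₁ ∧ Continuous P₂ := by
    constructor <;> refine continuous_iff_continuousAt.2 fun x => ?_
    all_goals
      have hmem : {ρ : ℝ | |ρ| < (idx x).1} ∈ 𝓝 x :=
        (isOpen_lt continuous_abs continuous_const).mem_nhds
          (show |x| < (idx x).1 by simp [idx])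
    · exact ((hsol (idx x)).contU.comp continuous_abs).continuousAt.congr
        (eventuallyEq_of_mem hmem fun ρ hρ => ((loc _ ρ (le_of_lt hρ)).1).symm)
    · exact ((hsol (idx x)).contV.comp continuous_abs).continuousAt.congr
        (eventuallyEq_of_mem hmem fun ρ hρ => ((loc _ ρ (le_of_lt hρ)).2).symm)
  -- the local piece at the left of zero
  set d : ℝ := min 1 b / 2 with hd
  have hd0 : 0 < d := by positivity
  have hd1 : d < 1 ∧ d < b := by
    constructor <;> simp only [hd] <;> linarith [min_le_left 1 b, min_le_right 1 b]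
  obtain ⟨u, v, huv⟩ := exists_truncSol hN hp hq hd0 (show d ≤ 3 by linarith [hd1.1]) b
  obtain ⟨au, av, -, -⟩ := huv.basic hN hp hq hd0
  have hnear : {s : ℝ | u s < 3 ∧ v s < 3} ∈ 𝓝 (0 : ℝ) :=
    ((isOpen_lt huv.contU continuous_const).inter (isOpen_lt huv.contV continuous_const)).mem_nhds
      ⟨show u 0 < 3 by rw [huv.u_zero]; norm_num, show v 0 < 3 by rw [huv.v_zero]; linarith⟩
  obtain ⟨e, he, hball⟩ := Metric.mem_nhds_iff.1 hnear
  set U : ℝ → ℝ := fun ρ => if ρ ≤ 0 then u ρ else P₁ ρ with hU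
  set V : ℝ → ℝ := fun ρ => if ρ ≤ 0 then v ρ else P₂ ρ with hV
  have h00 : P₁ 0 = 1 ∧ P₂ 0 = b := by
    simp only [P₁, P₂, abs_zero]
    exact ⟨(hsol _).u_zero, (hsol _).v_zero⟩
  have cU : Continuous U := Continuous.if_le huv.contU cP.1 continuous_id continuous_const
    fun x hx => by rw [hx, huv.u_zero, h00.1]
  have cV : Continuous V := Continuous.if_le huv.contV cP.2 continuous_id continuous_const
    fun x hx => by rw [hx, huv.v_zero, h00.2]
  have posP : ∀ ρ, 0 < P₁ ρ ∧ 0 < P₂ ρ := fun ρ => by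
    obtain ⟨⟨h1, -⟩, h2, -⟩ := hran (idx ρ) |ρ| ⟨abs_nonneg _, by simp [idx]⟩
    exact ⟨(hδ _).trans_le h1, (hδ _).trans_le h2⟩
  have neg_ge : ∀ s ≤ (0 : ℝ), 1 ≤ u s ∧ b ≤ v s := fun s hs =>
    ⟨huv.u_zero ▸ au.antitone hs, huv.v_zero ▸ av.antitone hs⟩
  have hV0 : V 0 = b := by simp [V, huv.v_zero]
  refine ⟨-e, U, V, by linarith, cU, cV, fun ρ => ?_, fun ρ => ?_, by simp [U, huv.u_zero],
    fun ρ hρ => ?_, fun ρ hρ => ?_⟩
  · by_cases h : ρ ≤ 0
    · simp only [U, if_pos h]; linarith [(neg_ge ρ h).1]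
    · simp only [U, if_neg h]; exact (posP ρ).1
  · by_cases h : ρ ≤ 0
    · simp only [V, if_pos h]; linarith [(neg_ge ρ h).2]
    · simp only [V, if_neg h]; exact (posP ρ).2
  all_goals
    rcases le_or_gt ρ 0 with h | h
    · have hin : ∀ y ∈ uIcc 0 ρ, y ≤ 0 ∧ u y < 3 ∧ v y < 3 := fun y hy => by
        rw [uIcc_of_ge h] at hy
        refine ⟨hy.2, hball (show y ∈ Metric.ball 0 e by
          rw [Metric.mem_ball, Real.dist_eq, sub_zero, abs_lt]; constructor <;> linarith [hy.1, hy.2])⟩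
      try rw [hV0]
      simp only [U, V, if_pos h]
      first
        | refine (huv.eqU ρ).trans (congrArg _ (prim_congr fun y hy => ?_))
        | refine (huv.eqV ρ).trans (congrArg _ (prim_congr fun y hy => ?_))
      obtain ⟨hy0, hu3, hv3⟩ := hin y hy
      simp only [Function.comp_apply, if_pos hy0]
      exact clampPow_eq ⟨by linarith [(neg_ge y hy0).1, (neg_ge y hy0).2, hd1.1, hd1.2],
        by linarith⟩
    · have hpos : ∀ y ∈ uIcc 0 ρ, U y = uR (idx ρ) y ∧ V y = vR (idx ρ) y := fun y hy => by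
        rw [uIcc_of_le h.le] at hy
        rcases hy.1.eq_or_lt with rfl | hy0
        · simp [U, V, huv.u_zero, huv.v_zero, (hsol (idx ρ)).u_zero, (hsol (idx ρ)).v_zero]
        · simp only [U, V, if_neg (not_le.2 hy0)]
          have := loc (idx ρ) y (by simp only [idx, abs_of_pos hy0, abs_of_pos h]; linarith [hy.2])
          rwa [abs_of_pos hy0] at this
      try rw [hV0]
      obtain ⟨e1, e2⟩ := hpos ρ right_mem_uIcc
      first
        | refine e1.trans (((hsol (idx ρ)).eqU ρ).trans (congrArg _ (prim_congr fun y hy => ?_)))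
        | refine e2.trans (((hsol (idx ρ)).eqV ρ).trans (congrArg _ (prim_congr fun y hy => ?_)))
      obtain ⟨e3, e4⟩ := hpos y hy
      rw [uIcc_of_le h.le] at hy
      obtain ⟨⟨h1, h2⟩, h3, h4⟩ := hran (idx ρ) y
        ⟨hy.1, by simp only [idx, abs_of_pos h]; linarith [hy.2]⟩
      simp only [Function.comp_apply, e3, e4]
      exact clampPow_eq ⟨by linarith, by linarith⟩

end Vale.Agent.P100.Bubble
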