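import Mathlib

/-!
# The phase system of a critical radial orbit

In `t = log r`, `x = -r u'/u`, `y = -r v'/v`, `P = r² v^p/u`, `Q = r² u^q/v`. If the ratio
`z = P/Q` decreases near `-∞` then it decreases strictly everywhere and tends to zero.
-/

open Set Filter Topology

namespace Vale.Agent.P100.Bubble

/-- Positive orbits of the phase system on the critical quadric below `z = be/al`. -/
structure IsOrbit (N al be : ℝ) (x y P Q : ℝ → ℝ) : Prop where
  al_pos : 0 < al
  lt : al < be
  sum : N * al + N * be = N - 2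
  dim : 2 < N
  dx : ∀ t, HasDerivAt x (P t - x t * (N - 2 - x t)) t
  dy : ∀ t, HasDerivAt y (Q t - y t * (N - 2 - y t)) t
  dP : ∀ t, HasDerivAt P (P t * (2 - (1 / al - 1) * y t + x t)) t
  dQ : ∀ t, HasDerivAt Q (Q t * (2 - (1 / be - 1) * x t + y t)) t
  x_pos : ∀ t, 0 < x t
  y_pos : ∀ t, 0 < y t
  P_pos : ∀ t, 0 < P t
  Q_pos : ∀ t, 0 < Q t
  x_lt : ∀ t, x t < N - 2
  y_lt : ∀ t, y t < N - 2
  below : ∀ t, al * P t < be * Q t
  quad : ∀ t, x t * y t + al * P t + be * Q t = N * (al * x t + be * y t)

theorem eventually_lt_left {f : ℝ → ℝ} {f' c : ℝ} (hf : HasDerivAt f f' c) (hp : 0 < f') :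
    ∀ᶠ s in 𝓝[<] c, f s < f c := by
  have h := ((hasDerivAt_iff_tendsto_slope.1 hf).mono_left
    (nhdsWithin_mono c fun s hs => ne_of_lt hs)).eventually (Ioi_mem_nhds hp)
  filter_upwards [h, self_mem_nhdsWithin] with s hs hsc
  rw [slope_def_field] at hs
  have h1 : s - c < 0 := sub_neg.2 hsc
  have := (lt_div_iff_of_neg h1).1 hs
  linarith

theorem eventually_lt_right {f : ℝ → ℝ} {f' c : ℝ} (hf : HasDerivAt f f' c) (hp : f' < 0) :
    ∀ᶠ s in 𝓝[>] c, f s < f c := by
  have h := ((hasDerivAt_iff_tendsto_slope.1 hf).mono_left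
    (nhdsWithin_mono c fun s hs => ne_of_gt hs)).eventually (Iio_mem_nhds hp)
  filter_upwards [h, self_mem_nhdsWithin] with s hs hsc
  rw [slope_def_field] at hs
  have := (div_lt_iff₀ (sub_pos.2 (Set.mem_Ioi.1 hsc))).1 hs
  linarith

theorem deriv_nonpos_of_left {f : ℝ → ℝ} {f' c : ℝ} (hf : HasDerivAt f f' c)
    (h : ∀ᶠ s in 𝓝[<] c, f c ≤ f s) : f' ≤ 0 := by
  by_contra hp
  obtain ⟨s, hs, hs'⟩ := (h.and (eventually_lt_left hf (not_le.1 hp))).exists
  linarith

/-- A first point of a closed condition. -/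
theorem exists_first {s : Set ℝ} (hs : IsClosed s) {a b : ℝ} (hab : a ≤ b) (hb : b ∈ s) :
    ∃ c ∈ Icc a b, c ∈ s ∧ ∀ t ∈ Ico a c, t ∉ s := by
  obtain ⟨c, hc, hmin⟩ := (isCompact_Icc.inter_right hs).exists_isLeast
    (show (Icc a b ∩ s).Nonempty from ⟨b, ⟨hab, le_rfl⟩, hb⟩)
  exact ⟨c, hc.1, hc.2, fun t ht hts =>
    not_lt.2 (hmin ⟨⟨ht.1, ht.2.le.trans hc.1.2⟩, hts⟩) ht.2⟩

/-- A convergent function with bounded second derivative has derivative tending to zero. -/
theorem tendsto_deriv_zero {f f' f'' : ℝ → ℝ} {l C : ℝ} (hf : ∀ t, HasDerivAt f (f' t) t)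
    (hf' : ∀ t, HasDerivAt f' (f'' t) t) (hC : ∀ t, |f'' t| ≤ C)
    (hl : Tendsto f atTop (𝓝 l)) : Tendsto f' atTop (𝓝 0) := by
  have hC0 : 0 ≤ C := (abs_nonneg _).trans (hC 0)
  refine Metric.tendsto_atTop.2 fun e he => ?_
  set h : ℝ := e / (2 * (C + 1)) with hh
  have h0 : 0 < h := by positivity
  obtain ⟨T, hT⟩ := Metric.tendsto_atTop.1 hl (e * h / 4) (by positivity)
  refine ⟨T, fun t ht => ?_⟩
  obtain ⟨c, hc, hslope⟩ := exists_hasDerivAt_eq_slope f f' (show t < t + h by linarith)
    (fun s _ => (hf s).continuousAt.continuousWithinAt) (fun s _ => hf s)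
  have h1 := hT t ht
  have h2 := hT (t + h) (by linarith)
  rw [Real.dist_eq] at h1 h2 ⊢
  rw [sub_zero]
  have hlip : |f' c - f' t| ≤ C * |c - t| :=
    convex_univ.norm_image_sub_le_of_norm_hasDerivWithin_le
      (fun s _ => (hf' s).hasDerivWithinAt) (fun s _ => hC s) (mem_univ t) (mem_univ c)
  rw [abs_of_pos (sub_pos.2 hc.1)] at hlip
  have h3 : C * (c - t) ≤ e / 2 := by
    calc C * (c - t) ≤ (C + 1) * h :=
          mul_le_mul (by linarith) (by linarith [hc.2]) (by linarith [hc.1]) (by linarith)
      _ = e / 2 := by rw [hh]; field_simp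
  rw [add_sub_cancel_left, eq_div_iff h0.ne'] at hslope
  have h4 : |f' c| * h < e * h / 2 := by
    rw [← abs_of_pos h0, ← abs_mul, hslope, abs_of_pos h0]
    have := abs_sub (f (t + h) - l) (f t - l)
    rw [sub_sub_sub_cancel_right] at this
    linarith
  have h5 : |f' c| < e / 2 := lt_of_mul_lt_mul_right (by linarith) h0.le
  have := abs_sub_abs_le_abs_sub (f' t) (f' c)
  rw [abs_sub_comm] at this
  linarith

/-- `hh r x`: the sign of the derivative of `W = be y - al x` where it vanishes. -/
def hh (N al be r x : ℝ) : ℝ := (2 * N * be - x) * (1 - r) - (be - al) * x * (1 + r)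

/-- No point has `hh ≤ 0` and `x' ≤ 0` with the quadric lower bound. -/
theorem incompatible {N al be r x : ℝ} (hal : al < be) (hsum : N * al + N * be = N - 2)
    (hN : 2 < N) (hr : 0 ≤ r) (hxN : x ≤ N - 2) (h1 : hh N al be r x ≤ 0)
    (h2 : r * (2 * N * be - x) ≤ (1 + r) * be * (N - 2 - x)) : False := by
  have h3 : (1 + r) * (2 * N * be - x) ≤ (1 + r) * ((be - al) * x + 2 * be * (N - 2 - x)) := by
    simp only [hh] at h1; linarith
  have h4 := le_of_mul_le_mul_left h3 (by linarith)
  have h5 : N * al < N * be := mul_lt_mul_of_pos_left hal (by linarith)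
  have h6 := mul_le_mul_of_nonneg_left h4 (by linarith : 0 ≤ N)
  nlinarith

namespace IsOrbit

variable {N al be : ℝ} {x y P Q : ℝ → ℝ}

/-- `r = al P / (be Q)`. -/
noncomputable def ratio (al be : ℝ) (P Q : ℝ → ℝ) (t : ℝ) : ℝ := al * P t / (be * Q t)

/-- The derivative of `W = be y - al x`. -/
def dW (N al be : ℝ) (x y P Q : ℝ → ℝ) (t : ℝ) : ℝ :=
  be * (Q t - y t * (N - 2 - y t)) - al * (P t - x t * (N - 2 - x t))

/-- The second derivative of `W`. -/
noncomputable def ddW (N al be : ℝ) (x y P Q : ℝ → ℝ) (t : ℝ) : ℝ :=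
  be * (Q t * (2 - (1 / be - 1) * x t + y t) -
      (Q t - y t * (N - 2 - y t)) * (N - 2 - 2 * y t)) -
    al * (P t * (2 - (1 / al - 1) * y t + x t) -
      (P t - x t * (N - 2 - x t)) * (N - 2 - 2 * x t))

theorem be_pos (h : IsOrbit N al be x y P Q) : 0 < be := h.al_pos.trans h.lt

theorem alpha_gt (h : IsOrbit N al be x y P Q) : (N - 2) / 2 < N * be := by
  have := mul_lt_mul_of_pos_left h.lt (show 0 < N by linarith [h.dim])
  linarith [h.sum]

theorem hasDerivAt_W (h : IsOrbit N al be x y P Q) (t : ℝ) :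
    HasDerivAt (fun s => be * y s - al * x s) (dW N al be x y P Q t) t :=
  ((h.dy t).const_mul be).fun_sub ((h.dx t).const_mul al)

theorem hasDerivAt_dW (h : IsOrbit N al be x y P Q) (t : ℝ) :
    HasDerivAt (dW N al be x y P Q) (ddW N al be x y P Q t) t := by
  have e1 := ((h.dQ t).fun_sub ((h.dy t).fun_mul ((h.dy t).const_sub (N - 2)))).const_mul be
  have e2 := ((h.dP t).fun_sub ((h.dx t).fun_mul ((h.dx t).const_sub (N - 2)))).const_mul al
  refine (e1.fun_sub e2).congr_deriv ?_
  simp only [ddW]; ring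

theorem ratio_mem (h : IsOrbit N al be x y P Q) (t : ℝ) :
    0 < ratio al be P Q t ∧ ratio al be P Q t < 1 := by
  have := h.al_pos; have := h.be_pos; have := h.P_pos t; have := h.Q_pos t
  exact ⟨by simp only [ratio]; positivity,
    by rw [ratio, div_lt_one (by positivity)]; exact h.below t⟩

theorem hasDerivAt_ratio (h : IsOrbit N al be x y P Q) (t : ℝ) :
    HasDerivAt (ratio al be P Q)
      (-(ratio al be P Q t) * (be * y t - al * x t) / (al * be)) t := by
  have := h.al_pos; have := h.be_pos; have := h.Q_pos t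
  refine (((h.dP t).const_mul al).fun_div ((h.dQ t).const_mul be) (by positivity)).congr_deriv ?_
  simp only [ratio]
  field_simp
  ring

/-- The exact form of `W'`. -/
theorem dW_eq (h : IsOrbit N al be x y P Q) (t : ℝ) :
    be * (1 + ratio al be P Q t) * dW N al be x y P Q t =
      al * x t * hh N al be (ratio al be P Q t) (x t) + (be * y t - al * x t) *
        ((1 - ratio al be P Q t) * (N * be - x t) + (1 + ratio al be P Q t) *
          (be * y t - al * x t + 2 * al * x t - (N - 2) * be)) := by
  have := h.be_pos; have := h.Q_pos t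
  simp only [dW, hh, ratio]
  field_simp
  linear_combination (be * (be * Q t - al * P t)) * h.quad t

theorem sum_eq (h : IsOrbit N al be x y P Q) (t : ℝ) :
    ratio al be P Q t * (al * x t * N + y t * (N * be - x t)) =
      (1 + ratio al be P Q t) * (al * P t) := by
  have := h.be_pos; have := h.Q_pos t
  simp only [ratio]
  field_simp
  linear_combination (-(al * P t)) * h.quad t

/-- Where the quadric bound holds, `hh ≤ 0` forces `x' > 0`. -/
theorem dx_pos_of_hh (h : IsOrbit N al be x y P Q) {t : ℝ}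
    (hy : 0 ≤ (y t * be - al * x t) * (N * be - x t))
    (h1 : hh N al be (ratio al be P Q t) (x t) ≤ 0) : 0 < P t - x t * (N - 2 - x t) := by
  by_contra hG
  rw [not_lt] at hG
  obtain ⟨hr, -⟩ := h.ratio_mem t
  refine incompatible h.lt h.sum h.dim hr.le (h.x_lt t).le h1 ?_
  have h2 := mul_nonneg hr.le hy
  have h3 := h.sum_eq t
  have h4 : (1 + ratio al be P Q t) * (al * P t) ≤
      (1 + ratio al be P Q t) * (al * (x t * (N - 2 - x t))) :=
    mul_le_mul_of_nonneg_left (mul_le_mul_of_nonneg_left (by linarith) h.al_pos.le) (by linarith)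
  have h5 : ratio al be P Q t * (2 * N * be - x t) * (al * x t) ≤
      (1 + ratio al be P Q t) * be * (N - 2 - x t) * (al * x t) := by
    have := mul_le_mul_of_nonneg_left (h3.trans_le h4) h.be_pos.le
    linarith
  exact le_of_mul_le_mul_right h5 (mul_pos h.al_pos (h.x_pos t))

/-- At a degenerate zero of `W` the second derivative is negative when `x' > 0`. -/
theorem ddW_neg (h : IsOrbit N al be x y P Q) {t : ℝ} (hW : be * y t - al * x t = 0)
    (hd : dW N al be x y P Q t = 0) (hG : 0 < P t - x t * (N - 2 - x t)) :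
    ddW N al be x y P Q t < 0 := by
  have hal := h.al_pos; have hbe := h.be_pos; have hx := h.x_pos t
  set G := P t - x t * (N - 2 - x t) with hGdef
  set m := 2 - (1 / al - 1) * y t + x t with hm
  have hy : y t = al * x t / be := by field_simp; linarith
  have hm2 : 2 - (1 / be - 1) * x t + y t = m := by
    rw [hm, hy]; field_simp; ring
  have hGy : Q t - y t * (N - 2 - y t) = al * G / be := by
    simp only [dW] at hd
    rw [eq_div_iff hbe.ne', hGdef]; linarith
  have e1 := (((h.dx t).fun_mul (h.dy t)).fun_add ((h.dP t).const_mul al)).fun_add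
    ((h.dQ t).const_mul be)
  have e2 := (((h.dx t).const_mul al).fun_add ((h.dy t).const_mul be)).const_mul N
  have e3 : (fun s => x s * y s + al * P s + be * Q s) = fun s => N * (al * x s + be * y s) :=
    funext h.quad
  rw [e3] at e1
  have hid := e1.unique e2
  rw [hm2, ← hGdef, ← hm, hGy, hy] at hid
  have hq := h.quad t
  rw [hy] at hq
  field_simp at hid hq
  have h3 : x t * m * (2 * N * be - x t) * al = 2 * G * (N * be - x t) * al := by
    apply mul_left_cancel₀ hbe.ne'
    linear_combination be * hid - be * m * hq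
  have h4 : x t * m < 2 * G := by
    have hL : 0 < 2 * N * be - x t := by linarith [h.x_lt t, h.alpha_gt]
    refine lt_of_mul_lt_mul_right ?_ hL.le
    have h5 := mul_right_cancel₀ hal.ne' h3
    rw [h5]
    have := mul_pos hG (mul_pos (show 0 < N by linarith [h.dim]) hbe)
    linarith
  have hK : be * Q t - al * P t = al * x t * (x t - y t) := by
    simp only [dW] at hd
    rw [hy] at hd ⊢
    field_simp at hd ⊢
    linarith
  have h6 : ddW N al be x y P Q t = al * (x t - y t) * (x t * m - 2 * G) := by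
    simp only [ddW]
    rw [hm2, ← hGdef, ← hm, hGy]
    have h7 : be * (al * G / be * (N - 2 - 2 * y t)) = al * G * (N - 2 - 2 * y t) := by
      field_simp
    linear_combination m * hK - h7
  rw [h6]
  refine mul_neg_of_pos_of_neg (mul_pos hal (sub_pos.2 ?_)) (by linarith)
  rw [hy, div_lt_iff₀ hbe, mul_comm (x t)]
  exact mul_lt_mul_of_pos_right h.lt hx

theorem continuous_W (h : IsOrbit N al be x y P Q) : Continuous fun s => be * y s - al * x s :=
  continuous_iff_continuousAt.2 fun t => (h.hasDerivAt_W t).continuousAt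

theorem continuous_ratio (h : IsOrbit N al be x y P Q) : Continuous (ratio al be P Q) :=
  continuous_iff_continuousAt.2 fun t => (h.hasDerivAt_ratio t).continuousAt

theorem continuous_dx (h : IsOrbit N al be x y P Q) :
    Continuous fun s => P s - x s * (N - 2 - x s) :=
  continuous_iff_continuousAt.2 fun t =>
    ((h.dP t).continuousAt.sub ((h.dx t).continuousAt.mul
      (continuousAt_const.sub (h.dx t).continuousAt)))

theorem hh_antitone (h : IsOrbit N al be x y P Q) {r r' a a' : ℝ} (hr : r ≤ r') (ha : a ≤ a')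
    (hr' : r' ≤ 1) (ha0 : 0 ≤ a) (hr0 : 0 ≤ r) (haN : a' ≤ N - 2) :
    hh N al be r' a' ≤ hh N al be r a := by
  have e : hh N al be r' a' - hh N al be r a =
      -(r' - r) * ((2 * N * be - a') + (be - al) * a) -
        (a' - a) * ((1 - r) + (be - al) * (1 + r')) := by
    simp only [hh]; ring
  have h1 : 0 ≤ (r' - r) * ((2 * N * be - a') + (be - al) * a) :=
    mul_nonneg (sub_nonneg.2 hr) (add_nonneg (by linarith [h.alpha_gt])
      (mul_nonneg (by linarith [h.lt]) ha0))
  have h2 : 0 ≤ (a' - a) * ((1 - r) + (be - al) * (1 + r')) :=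
    mul_nonneg (sub_nonneg.2 ha) (add_nonneg (by linarith)
      (mul_nonneg (by linarith [h.lt]) (by linarith)))
  linarith

/-- If `W` is positive near `-∞` then it is positive everywhere. -/
theorem W_pos (h : IsOrbit N al be x y P Q) {T : ℝ} (hT : ∀ t ≤ T, 0 < be * y t - al * x t)
    (t : ℝ) : 0 < be * y t - al * x t := by
  have hal := h.al_pos; have hbe := h.be_pos; have hN := h.dim
  by_contra hneg
  rw [not_lt] at hneg
  have hTt : T ≤ t := le_of_lt (lt_of_not_ge fun h' => not_lt.2 hneg (hT t h'))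
  obtain ⟨c, hc, hWc, hfirst⟩ := exists_first (isClosed_le h.continuous_W continuous_const) hTt hneg
  simp only [mem_setOf_eq] at hWc
  have hTc : T < c := lt_of_le_of_ne hc.1 fun e => not_lt.2 hWc (e ▸ hT c e.ge)
  have hpos : ∀ᶠ s in 𝓝[<] c, 0 < be * y s - al * x s := by
    filter_upwards [Ioo_mem_nhdsLT hTc] with s hs
    exact not_le.1 (hfirst s ⟨hs.1.le, hs.2⟩)
  have hW0 : be * y c - al * x c = 0 := le_antisymm hWc
    (ge_of_tendsto ((h.continuous_W.tendsto c).mono_left nhdsWithin_le_nhds)
      (hpos.mono fun s hs => hs.le))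
  have hd : dW N al be x y P Q c ≤ 0 := deriv_nonpos_of_left (h.hasDerivAt_W c)
    (hpos.mono fun s hs => by linarith)
  set r := ratio al be P Q with hr
  have hrc := h.ratio_mem c
  have e1 := h.dW_eq c
  rw [hW0, zero_mul, add_zero] at e1
  have hh1 : hh N al be (r c) (x c) ≤ 0 := by
    by_contra hp
    have h2 : be * (1 + r c) * dW N al be x y P Q c ≤ 0 :=
      mul_nonpos_of_nonneg_of_nonpos (mul_nonneg hbe.le (by linarith)) hd
    have h3 := mul_pos (mul_pos hal (h.x_pos c)) (not_le.1 hp)
    linarith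
  have hG := h.dx_pos_of_hh (t := c)
    (by rw [show y c * be - al * x c = 0 by linarith, zero_mul]) hh1
  rcases hh1.eq_or_lt with h0 | hlt
  · -- a degenerate zero would be a strict local maximum
    rw [h0, mul_zero] at e1
    have hd0 : dW N al be x y P Q c = 0 :=
      (mul_eq_zero.1 e1).resolve_left (mul_pos hbe (by linarith)).ne'
    have hev := eventually_lt_left ((h.hasDerivAt_dW c).neg) (neg_pos.2 (h.ddW_neg hW0 hd0 hG))
    obtain ⟨l, hl, hsub⟩ := mem_nhdsLT_iff_exists_Ioo_subset.1 (hev.and hpos)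
    obtain ⟨s, hs⟩ := exists_between (mem_Iio.1 hl)
    obtain ⟨d, hd, hslope⟩ := exists_hasDerivAt_eq_slope _ _ hs.2
      h.continuous_W.continuousOn (fun u _ => h.hasDerivAt_W u)
    obtain ⟨h5, -⟩ := hsub ⟨hs.1.trans hd.1, hd.2⟩
    simp only [Pi.neg_apply, hd0, neg_zero, neg_lt_zero] at h5
    rw [eq_div_iff (by linarith [hs.2] : c - s ≠ 0), hW0] at hslope
    have h6 : 0 < dW N al be x y P Q d * (c - s) := mul_pos h5 (by linarith [hs.2])
    have h7 := (hsub ⟨hs.1, hs.2⟩).2
    linarith
  · -- afterwards `W < 0` and `x' > 0` for ever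
    have hdlt : dW N al be x y P Q c < 0 := by
      by_contra hp
      have h2 := mul_nonneg (mul_pos hbe (show 0 < 1 + r c by linarith)).le (not_lt.1 hp)
      have h3 := mul_neg_of_pos_of_neg (mul_pos hal (h.x_pos c)) hlt
      linarith
    obtain ⟨l, hl, hright⟩ := mem_nhdsGT_iff_exists_Ioo_subset.1
      ((eventually_lt_right (h.hasDerivAt_W c) hdlt).and
        (mem_nhdsWithin_of_mem_nhds ((h.continuous_dx.tendsto c).eventually (Ioi_mem_nhds hG))))
    obtain ⟨t₂, ht₂, ht₂l⟩ := exists_between (mem_Ioi.1 hl)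
    have hstart : ∀ s ∈ Ioc c t₂, be * y s - al * x s < 0 ∧ 0 < P s - x s * (N - 2 - x s) := by
      intro s hs
      obtain ⟨h1, h2⟩ := hright ⟨hs.1, hs.2.trans_lt ht₂l⟩
      exact ⟨by linarith, h2⟩
    have mono : ∀ d, c ≤ d →
        (∀ s ∈ Ioo c d, be * y s - al * x s ≤ 0 ∧ 0 ≤ P s - x s * (N - 2 - x s)) →
        r c ≤ r d ∧ x c ≤ x d := by
      intro d hd hs
      constructor
      · refine (monotoneOn_of_hasDerivWithinAt_nonneg (convex_Icc c d)
          h.continuous_ratio.continuousOn (fun s _ => (h.hasDerivAt_ratio s).hasDerivWithinAt)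
          fun s hi => ?_) (left_mem_Icc.2 hd) (right_mem_Icc.2 hd) hd
        rw [interior_Icc] at hi
        exact div_nonneg (mul_nonneg_of_nonpos_of_nonpos
          (neg_nonpos.2 (h.ratio_mem s).1.le) (hs s hi).1) (by positivity)
      · refine (monotoneOn_of_hasDerivWithinAt_nonneg (convex_Icc c d)
          (fun s _ => (h.dx s).continuousAt.continuousWithinAt)
          (fun s _ => (h.dx s).hasDerivWithinAt) fun s hi => ?_)
          (left_mem_Icc.2 hd) (right_mem_Icc.2 hd) hd
        rw [interior_Icc] at hi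
        exact (hs s hi).2
    have hhh : ∀ d, r c ≤ r d ∧ x c ≤ x d → hh N al be (r d) (x d) ≤ hh N al be (r c) (x c) :=
      fun d hd => h.hh_antitone hd.1 hd.2 (h.ratio_mem d).2.le (h.x_pos c).le hrc.1.le (h.x_lt d).le
    have hafter : ∀ s, c < s → be * y s - al * x s < 0 ∧ 0 < P s - x s * (N - 2 - x s) := by
      intro s hs
      by_contra hbad
      have hclosed : IsClosed
          {u | 0 ≤ be * y u - al * x u ∨ P u - x u * (N - 2 - x u) ≤ 0} :=
        (isClosed_le continuous_const h.continuous_W).union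
          (isClosed_le h.continuous_dx continuous_const)
      have hsb : s ∈ {u | 0 ≤ be * y u - al * x u ∨ P u - x u * (N - 2 - x u) ≤ 0} := by
        by_contra hn
        simp only [mem_setOf_eq, not_or, not_le] at hn
        exact hbad hn
      rcases le_or_gt s t₂ with hst | hst
      · exact hbad (hstart s ⟨hs, hst⟩)
      obtain ⟨d, hd, hdbad, hdfirst⟩ := exists_first hclosed hst.le hsb
      simp only [mem_setOf_eq] at hdbad
      have hgood : ∀ u ∈ Ioo c d, be * y u - al * x u < 0 ∧ 0 < P u - x u * (N - 2 - x u) := by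
        intro u hu
        rcases le_or_gt u t₂ with hut | hut
        · exact hstart u ⟨hu.1, hut⟩
        · have := hdfirst u ⟨hut.le, hu.2⟩
          simp only [mem_setOf_eq, not_or, not_le] at this
          exact this
      have hcd : c < d := ht₂.trans_le hd.1
      have hev : ∀ᶠ u in 𝓝[<] d, be * y u - al * x u < 0 ∧ 0 < P u - x u * (N - 2 - x u) := by
        filter_upwards [Ioo_mem_nhdsLT hcd] with u hu using hgood u hu
      have hm := mono d hcd.le fun u hu => ⟨(hgood u hu).1.le, (hgood u hu).2.le⟩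
      have hlt' : hh N al be (r d) (x d) < 0 := (hhh d hm).trans_lt hlt
      have hWd : be * y d - al * x d ≤ 0 :=
        le_of_tendsto ((h.continuous_W.tendsto d).mono_left nhdsWithin_le_nhds)
          (hev.mono fun u hu => hu.1.le)
      have hGd : 0 ≤ P d - x d * (N - 2 - x d) :=
        ge_of_tendsto ((h.continuous_dx.tendsto d).mono_left nhdsWithin_le_nhds)
          (hev.mono fun u hu => hu.2.le)
      rcases hWd.eq_or_lt with hW | hW
      · have h1 : -dW N al be x y P Q d ≤ 0 := deriv_nonpos_of_left (h.hasDerivAt_W d).neg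
          (hev.mono fun u hu => by simp only [Pi.neg_apply]; linarith [hu.1])
        have e2 := h.dW_eq d
        rw [hW, zero_mul, add_zero] at e2
        have h2 := mul_nonneg (mul_pos hbe (show 0 < 1 + r d by linarith [(h.ratio_mem d).1])).le
          (show 0 ≤ dW N al be x y P Q d by linarith)
        have h3 := mul_neg_of_pos_of_neg (mul_pos hal (h.x_pos d)) hlt'
        linarith
      · have hG0 : P d - x d * (N - 2 - x d) = 0 :=
          le_antisymm (hdbad.resolve_left (not_le.2 hW)) hGd
        have hGdd := deriv_nonpos_of_left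
          ((h.dP d).fun_sub ((h.dx d).fun_mul ((h.dx d).const_sub (N - 2))))
          (hev.mono fun u hu => by linarith [hu.2])
        have h1 : P d * (2 - (1 / al - 1) * y d + x d) ≤ 0 := by
          refine le_trans (le_of_eq ?_) hGdd
          rw [hG0]; ring
        have h2 : 2 - (1 / al - 1) * y d + x d ≤ 0 :=
          le_of_not_gt fun hp => not_lt.2 h1 (mul_pos (h.P_pos d) hp)
        have hal1 : al < 1 := by
          have := mul_pos (show 0 < N by linarith) hbe
          nlinarith [h.sum]
        have h3 : (2 + x d) * al ≤ (1 - al) * y d := by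
          have h5 := mul_le_mul_of_nonneg_right (show 2 + x d ≤ (1 / al - 1) * y d by linarith)
            hal.le
          refine h5.trans_eq ?_
          field_simp
        have h4 : N * be ≤ x d := by
          have h5 : (1 - al) * (be * y d) ≤ (1 - al) * (al * x d) :=
            mul_le_mul_of_nonneg_left (by linarith) (by linarith)
          have h6 : be * (2 + x d) ≤ (1 - al) * x d := by
            refine le_of_mul_le_mul_left ?_ hal
            have := mul_le_mul_of_nonneg_left h3 hbe.le
            linarith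
          have h7 : 2 * N * be ≤ N * (1 - al - be) * x d := by
            have := mul_le_mul_of_nonneg_left h6 (show 0 ≤ N by linarith)
            linarith
          rw [show N * (1 - al - be) = 2 by linarith [h.sum]] at h7
          linarith
        have := h.dx_pos_of_hh (t := d)
          (mul_nonneg_of_nonpos_of_nonpos (by linarith) (by linarith)) hlt'.le
        linarith
    -- then `W` stays away from zero and the ratio exceeds one
    set C : ℝ := (N - 2) + 2 * (al * (N - 2) + (N - 2) * be) with hC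
    have hC0 : 0 < C := by
      have : 0 < N - 2 := by linarith
      positivity
    set k : ℝ := al * x c * -hh N al be (r c) (x c) with hk
    have hk0 : 0 < k := mul_pos (mul_pos hal (h.x_pos c)) (neg_pos.2 hlt)
    set e : ℝ := min (-(be * y t₂ - al * x t₂)) (k / (2 * C)) with he
    have he0 : 0 < e := lt_min (by linarith [(hstart t₂ ⟨ht₂, le_rfl⟩).1]) (by positivity)
    have hstay : ∀ s, t₂ ≤ s → be * y s - al * x s ≤ -e := by
      intro s hs
      refine image_le_of_deriv_right_lt_deriv_boundary (f := fun u => be * y u - al * x u)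
        (B := fun _ => -e) (B' := fun _ => 0) (a := t₂) (b := s) h.continuous_W.continuousOn
        (fun u _ => (h.hasDerivAt_W u).hasDerivWithinAt)
        (le_neg.1 (min_le_left _ _)) (fun u => hasDerivAt_const u _)
        (fun u hu hue => ?_) (right_mem_Icc.2 hs)
      have hu' : c < u := ht₂.trans_le hu.1
      have hm := mono u hu'.le fun v hv => ⟨(hafter v hv.1).1.le, (hafter v hv.1).2.le⟩
      obtain ⟨hru, hru1⟩ := h.ratio_mem u
      have h1 : al * x u * hh N al be (r u) (x u) ≤ -k := by
        have h2 := mul_le_mul hm.2 (neg_le_neg (hhh u hm)) (neg_nonneg.2 hlt.le) (h.x_pos u).le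
        have := mul_le_mul_of_nonneg_left h2 hal.le
        linarith
      have e2 := h.dW_eq u
      rw [hue] at e2
      have h3 : -C ≤ (1 - r u) * (N * be - x u) + (1 + r u) * (-e + 2 * al * x u - (N - 2) * be) := by
        have hx0 := h.x_pos u
        have hxN := h.x_lt u
        have h4 : -(al * x u) ≤ -e := by rw [← hue]; linarith [mul_pos hbe (h.y_pos u)]
        have h5 : (1 - r u) * (-(N - 2)) ≤ (1 - r u) * (N * be - x u) :=
          mul_le_mul_of_nonneg_left (by linarith [mul_pos (show 0 < N by linarith) hbe]) (by linarith)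
        have h6 : (1 + r u) * (-((N - 2) * be)) ≤
            (1 + r u) * (-e + 2 * al * x u - (N - 2) * be) :=
          mul_le_mul_of_nonneg_left (by linarith [mul_pos hal hx0]) (by linarith)
        have h7 : 0 ≤ r u * (N - 2) := mul_nonneg hru.le (by linarith)
        have h8 : r u * ((N - 2) * be) ≤ (N - 2) * be :=
          mul_le_of_le_one_left (mul_nonneg (by linarith) hbe.le) hru1.le
        have h9 : 0 ≤ al * (N - 2) := mul_nonneg hal.le (by linarith)
        linarith
      have h4 : e * C ≤ k / 2 := by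
        have := mul_le_mul_of_nonneg_right (min_le_right (-(be * y t₂ - al * x t₂)) (k / (2 * C)))
          hC0.le
        calc e * C ≤ k / (2 * C) * C := this
          _ = k / 2 := by field_simp
      have h5 := mul_le_mul_of_nonneg_left h3 he0.le
      have h6 : be * (1 + r u) * dW N al be x y P Q u < 0 := by linarith
      exact neg_of_mul_neg_right h6 (mul_pos hbe (by linarith)).le
    have h1 := h.ratio_mem t₂
    set L : ℝ := r t₂ * e / (al * be) with hL
    have hL0 : 0 < L := div_pos (mul_pos h1.1 he0) (mul_pos hal hbe)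
    set s : ℝ := t₂ + 1 / L with hs
    have hts : t₂ ≤ s := by linarith [one_div_pos.2 hL0]
    have hmono : MonotoneOn r (Icc t₂ s) :=
      monotoneOn_of_hasDerivWithinAt_nonneg (convex_Icc t₂ s) h.continuous_ratio.continuousOn
        (fun u _ => (h.hasDerivAt_ratio u).hasDerivWithinAt) fun u hu => by
          rw [interior_Icc] at hu
          exact div_nonneg (mul_nonneg_of_nonpos_of_nonpos (neg_nonpos.2 (h.ratio_mem u).1.le)
            (by linarith [hstay u hu.1.le])) (by positivity)
    have hgrow := (convex_Icc t₂ s).mul_sub_le_image_sub_of_le_deriv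
      h.continuous_ratio.continuousOn
      (fun u _ => (h.hasDerivAt_ratio u).differentiableAt.differentiableWithinAt) (C := L)
      (fun u hu => by
        rw [interior_Icc] at hu
        rw [(h.hasDerivAt_ratio u).deriv, hL]
        refine div_le_div_of_nonneg_right ?_ (by positivity)
        rw [neg_mul, ← mul_neg]
        exact mul_le_mul (hmono (left_mem_Icc.2 hts) (Ioo_subset_Icc_self hu) hu.1.le)
          (by linarith [hstay u hu.1.le]) he0.le (h.ratio_mem u).1.le)
      t₂ (left_mem_Icc.2 hts) s (right_mem_Icc.2 hts) hts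
    rw [hs, add_sub_cancel_left, mul_one_div_cancel hL0.ne', ← hs] at hgrow
    have h2 := (h.ratio_mem s).2
    have h3 := h1.1
    linarith

theorem exists_bound (h : IsOrbit N al be x y P Q) {Φ : ℝ × ℝ × ℝ × ℝ → ℝ} (hΦ : Continuous Φ) :
    ∃ C, ∀ t, |Φ (x t, y t, P t, Q t)| ≤ C := by
  have hal := h.al_pos; have hbe := h.be_pos
  obtain ⟨C, hC⟩ := (isCompact_Icc (a := ((0 : ℝ), (0 : ℝ), (0 : ℝ), (0 : ℝ)))
    (b := (N - 2, N - 2, N * (N - 2) / al, N * (N - 2) / be))).exists_bound_of_continuousOn
      hΦ.continuousOn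
  refine ⟨C, fun t => hC _ ?_⟩
  have hq := h.quad t
  have hxy := mul_pos (h.x_pos t) (h.y_pos t)
  have h1 : al * x t + be * y t ≤ N - 2 := by
    have h2 := mul_le_mul_of_nonneg_left (h.x_lt t).le hal.le
    have h3 := mul_le_mul_of_nonneg_left (h.y_lt t).le hbe.le
    have h4 : (al + be) * (N - 2) ≤ N - 2 :=
      mul_le_of_le_one_left (by linarith [h.dim]) (by nlinarith [h.sum, h.dim])
    linarith
  have h5 := mul_le_mul_of_nonneg_left h1 (show 0 ≤ N by linarith [h.dim])
  refine ⟨⟨(h.x_pos t).le, (h.y_pos t).le, (h.P_pos t).le, (h.Q_pos t).le⟩,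
    (h.x_lt t).le, (h.y_lt t).le, ?_, ?_⟩
  · rw [le_div_iff₀ hal]; linarith [mul_pos hbe (h.Q_pos t)]
  · rw [le_div_iff₀ hbe]; linarith [mul_pos hal (h.P_pos t)]

/-- The ratio tends to zero. -/
theorem ratio_tendsto (h : IsOrbit N al be x y P Q) {T : ℝ}
    (hT : ∀ t ≤ T, 0 < be * y t - al * x t) : Tendsto (ratio al be P Q) atTop (𝓝 0) := by
  have hal := h.al_pos; have hbe := h.be_pos; have hN := h.dim
  set r := ratio al be P Q with hr
  have hanti : Antitone r := antitone_of_hasDerivAt_nonpos h.hasDerivAt_ratio fun t =>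
    div_nonpos_of_nonpos_of_nonneg
      (mul_nonpos_of_nonpos_of_nonneg (neg_nonpos.2 (h.ratio_mem t).1.le) (h.W_pos hT t).le)
      (by positivity)
  have hlim := tendsto_atTop_ciInf hanti ⟨0, fun v ⟨t, ht⟩ => ht ▸ (h.ratio_mem t).1.le⟩
  set l : ℝ := ⨅ t, r t with hldef
  have hl0 : 0 ≤ l := le_ciInf fun t => (h.ratio_mem t).1.le
  rcases hl0.eq_or_lt with hl | hl
  · rwa [← hl] at hlim
  exfalso
  have hl1 : l < 1 := (ciInf_le ⟨0, fun v ⟨t, ht⟩ => ht ▸ (h.ratio_mem t).1.le⟩ 0).trans_lt
    (h.ratio_mem 0).2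
  set W : ℝ → ℝ := fun t => be * y t - al * x t with hWdef
  -- W → 0
  obtain ⟨C₁, hC₁⟩ := h.exists_bound (Φ := fun s => -(be * (s.2.2.2 - s.2.1 * (N - 2 - s.2.1)) -
    al * (s.2.2.1 - s.1 * (N - 2 - s.1))) / (al * be)) (by fun_prop)
  have hW : Tendsto W atTop (𝓝 0) := by
    have h1 := tendsto_deriv_zero (f := fun t => Real.log (r t))
      (f' := fun t => -W t / (al * be)) (fun t => by
        refine ((h.hasDerivAt_ratio t).log (h.ratio_mem t).1.ne').congr_deriv ?_
        have : r t ≠ 0 := (h.ratio_mem t).1.ne'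
        simp only [W, ← hr]
        field_simp)
      (fun t => ((h.hasDerivAt_W t).neg.div_const (al * be))) hC₁
      ((Real.continuousAt_log hl.ne').tendsto.comp hlim)
    have h2 := h1.const_mul (-(al * be))
    simp only [mul_zero] at h2
    refine h2.congr fun t => ?_
    field_simp
  -- W' → 0
  obtain ⟨C₂, hC₂⟩ := h.exists_bound (Φ := fun s =>
    be * (s.2.2.2 * (2 - (1 / be - 1) * s.1 + s.2.1) -
      (s.2.2.2 - s.2.1 * (N - 2 - s.2.1)) * (N - 2 - 2 * s.2.1)) -
    al * (s.2.2.1 * (2 - (1 / al - 1) * s.2.1 + s.1) -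
      (s.2.2.1 - s.1 * (N - 2 - s.1)) * (N - 2 - 2 * s.1))) (by fun_prop)
  have hdW : Tendsto (dW N al be x y P Q) atTop (𝓝 0) :=
    tendsto_deriv_zero h.hasDerivAt_W h.hasDerivAt_dW hC₂ hW
  -- the limiting relation for x
  set m : ℝ := (1 - l) + (be - al) * (1 + l) with hm
  have hm0 : 0 < m := add_pos_of_pos_of_nonneg (by linarith)
    (mul_nonneg (by linarith [h.lt]) (by linarith))
  set L₀ : ℝ := 2 * N * be * (1 - l) / m with hL₀
  have hL0 : 0 < L₀ := div_pos (mul_pos (by positivity) (by linarith)) hm0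
  have hbdd : ∀ (f : ℝ → ℝ) (C : ℝ) (g : ℝ → ℝ), Tendsto g atTop (𝓝 0) → (∀ t, |f t| ≤ C) →
      Tendsto (fun t => g t * f t) atTop (𝓝 0) := fun f C g hg hf =>
    squeeze_zero_norm (a := fun t => |g t| * C) (fun t => by
      rw [Real.norm_eq_abs, abs_mul]
      exact mul_le_mul_of_nonneg_left (hf t) (abs_nonneg _))
      (by simpa using (hg.abs).mul_const C)
  obtain ⟨C₃, hC₃⟩ := h.exists_bound (Φ := fun s =>
    |N * be - s.1| + 2 * |be * s.2.1 - al * s.1 + 2 * al * s.1 - (N - 2) * be|) (by fun_prop)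
  have hx2 : Tendsto (fun t => x t * (x t - L₀)) atTop (𝓝 0) := by
    have h1 : Tendsto (fun t => al * x t * hh N al be (r t) (x t)) atTop (𝓝 0) := by
      have h2 := hbdd (fun t => (1 - r t) * (N * be - x t) + (1 + r t) *
          (be * y t - al * x t + 2 * al * x t - (N - 2) * be)) C₃ W hW fun t => by
        refine le_trans ((abs_add_le _ _).trans (add_le_add ?_ ?_)) ((le_abs_self _).trans (hC₃ t))
        · rw [abs_mul]
          exact mul_le_of_le_one_left (abs_nonneg _)
            (abs_le.2 ⟨by linarith [(h.ratio_mem t).2], by linarith [(h.ratio_mem t).1]⟩)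
        · rw [abs_mul]
          exact mul_le_mul_of_nonneg_right
            (abs_le.2 ⟨by linarith [(h.ratio_mem t).1], by linarith [(h.ratio_mem t).2]⟩)
            (abs_nonneg _)
      have h3 := hbdd (fun t => be * (1 + r t)) (2 * be) (dW N al be x y P Q) hdW fun t => by
        rw [abs_of_nonneg (mul_nonneg hbe.le (by linarith [(h.ratio_mem t).1]))]
        rw [mul_comm 2 be]
        exact mul_le_mul_of_nonneg_left (by linarith [(h.ratio_mem t).2]) hbe.le
      have h4 := h3.sub h2
      simp only [sub_zero] at h4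
      refine h4.congr fun t => ?_
      simp only [W, r]
      linarith [h.dW_eq t]
    -- replace r by its limit
    obtain ⟨C₄, hC₄⟩ := h.exists_bound (Φ := fun s =>
      al * s.1 * ((2 * N * be - s.1) + (be - al) * s.1)) (by fun_prop)
    have h5 := hbdd _ C₄ (fun t => r t - l) (by simpa using hlim.sub_const l) hC₄
    have h6 := (h1.add h5).mul_const (-(1 / (al * m)))
    simp only [add_zero, zero_mul] at h6
    refine h6.congr fun t => ?_
    simp only [hh, hL₀]
    field_simp
    rw [hm]
    ring
  -- either x → 0 or x → L₀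
  obtain ⟨T₁, hT₁⟩ := Metric.tendsto_atTop.1 hx2 (L₀ / 2 * (L₀ / 2)) (by positivity)
  have hne : ∀ t, T₁ ≤ t → x t ≠ L₀ / 2 := fun t ht he => by
    have h1 := hT₁ t ht
    rw [Real.dist_eq, sub_zero, he, abs_mul, abs_of_pos (by positivity),
      show L₀ / 2 - L₀ = -(L₀ / 2) by ring, abs_neg, abs_of_pos (by positivity)] at h1
    exact lt_irrefl _ h1
  have hxc : Continuous x := continuous_iff_continuousAt.2 fun t => (h.dx t).continuousAt
  have hq : Tendsto (fun t => be * y t) atTop (𝓝 0) → Tendsto x atTop (𝓝 0) → False := by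
    intro hy hx
    have hP : Tendsto P atTop (𝓝 0) := by
      refine squeeze_zero (fun t => (h.P_pos t).le)
        (g := fun t => N / al * (al * x t + be * y t)) (fun t => ?_)
        (by simpa using ((hx.const_mul al).add hy).const_mul (N / al))
      rw [div_mul_eq_mul_div, le_div_iff₀ hal]
      linarith [h.quad t, mul_pos (h.x_pos t) (h.y_pos t), mul_pos hbe (h.Q_pos t)]
    have hrate : Tendsto (fun t => 2 - (1 / al - 1) * y t + x t) atTop (𝓝 2) := by
      have h1 := ((hy.const_mul ((1 / al - 1) / be)).const_sub 2).add hx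
      simp only [mul_zero, sub_zero, add_zero] at h1
      refine h1.congr fun t => ?_
      field_simp
    obtain ⟨T₂, hT₂⟩ := eventually_atTop.1 (hrate.eventually (Ioi_mem_nhds (show (1 : ℝ) < 2 by norm_num)))
    have hmono : MonotoneOn P (Ici T₂) := monotoneOn_of_hasDerivWithinAt_nonneg (convex_Ici T₂)
      (fun s _ => (h.dP s).continuousAt.continuousWithinAt) (fun s _ => (h.dP s).hasDerivWithinAt)
      fun s hs => by
        rw [interior_Ici] at hs
        exact mul_nonneg (h.P_pos s).le (by linarith [show (1 : ℝ) < 2 - (1 / al - 1) * y s + x s from hT₂ s (le_of_lt hs)])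
    have := ge_of_tendsto hP ((eventually_ge_atTop T₂).mono fun t ht => hmono self_mem_Ici ht ht)
    linarith [h.P_pos T₂]
  by_cases hsmall : x T₁ < L₀ / 2
  · have hlt : ∀ t, T₁ ≤ t → x t < L₀ / 2 := fun t ht => by
      by_contra hge
      obtain ⟨c, hc, hce⟩ := intermediate_value_Icc ht hxc.continuousOn ⟨hsmall.le, not_lt.1 hge⟩
      exact hne c hc.1 hce
    have hx : Tendsto x atTop (𝓝 0) := by
      refine squeeze_zero' (Eventually.of_forall fun t => (h.x_pos t).le)
        ((eventually_ge_atTop T₁).mono fun t ht => ?_)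
        (by simpa using hx2.mul_const (-(2 / L₀)))
      rw [← mul_div_assoc, le_neg, div_le_iff₀ hL0]
      have := mul_le_mul_of_nonneg_left (show L₀ / 2 ≤ L₀ - x t by linarith [hlt t ht]) (h.x_pos t).le
      linarith
    refine hq ?_ hx
    have h1 := hW.add (hx.const_mul al)
    simp only [mul_zero, add_zero] at h1
    exact h1.congr fun t => by simp [W]
  · have hgt : ∀ t, T₁ ≤ t → L₀ / 2 < x t := fun t ht => by
      by_contra hle
      obtain ⟨c, hc, hce⟩ := intermediate_value_Icc' ht hxc.continuousOn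
        ⟨not_lt.1 hle, not_lt.1 hsmall⟩
      exact hne c hc.1 hce
    have hx : Tendsto x atTop (𝓝 L₀) := by
      refine tendsto_sub_nhds_zero_iff.1 ?_
      have h1 : Tendsto (fun t => |x t * (x t - L₀)| * (2 / L₀)) atTop (𝓝 0) := by
        simpa using hx2.abs.mul_const (2 / L₀)
      refine squeeze_zero_norm' ((eventually_ge_atTop T₁).mono fun t ht => ?_) h1
      rw [Real.norm_eq_abs, abs_mul, abs_of_pos (h.x_pos t), mul_div, le_div_iff₀ hL0]
      nlinarith [mul_le_mul_of_nonneg_right (hgt t ht).le (abs_nonneg (x t - L₀))]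
    have hLN : L₀ ≤ N - 2 := le_of_tendsto' hx fun t => (h.x_lt t).le
    obtain ⟨C₅, hC₅⟩ := h.exists_bound (Φ := fun s =>
      s.2.2.1 * (2 - (1 / al - 1) * s.2.1 + s.1) -
        (s.2.2.1 - s.1 * (N - 2 - s.1)) * (N - 2 - 2 * s.1)) (by fun_prop)
    have hG : Tendsto (fun t => P t - x t * (N - 2 - x t)) atTop (𝓝 0) :=
      tendsto_deriv_zero h.dx (fun t => by
        refine ((h.dP t).fun_sub ((h.dx t).fun_mul ((h.dx t).const_sub (N - 2)))).congr_deriv ?_
        ring) hC₅ hx
    have hy : Tendsto y atTop (𝓝 (al * L₀ / be)) := by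
      have h1 := (hW.add (hx.const_mul al)).div_const be
      rw [zero_add] at h1
      refine h1.congr fun t => ?_
      simp only [W]
      field_simp
      ring
    have hLHS : Tendsto (fun t => r t * (al * x t * N + y t * (N * be - x t))) atTop
        (𝓝 (l * (al * L₀ * N + al * L₀ / be * (N * be - L₀)))) :=
      hlim.mul (((hx.const_mul al).mul_const N).add (hy.mul (hx.const_sub _)))
    have hRHS : Tendsto (fun t => (1 + r t) * (al * (P t - x t * (N - 2 - x t) +
        x t * (N - 2 - x t)))) atTop (𝓝 ((1 + l) * (al * (0 + L₀ * (N - 2 - L₀))))) :=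
      (hlim.const_add 1).mul ((hG.add (hx.mul (hx.const_sub _))).const_mul al)
    have hfun : (fun t => r t * (al * x t * N + y t * (N * be - x t))) = fun t =>
        (1 + r t) * (al * (P t - x t * (N - 2 - x t) + x t * (N - 2 - x t))) := by
      funext t
      rw [sub_add_cancel]
      exact h.sum_eq t
    rw [hfun] at hLHS
    have heq := tendsto_nhds_unique hLHS hRHS
    refine incompatible h.lt h.sum hN hl.le hLN ?_ (le_of_eq ?_)
    · simp only [hh, hL₀]
      refine le_of_eq ?_
      field_simp
      rw [hm]; ring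
    · refine mul_left_cancel₀ (mul_pos hal hL0).ne' ?_
      field_simp at heq
      linear_combination al * heq

end IsOrbit

end Vale.Agent.P100.Bubble
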