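import Mathlib
import Vale.Agent.P100.Bubble.Branch
import Vale.Agent.P100.Bubble.Phase

/-!
# Monotonicity of `z = v ^ (p+1) / u ^ (q+1)` along the bubble

For `ρ ≥ 0`: `z < (p+1)/(q+1)`, `z` decreases strictly and tends to zero at infinity.
-/

open Set Filter Topology

namespace Vale.Agent.P100.Bubble

variable {N p q lo : ℝ} {U V : ℝ → ℝ}

/-- `z = v ^ (p+1) / u ^ (q+1)`. -/
noncomputable def zf (p q : ℝ) (U V : ℝ → ℝ) (ρ : ℝ) : ℝ := V ρ ^ (p + 1) / U ρ ^ (q + 1)

/-- `W = be (-v'/v) - al (-u'/u)`. -/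
noncomputable def Wf (N p q : ℝ) (U V : ℝ → ℝ) (ρ : ℝ) : ℝ :=
  1 / (q + 1) * (-vel N q U ρ / V ρ) - 1 / (p + 1) * (-vel N p V ρ / U ρ)

theorem hasDerivAt_mul_self {f : ℝ → ℝ} (hf : ContinuousAt f 0) :
    HasDerivAt (fun s => s * f s) (f 0) 0 := by
  rw [hasDerivAt_iff_tendsto_slope]
  refine (hf.tendsto.mono_left nhdsWithin_le_nhds).congr' ?_
  filter_upwards [self_mem_nhdsWithin] with s hs
  rw [slope_def_field, zero_mul, sub_zero, sub_zero, mul_div_cancel_left₀ _ hs]

/-- `-2 ρ u' < (N-2) u` for a positive decreasing radial supersolution. -/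
theorem radial_lt {u A a f : ℝ → ℝ} (hN : 2 < N) (du : ∀ s, 0 < s → HasDerivAt u (A s) s)
    (dA : ∀ s, 0 < s → HasDerivAt A (a s) s)
    (eA : ∀ s, 0 < s → s * a s = -(1 / 4) * f s - N / 2 * A s)
    (hu : ∀ s, 0 < u s) (hf : ∀ s, 0 < f s) {s : ℝ} (hs : 0 < s) :
    -(2 * s * A s) < (N - 2) * u s := by
  set E : ℝ → ℝ := fun r => (N - 2) * u r + 2 * (r * A r) with hE
  have dE : ∀ r, 0 < r → HasDerivAt E (-(1 / 2) * f r) r := fun r hr => by
    refine (((du r hr).const_mul (N - 2)).fun_add
      (((hasDerivAt_id r).fun_mul (dA r hr)).const_mul 2)).congr_deriv ?_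
    simp only [id_eq]
    linear_combination 2 * eA r hr
  have hanti : StrictAntiOn E (Ioi 0) :=
    strictAntiOn_of_hasDerivWithinAt_neg (convex_Ioi 0)
      (fun r hr => (dE r hr).continuousAt.continuousWithinAt)
      (fun r hr => (dE r (by simpa using hr)).hasDerivWithinAt) fun r hr => by
        linarith [hf r]
  by_contra hle
  rw [not_lt] at hle
  set s₂ : ℝ := s + 1 with hs₂
  have hs₂0 : 0 < s₂ := by linarith
  set c : ℝ := -E s₂ with hc
  have hc0 : 0 < c := by
    have h1 := hanti (mem_Ioi.2 hs) (mem_Ioi.2 hs₂0) (by linarith)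
    have h2 : E s ≤ 0 := by simp only [E]; linarith
    linarith
  set R : ℝ := s₂ * Real.exp (2 * u s₂ / c + 1) with hR
  have hsR : s₂ ≤ R :=
    le_mul_of_one_le_right hs₂0.le (Real.one_le_exp (by have := hu s₂; positivity))
  have hF : AntitoneOn (fun r => u r + c / 2 * Real.log r) (Icc s₂ R) :=
    antitoneOn_of_hasDerivWithinAt_nonpos (convex_Icc s₂ R)
      (fun r hr => ((du r (hs₂0.trans_le hr.1)).fun_add
        ((Real.hasDerivAt_log (hs₂0.trans_le hr.1).ne').const_mul (c / 2))).continuousAt.continuousWithinAt)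
      (fun r hr => by
        rw [interior_Icc] at hr
        exact ((du r (hs₂0.trans hr.1)).fun_add
          ((Real.hasDerivAt_log (hs₂0.trans hr.1).ne').const_mul (c / 2))).hasDerivWithinAt)
      fun r hr => by
        rw [interior_Icc] at hr
        have hr0 : 0 < r := hs₂0.trans hr.1
        have h1 := hanti (mem_Ioi.2 hs₂0) (mem_Ioi.2 hr0) hr.1
        have h2 : r * (A r + c / 2 * r⁻¹) = r * A r + c / 2 := by field_simp
        have h3 : r * (A r + c / 2 * r⁻¹) ≤ r * 0 := by
          rw [h2, mul_zero]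
          simp only [E, hc] at h1 ⊢
          linarith [mul_pos (show 0 < N - 2 by linarith) (hu r)]
        exact le_of_mul_le_mul_left h3 hr0
  have := hF (left_mem_Icc.2 hsR) (right_mem_Icc.2 hsR) hsR
  simp only [hR] at this
  rw [Real.log_mul hs₂0.ne' (Real.exp_pos _).ne', Real.log_exp] at this
  have h4 : c / 2 * (2 * u s₂ / c + 1) = u s₂ + c / 2 := by field_simp
  have := hu (s₂ * Real.exp (2 * u s₂ / c + 1))
  linarith

/-- The phase variables of one component. -/
theorem hasDerivAt_phase {u A a f : ℝ → ℝ} {s f' : ℝ} (hs : 0 < s) (du : HasDerivAt u (A s) s)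
    (dA : HasDerivAt A (a s) s) (eA : s * a s = -(1 / 4) * f s - N / 2 * A s)
    (df : HasDerivAt f f' s) (hu : u s ≠ 0) (hf : f s ≠ 0) :
    HasDerivAt (fun r => -(2 * r * A r) / u r)
        ((s * f s / u s - -(2 * s * A s) / u s * (N - 2 - -(2 * s * A s) / u s)) / (2 * s)) s ∧
      HasDerivAt (fun r => r * f r / u r)
        (s * f s / u s * (2 + 2 * s * (f' / f s) + -(2 * s * A s) / u s) / (2 * s)) s := by
  constructor
  · refine (((((hasDerivAt_id s).const_mul 2).fun_mul dA).fun_neg).fun_div du hu).congr_deriv ?_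
    simp only [id_eq]
    field_simp
    linear_combination (-4 * u s) * eA
  · refine (((hasDerivAt_id s).fun_mul df).fun_div du hu).congr_deriv ?_
    simp only [id_eq]
    field_simp
    ring

namespace IsBranch

theorem antitone_right (h : IsBranch N p q lo U V) (hN : 2 < N) :
    StrictAntiOn U (Ioi lo) ∧ StrictAntiOn V (Ioi lo) := by
  constructor
  · exact strictAntiOn_of_hasDerivWithinAt_neg (convex_Ioi lo) h.contU.continuousOn
      (fun r hr => (h.hasDerivAt_U hN (by simpa using hr)).hasDerivWithinAt)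
      fun r _ => vel_neg hN h.contV h.posV r
  · exact strictAntiOn_of_hasDerivWithinAt_neg (convex_Ioi lo) h.contV.continuousOn
      (fun r hr => (h.hasDerivAt_V hN (by simpa using hr)).hasDerivWithinAt)
      fun r _ => vel_neg hN h.contU h.posU r

/-- `z < (p+1)/(q+1)` for `ρ ≥ 0`. -/
theorem below (h : IsBranch N p q lo U V) (hc : IsCrit N p q) {ρ : ℝ} (hρ : 0 ≤ ρ) :
    1 / (p + 1) * V ρ ^ (p + 1) < 1 / (q + 1) * U ρ ^ (q + 1) := by
  have hN := hc.dim
  have hp := hc.p_pos
  have hq := hc.q_pos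
  set k : ℝ := (q + 1) / (p + 1) with hk
  set l : ℝ := ((p + 1) / (q + 1)) ^ (1 / (p + 1)) with hl
  have hk0 : 0 < k := by positivity
  have hk1 : k < 1 := (div_lt_one (by linarith)).2 (by linarith [hc.lt])
  have hl0 : 0 < l := Real.rpow_pos_of_pos (by positivity) _
  have hlp : l ^ (p + 1) * k = 1 := by
    rw [hl, ← Real.rpow_mul (by positivity), one_div_mul_cancel (by linarith), Real.rpow_one, hk]
    field_simp
  have hkp : k * (p + 1) = q + 1 := by rw [hk]; field_simp
  set A := vel N p V with hA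
  set B := vel N q U with hB
  set a := acc N p V B with ha
  set c := acc N q U A with hcdef
  set w : ℝ → ℝ := fun s => V s - l * U s ^ k with hw
  set w₁ : ℝ → ℝ := fun s => B s - l * k * (U s ^ (k - 1) * A s) with hw₁
  set w₂ : ℝ → ℝ := fun s =>
    c s - l * k * ((k - 1) * U s ^ (k - 2) * A s * A s + U s ^ (k - 1) * a s) with hw₂
  set g : ℝ → ℝ := fun s => -(1 / 4) * U s ^ q + l * k / 4 * (U s ^ (k - 1) * V s ^ p) with hg
  set T : ℝ → ℝ := fun s => l * k * (1 - k) * (U s ^ (k - 2) * A s * A s) with hT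
  have cA : Continuous A := continuous_vel hN h.contV h.posV
  have cB : Continuous B := continuous_vel hN h.contU h.posU
  have cpow : ∀ e : ℝ, Continuous fun s => U s ^ e := fun e =>
    h.contU.rpow_const fun x => Or.inl (h.posU x).ne'
  have cw : Continuous w := h.contV.sub (continuous_const.mul (cpow k))
  have cw₁ : Continuous w₁ := cB.sub (continuous_const.mul ((cpow _).mul cA))
  have cw₂ : Continuous w₂ := (continuous_acc hN h.contU h.posU cA).sub (continuous_const.mul
    ((((continuous_const.mul (cpow _)).mul cA).mul cA).add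
      ((cpow _).mul (continuous_acc hN h.contV h.posV cB))))
  have cT : Continuous T := continuous_const.mul (((cpow _).mul cA).mul cA)
  have dw : ∀ s, lo < s → HasDerivAt w (w₁ s) s := fun s hs => by
    refine ((h.hasDerivAt_V hN hs).fun_sub
      (((h.hasDerivAt_U hN hs).rpow_const (p := k) (Or.inl (h.posU s).ne')).const_mul l)).congr_deriv ?_
    simp only [w₁, A, B]; ring
  have dw₁ : ∀ s, lo < s → HasDerivAt w₁ (w₂ s) s := fun s hs => by
    refine ((h.velV_spec hN hs).1.fun_sub ((((h.hasDerivAt_U hN hs).rpow_const (p := k - 1)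
      (Or.inl (h.posU s).ne')).fun_mul (h.velU_spec hN hs).1).const_mul (l * k))).congr_deriv ?_
    simp only [w₂, A, B, a, c]
    rw [show k - 1 - 1 = k - 2 by ring]; ring
  have euler : ∀ s, lo < s → s * w₂ s + N / 2 * w₁ s = g s + s * T s := fun s hs => by
    simp only [w₁, w₂, g, T]
    linear_combination (h.velV_spec hN hs).2 - l * k * U s ^ (k - 1) * (h.velU_spec hN hs).2
  have Tpos : ∀ s, 0 < T s := fun s => by
    have h1 : 0 < A s * A s := mul_self_pos.2 (vel_neg hN h.contV h.posV s).ne
    have h2 := Real.rpow_pos_of_pos (h.posU s) (k - 2)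
    have h3 : 0 < 1 - k := by linarith
    simp only [T, mul_assoc]
    positivity
  have gnn : ∀ s, 0 ≤ w s → 0 ≤ g s := fun s hs => by
    have hU := h.posU s
    have h1 : (l * U s ^ k) ^ p ≤ V s ^ p := Real.rpow_le_rpow
      (by positivity) (by simp only [w] at hs; linarith) hp.le
    have h2 : l * k * (U s ^ (k - 1) * (l * U s ^ k) ^ p) = U s ^ q := by
      rw [Real.mul_rpow hl0.le (by positivity), ← Real.rpow_mul hU.le]
      calc l * k * (U s ^ (k - 1) * (l ^ p * U s ^ (k * p)))
          = (l ^ p * l * k) * (U s ^ (k - 1) * U s ^ (k * p)) := by ring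
        _ = U s ^ q := by
          rw [← Real.rpow_add_one hl0.ne', hlp, one_mul, ← Real.rpow_add hU]
          congr 1; linarith [hkp]
    have h3 : l * k * (U s ^ (k - 1) * (l * U s ^ k) ^ p) ≤ l * k * (U s ^ (k - 1) * V s ^ p) :=
      mul_le_mul_of_nonneg_left (mul_le_mul_of_nonneg_left h1 (by positivity)) (by positivity)
    simp only [g]
    linarith
  -- step 1
  have step1 : ∀ r, 0 < r → 0 < w r → 0 < w₁ r → False := by
    intro r hr hwr hw1r
    set D : ℝ → ℝ := fun s => s ^ (N / 2) * w₁ s with hD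
    have grow : ∀ R, r ≤ R → (∀ s ∈ Icc r R, 0 ≤ w s) → w r ≤ w R := by
      intro R hR hpos
      have dD : ∀ s ∈ Ioo r R, HasDerivAt D (s ^ (N / 2 - 1) * (g s + s * T s)) s := fun s hs => by
        have hs0 : 0 < s := hr.trans hs.1
        refine ((Real.hasDerivAt_rpow_const (p := N / 2) (Or.inl hs0.ne')).fun_mul
          (dw₁ s (h.lo_neg.trans hs0))).congr_deriv ?_
        rw [← euler s (h.lo_neg.trans hs0), show s ^ (N / 2) = s ^ (N / 2 - 1) * s by
          rw [← Real.rpow_add_one hs0.ne', sub_add_cancel]]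
        ring
      have hDm : MonotoneOn D (Icc r R) := monotoneOn_of_hasDerivWithinAt_nonneg (convex_Icc r R)
        (((Real.continuous_rpow_const (by linarith)).mul cw₁).continuousOn)
        (fun s hs => (dD s (by rwa [interior_Icc] at hs)).hasDerivWithinAt) fun s hs => by
          rw [interior_Icc] at hs
          have hs0 : 0 < s := hr.trans hs.1
          exact mul_nonneg (Real.rpow_nonneg hs0.le _) (add_nonneg (gnn s (hpos s (Ioo_subset_Icc_self hs)))
            (mul_nonneg hs0.le (Tpos s).le))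
      refine monotoneOn_of_hasDerivWithinAt_nonneg (convex_Icc r R) cw.continuousOn
        (fun s hs => (dw s ?_).hasDerivWithinAt) (fun s hs => ?_)
        (left_mem_Icc.2 hR) (right_mem_Icc.2 hR) hR
      · rw [interior_Icc] at hs; exact h.lo_neg.trans (hr.trans hs.1)
      · rw [interior_Icc] at hs
        have h1 := hDm (left_mem_Icc.2 hR) (Ioo_subset_Icc_self hs) hs.1.le
        have h2 : 0 < D r := mul_pos (Real.rpow_pos_of_pos hr _) hw1r
        exact (pos_of_mul_pos_right (h2.trans_le h1) (Real.rpow_nonneg (hr.trans hs.1).le _)).le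
    have always : ∀ R, r ≤ R → 0 < w R := by
      intro R hR
      by_contra hn
      obtain ⟨d, hd, hdw, hfirst⟩ := exists_first (isClosed_le cw continuous_const) hR (not_lt.1 hn)
      simp only [mem_setOf_eq] at hdw
      have hrd : r < d := lt_of_le_of_ne hd.1 fun e => not_lt.2 hdw (e ▸ hwr)
      have hd0 : 0 ≤ w d := ge_of_tendsto ((cw.tendsto d).mono_left nhdsWithin_le_nhds)
        (by filter_upwards [Ioo_mem_nhdsLT hrd] with s hs
            exact (not_le.1 (hfirst s ⟨hs.1.le, hs.2⟩)).le)
      have := grow d hd.1 fun s hs => by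
        rcases hs.2.eq_or_lt with rfl | hlt
        · exact hd0
        · exact (not_le.1 (hfirst s ⟨hs.1, hlt⟩)).le
      linarith
    set C : ℝ := w r ^ p / (2 * N) with hC
    have hC0 : 0 < C := by have := Real.rpow_pos_of_pos hwr p; positivity
    set R : ℝ := r + U r / C with hR
    have hrR : r ≤ R := le_add_of_nonneg_right (div_pos (h.posU r) hC0).le
    have hanti := (h.antitone_right hN).2
    have hV : ∀ s ∈ Icc 0 R, w r ≤ V s := fun s hs => by
      have h1 := grow R hrR fun x hx => (always x hx.1).le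
      have h2 : w R ≤ V R := sub_le_self _ (by have := h.posU R; positivity)
      have h3 := hanti.antitoneOn (h.lo_neg.trans_le hs.1) (h.lo_neg.trans_le (hs.1.trans hs.2)) hs.2
      linarith
    have hdrop := (convex_Icc r R).image_sub_le_mul_sub_of_deriv_le h.contU.continuousOn
      (fun s hs => by
        rw [interior_Icc] at hs
        exact (h.hasDerivAt_U hN (h.lo_neg.trans (hr.trans hs.1))).differentiableAt.differentiableWithinAt)
      (C := -C) (fun s hs => by
        rw [interior_Icc] at hs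
        have hs0 := hr.trans hs.1
        rw [(h.hasDerivAt_U hN (h.lo_neg.trans hs0)).deriv, vel]
        have h1 := avg_ge hN (h.contV.rpow_const fun x => Or.inl (h.posV x).ne') (s := s)
          (c := w r ^ p) fun x hx => by
            rw [uIcc_of_le hs0.le] at hx
            exact Real.rpow_le_rpow hwr.le (hV x ⟨hx.1, hx.2.trans hs.2.le⟩) hp.le
        have h2 : C = 1 / 4 * (w r ^ p * (2 / N)) := by rw [hC]; field_simp; ring
        linarith)
      r (left_mem_Icc.2 hrR) R (right_mem_Icc.2 hrR) hrR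
    rw [hR, add_sub_cancel_left, neg_mul, mul_div_cancel₀ _ hC0.ne', ← hR] at hdrop
    linarith [h.posU R]
  -- step 2
  have step2 : ∀ s, 0 ≤ s → w s ≤ 0 := by
    intro s hs
    by_contra hn
    rw [not_le] at hn
    by_cases h0 : 0 < w 0
    · obtain ⟨e, he, hball⟩ := Metric.mem_nhds_iff.1 ((cw.tendsto 0).eventually (Ioi_mem_nhds h0))
      set d : ℝ := e / 2 with hd
      have hd0 : 0 < d := by positivity
      have hpos : ∀ r ∈ Icc 0 d, 0 < w r := fun r hr => hball (by
        rw [Metric.mem_ball, Real.dist_eq, sub_zero, abs_of_nonneg hr.1]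
        linarith [hr.2, hd])
      obtain ⟨r, hr, hslope⟩ := exists_hasDerivAt_eq_slope (fun x => x ^ (N / 2) * w₁ x)
        (fun x => x ^ (N / 2 - 1) * (g x + x * T x)) hd0
        (((Real.continuous_rpow_const (by linarith)).mul cw₁).continuousOn) fun x hx => by
          refine ((Real.hasDerivAt_rpow_const (p := N / 2) (Or.inl hx.1.ne')).fun_mul
            (dw₁ x (h.lo_neg.trans hx.1))).congr_deriv ?_
          rw [← euler x (h.lo_neg.trans hx.1), show x ^ (N / 2) = x ^ (N / 2 - 1) * x by
            rw [← Real.rpow_add_one hx.1.ne', sub_add_cancel]]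
          ring
      have h1 : 0 < r ^ (N / 2 - 1) * (g r + r * T r) :=
        mul_pos (Real.rpow_pos_of_pos hr.1 _) (add_pos_of_nonneg_of_pos
          (gnn r (hpos r ⟨hr.1.le, hr.2.le⟩).le) (mul_pos hr.1 (Tpos r)))
      rw [Real.zero_rpow (by linarith), zero_mul, sub_zero, sub_zero,
        eq_div_iff hd0.ne'] at hslope
      have h2 : 0 < d ^ (N / 2) * w₁ d := hslope ▸ mul_pos h1 hd0
      exact step1 d hd0 (hpos d ⟨hd0.le, le_rfl⟩) (pos_of_mul_pos_right h2 (by positivity))
    · rw [not_lt] at h0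
      obtain ⟨m, hm⟩ : ∃ m, m = sSup (Icc 0 s ∩ {x | w x ≤ 0}) := ⟨_, rfl⟩
      have hmem := (isCompact_Icc.inter_right (isClosed_le cw continuous_const)).sSup_mem
        (show (Icc 0 s ∩ {x | w x ≤ 0}).Nonempty from ⟨0, ⟨le_rfl, hs⟩, h0⟩)
      rw [← hm] at hmem
      obtain ⟨hm1, hm2⟩ := hmem
      simp only [mem_setOf_eq] at hm2
      have hms : m < s := lt_of_le_of_ne hm1.2 fun e => not_lt.2 hm2 (e ▸ hn)
      have habove : ∀ x ∈ Ioc m s, 0 < w x := fun x hx => by
        by_contra hle
        have : x ≤ m := hm ▸ le_csSup (bddAbove_Icc.mono inter_subset_left)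
          ⟨⟨hm1.1.trans hx.1.le, hx.2⟩, not_lt.1 hle⟩
        linarith [hx.1]
      obtain ⟨r, hr, hslope⟩ := exists_hasDerivAt_eq_slope w w₁ hms cw.continuousOn
        fun x hx => dw x (h.lo_neg.trans (hm1.1.trans_lt hx.1))
      refine step1 r (hm1.1.trans_lt hr.1) (habove r ⟨hr.1, hr.2.le⟩) ?_
      rw [hslope]
      exact div_pos (by linarith) (by linarith)
  -- step 3
  have step3 : ∀ s, 0 ≤ s → w s ≠ 0 := by
    intro s hs hw0
    have key : w₁ s = 0 ∧ 0 < w₂ s := by
      rcases hs.eq_or_lt with rfl | hs0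
      · have hU := h.one
        have hV : V 0 = l := by simp only [w, hU, Real.one_rpow] at hw0; linarith
        have hlk : l ^ p * (l * k) = 1 := by rw [← mul_assoc, ← Real.rpow_add_one hl0.ne', hlp]
        have hA0 : A 0 = -(l ^ p) / (2 * N) := by simp only [A, velU_zero hN, hV]
        have hB0 : B 0 = -1 / (2 * N) := by simp only [B, velU_zero hN, hU, Real.one_rpow]
        have hAB : B 0 = l * k * A 0 := by
          rw [hA0, hB0]; field_simp; linear_combination hlk
        have h1 : w₁ 0 = 0 := by simp only [w₁, hU, Real.one_rpow, hAB]; ring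
        refine ⟨h1, ?_⟩
        have dg : HasDerivAt g 0 0 := by
          refine ((((h.hasDerivAt_U hN h.lo_neg).rpow_const (p := q) (Or.inl (h.posU 0).ne')).const_mul
            (-(1 / 4) : ℝ)).fun_add ((((h.hasDerivAt_U hN h.lo_neg).rpow_const (p := k - 1)
              (Or.inl (h.posU 0).ne')).fun_mul ((h.hasDerivAt_V hN h.lo_neg).rpow_const (p := p)
              (Or.inl (h.posV 0).ne'))).const_mul (l * k / 4))).congr_deriv ?_
          rw [hU, hV, show vel N q U 0 = l * k * vel N p V 0 from hAB, Real.rpow_sub_one hl0.ne']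
          simp only [Real.one_rpow]
          have hlpow : l ^ p = 1 / (l * k) := by
            rw [eq_div_iff (by positivity)]; exact hlk
          rw [hlpow]
          field_simp
          linear_combination vel N p V 0 * hkp
        have hL := (hasDerivAt_mul_self cw₂.continuousAt).fun_add
          ((dw₁ 0 h.lo_neg).const_mul (N / 2))
        have hR := dg.fun_add (hasDerivAt_mul_self cT.continuousAt)
        have heq := (hL.congr_of_eventuallyEq
          (eventuallyEq_of_mem (Ioi_mem_nhds h.lo_neg) fun x hx => (euler x hx).symm)).unique hR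
        by_contra hneg
        have h2 : N / 2 * w₂ 0 ≤ 0 :=
          mul_nonpos_of_nonneg_of_nonpos (by linarith) (not_lt.1 hneg)
        linarith [Tpos 0]
      · have hlm : IsLocalMax w s := by
          filter_upwards [Ioi_mem_nhds hs0] with x hx
          rw [hw0]; exact step2 x (le_of_lt hx)
        have h1 : w₁ s = 0 := hlm.hasDerivAt_eq_zero (dw s (h.lo_neg.trans hs0))
        refine ⟨h1, ?_⟩
        have he := euler s (h.lo_neg.trans hs0)
        rw [h1, mul_zero, add_zero] at he
        have h2 : 0 < s * w₂ s := by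
          rw [he]; exact add_pos_of_nonneg_of_pos (gnn s hw0.ge) (mul_pos hs0 (Tpos s))
        exact pos_of_mul_pos_right h2 hs0.le
    obtain ⟨h1, h2⟩ := key
    obtain ⟨d, hd, hsub⟩ := mem_nhdsGT_iff_exists_Ioo_subset.1
      (eventually_lt_right (dw₁ s (h.lo_neg.trans_le hs)).neg (neg_lt_zero.2 h2))
    obtain ⟨x, hx⟩ := exists_between (mem_Ioi.1 hd)
    obtain ⟨r, hr, hslope⟩ := exists_hasDerivAt_eq_slope w w₁ hx.1 cw.continuousOn
      fun y hy => dw y (h.lo_neg.trans (hs.trans_lt hy.1))
    have h3 : 0 < w₁ r := by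
      have h4 := hsub ⟨hr.1, hr.2.trans hx.2⟩
      simp only [mem_setOf_eq, Pi.neg_apply, h1, neg_zero, neg_lt_zero] at h4
      exact h4
    rw [hslope, hw0, sub_zero] at h3
    have := step2 x (hs.trans hx.1.le)
    exact not_lt.2 this (by
      rcases div_pos_iff.1 h3 with h5 | h5
      · exact h5.1
      · linarith [hx.1])
  have hlt : w ρ < 0 := lt_of_le_of_ne (step2 ρ hρ) (step3 ρ hρ)
  have hU := h.posU ρ
  have h4 : V ρ ^ (p + 1) < (l * U ρ ^ k) ^ (p + 1) :=
    Real.rpow_lt_rpow (h.posV ρ).le (by simp only [w] at hlt; linarith) (by linarith)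
  rw [Real.mul_rpow hl0.le (by positivity), ← Real.rpow_mul hU.le, hkp] at h4
  have h5 : l ^ (p + 1) = (p + 1) / (q + 1) := by
    rw [hl, ← Real.rpow_mul (by positivity), one_div_mul_cancel (by linarith), Real.rpow_one]
  rw [h5] at h4
  calc 1 / (p + 1) * V ρ ^ (p + 1) < 1 / (p + 1) * ((p + 1) / (q + 1) * U ρ ^ (q + 1)) :=
        mul_lt_mul_of_pos_left h4 (by positivity)
    _ = _ := by field_simp

theorem continuous_Wf (h : IsBranch N p q lo U V) (hN : 2 < N) : Continuous (Wf N p q U V) :=
  (continuous_const.mul ((continuous_vel hN h.contU h.posU).neg.div h.contV fun s => (h.posV s).ne')).sub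
    (continuous_const.mul ((continuous_vel hN h.contV h.posV).neg.div h.contU fun s => (h.posU s).ne'))

/-- The bubble in logarithmic time is an orbit of the phase system. -/
theorem isOrbit (h : IsBranch N p q lo U V) (hc : IsCrit N p q) :
    IsOrbit N (1 / (p + 1)) (1 / (q + 1))
      (fun t => -(2 * Real.exp (2 * t) * vel N p V (Real.exp (2 * t))) / U (Real.exp (2 * t)))
      (fun t => -(2 * Real.exp (2 * t) * vel N q U (Real.exp (2 * t))) / V (Real.exp (2 * t)))
      (fun t => Real.exp (2 * t) * V (Real.exp (2 * t)) ^ p / U (Real.exp (2 * t)))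
      (fun t => Real.exp (2 * t) * U (Real.exp (2 * t)) ^ q / V (Real.exp (2 * t))) := by
  have hN := hc.dim
  have hp := hc.p_pos
  have hq := hc.q_pos
  obtain ⟨hal, hlt, hab⟩ := hc.weights
  have he : ∀ t : ℝ, HasDerivAt (fun t => Real.exp (2 * t)) (2 * Real.exp (2 * t)) t := fun t => by
    simpa [mul_comm] using ((hasDerivAt_id t).const_mul 2).exp
  have hlo : ∀ s : ℝ, 0 < s → lo < s := fun s hs => h.lo_neg.trans hs
  have phU : ∀ s : ℝ, 0 < s → _ := fun s hs => hasDerivAt_phase (N := N) hs
    (h.hasDerivAt_U hN (hlo s hs)) (h.velU_spec hN (hlo s hs)).1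
    (f := fun r => V r ^ p) (h.velU_spec hN (hlo s hs)).2
    ((h.hasDerivAt_V hN (hlo s hs)).rpow_const (p := p) (Or.inl (h.posV s).ne'))
    (h.posU s).ne' (Real.rpow_pos_of_pos (h.posV s) p).ne'
  have phV : ∀ s : ℝ, 0 < s → _ := fun s hs => hasDerivAt_phase (N := N) hs
    (h.hasDerivAt_V hN (hlo s hs)) (h.velV_spec hN (hlo s hs)).1
    (f := fun r => U r ^ q) (h.velV_spec hN (hlo s hs)).2
    ((h.hasDerivAt_U hN (hlo s hs)).rpow_const (p := q) (Or.inl (h.posU s).ne'))
    (h.posV s).ne' (Real.rpow_pos_of_pos (h.posU s) q).ne'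
  have hpos : ∀ t : ℝ, 0 < Real.exp (2 * t) := fun t => Real.exp_pos _
  refine ⟨hal, hlt, hab, hN, fun t => ?_, fun t => ?_, fun t => ?_, fun t => ?_, fun t => ?_,
    fun t => ?_, fun t => ?_, fun t => ?_, fun t => ?_, fun t => ?_, fun t => ?_, fun t => ?_⟩
  all_goals have hs := hpos t
  · refine ((phU _ hs).1.comp t (he t)).congr_deriv ?_
    field_simp
  · refine ((phV _ hs).1.comp t (he t)).congr_deriv ?_
    field_simp
  · refine ((phU _ hs).2.comp t (he t)).congr_deriv ?_
    have := h.posV (Real.exp (2 * t))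
    rw [Real.rpow_sub_one this.ne']
    have := Real.rpow_pos_of_pos this p
    field_simp
    ring
  · refine ((phV _ hs).2.comp t (he t)).congr_deriv ?_
    have := h.posU (Real.exp (2 * t))
    rw [Real.rpow_sub_one this.ne']
    have := Real.rpow_pos_of_pos this q
    field_simp
    ring
  · exact div_pos (neg_pos.2 (mul_neg_of_pos_of_neg (by positivity)
      (vel_neg hN h.contV h.posV _))) (h.posU _)
  · exact div_pos (neg_pos.2 (mul_neg_of_pos_of_neg (by positivity)
      (vel_neg hN h.contU h.posU _))) (h.posV _)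
  · exact div_pos (mul_pos hs (Real.rpow_pos_of_pos (h.posV _) p)) (h.posU _)
  · exact div_pos (mul_pos hs (Real.rpow_pos_of_pos (h.posU _) q)) (h.posV _)
  · rw [div_lt_iff₀ (h.posU _)]
    exact radial_lt hN (fun s hs => h.hasDerivAt_U hN (hlo s hs))
      (fun s hs => (h.velU_spec hN (hlo s hs)).1) (f := fun r => V r ^ p)
      (fun s hs => (h.velU_spec hN (hlo s hs)).2) h.posU
      (fun s => Real.rpow_pos_of_pos (h.posV s) p) hs
  · rw [div_lt_iff₀ (h.posV _)]
    exact radial_lt hN (fun s hs => h.hasDerivAt_V hN (hlo s hs))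
      (fun s hs => (h.velV_spec hN (hlo s hs)).1) (f := fun r => U r ^ q)
      (fun s hs => (h.velV_spec hN (hlo s hs)).2) h.posV
      (fun s => Real.rpow_pos_of_pos (h.posU s) q) hs
  · set s := Real.exp (2 * t) with hse
    have hU := h.posU s
    have hV := h.posV s
    have hb := h.below hc hs.le
    rw [Real.rpow_add_one hV.ne', Real.rpow_add_one hU.ne'] at hb
    have h2 : 0 < s / (U s * V s) := by positivity
    have := mul_lt_mul_of_pos_right hb h2
    calc 1 / (p + 1) * (s * V s ^ p / U s)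
        = 1 / (p + 1) * (V s ^ p * V s) * (s / (U s * V s)) := by field_simp
      _ < 1 / (q + 1) * (U s ^ q * U s) * (s / (U s * V s)) := this
      _ = 1 / (q + 1) * (s * U s ^ q / V s) := by field_simp
  · set s := Real.exp (2 * t) with hse
    have hU := h.posU s
    have hV := h.posV s
    have hb := h.quadric hc (hlo s hs)
    rw [Real.rpow_add_one hV.ne', Real.rpow_add_one hU.ne'] at hb
    field_simp at hb ⊢
    linear_combination hb

/-- `W > 0` for `ρ ≥ 0`. -/
theorem Wf_pos (h : IsBranch N p q lo U V) (hc : IsCrit N p q) {ρ : ℝ} (hρ : 0 ≤ ρ) :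
    0 < Wf N p q U V ρ := by
  have hN := hc.dim
  have hW0 : 0 < Wf N p q U V 0 := by
    have hb := h.below hc le_rfl
    rw [h.one, Real.one_rpow, Real.rpow_add_one (h.posV 0).ne'] at hb
    have hV := h.posV 0
    have e : Wf N p q U V 0 =
        (1 / (q + 1) * 1 - 1 / (p + 1) * (V 0 ^ p * V 0)) / (2 * N * V 0) := by
      simp only [Wf, velU_zero hN, h.one, Real.one_rpow]
      field_simp
    rw [e]
    exact div_pos (by linarith) (by positivity)
  rcases hρ.eq_or_lt with rfl | hρ0
  · exact hW0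
  obtain ⟨e, he, hball⟩ := Metric.mem_nhds_iff.1
    (((h.continuous_Wf hN).tendsto 0).eventually (Ioi_mem_nhds hW0))
  have hev : ∀ t ≤ Real.log (e / 2) / 2, 0 < Wf N p q U V (Real.exp (2 * t)) := fun t ht => hball (by
    rw [Metric.mem_ball, Real.dist_eq, sub_zero, abs_of_pos (Real.exp_pos _)]
    have : Real.exp (2 * t) ≤ Real.exp (Real.log (e / 2)) := Real.exp_le_exp.2 (by linarith)
    rw [Real.exp_log (by positivity)] at this
    linarith)
  have conv : ∀ t, (1 / (q + 1) * (-(2 * Real.exp (2 * t) * vel N q U (Real.exp (2 * t))) /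
      V (Real.exp (2 * t))) - 1 / (p + 1) * (-(2 * Real.exp (2 * t) *
        vel N p V (Real.exp (2 * t))) / U (Real.exp (2 * t)))) =
      2 * Real.exp (2 * t) * Wf N p q U V (Real.exp (2 * t)) := fun t => by
    simp only [Wf]; ring
  have := (h.isOrbit hc).W_pos (T := Real.log (e / 2) / 2)
    (fun t ht => by rw [conv]; exact mul_pos (by positivity) (hev t ht)) (Real.log ρ / 2)
  rw [conv, mul_div_cancel₀ _ (two_ne_zero), Real.exp_log hρ0] at this
  exact pos_of_mul_pos_right this (by positivity)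

/-- `z` tends to zero at infinity. -/
theorem zf_tendsto (h : IsBranch N p q lo U V) (hc : IsCrit N p q) :
    Tendsto (zf p q U V) atTop (𝓝 0) := by
  have hp := hc.p_pos
  have hq := hc.q_pos
  have hT : ∀ t ≤ (0 : ℝ), 0 < 1 / (q + 1) * (-(2 * Real.exp (2 * t) * vel N q U (Real.exp (2 * t))) /
      V (Real.exp (2 * t))) - 1 / (p + 1) * (-(2 * Real.exp (2 * t) *
        vel N p V (Real.exp (2 * t))) / U (Real.exp (2 * t))) := fun t _ => by
    have := mul_pos (mul_pos (two_pos (α := ℝ)) (Real.exp_pos (2 * t)))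
      (h.Wf_pos hc (Real.exp_pos (2 * t)).le)
    simp only [Wf] at this
    linarith [show (2 : ℝ) * Real.exp (2 * t) *
      (1 / (q + 1) * (-vel N q U (Real.exp (2 * t)) / V (Real.exp (2 * t))) -
      1 / (p + 1) * (-vel N p V (Real.exp (2 * t)) / U (Real.exp (2 * t)))) =
      1 / (q + 1) * (-(2 * Real.exp (2 * t) * vel N q U (Real.exp (2 * t))) / V (Real.exp (2 * t))) -
      1 / (p + 1) * (-(2 * Real.exp (2 * t) * vel N p V (Real.exp (2 * t))) /
        U (Real.exp (2 * t))) by ring]
  have h1 := (((h.isOrbit hc).ratio_tendsto hT).comp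
    ((Real.tendsto_log_atTop).atTop_div_const two_pos)).const_mul ((p + 1) / (q + 1))
  rw [mul_zero] at h1
  refine h1.congr' ((eventually_gt_atTop 0).mono fun s hs => ?_)
  simp only [Function.comp_apply, IsOrbit.ratio, zf]
  rw [mul_div_cancel₀ _ two_ne_zero, Real.exp_log hs, Real.rpow_add_one (h.posV s).ne',
    Real.rpow_add_one (h.posU s).ne']
  field_simp

end IsBranch

end Vale.Agent.P100.Bubble
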