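import Mathlib
import Vale.Agent.P100.Bubble.Monotone

/-!
# Continuation of the bubble to negative `ρ`

Going backwards `z` keeps increasing and reaches `(p+1)/(q+1)` at a finite negative `ρ`,
before the solution blows up.
-/

open Set Filter Topology

namespace Vale.Agent.P100.Bubble

variable {N p q lo : ℝ} {U V : ℝ → ℝ}

/-- A last point of a closed condition. -/
theorem exists_last {s : Set ℝ} (hs : IsClosed s) {a b : ℝ} (hab : a ≤ b) (ha : a ∈ s) :
    ∃ c ∈ Icc a b, c ∈ s ∧ ∀ t ∈ Ioc c b, t ∉ s := by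
  obtain ⟨c, hc, hmax⟩ := (isCompact_Icc.inter_right hs).exists_isGreatest
    (show (Icc a b ∩ s).Nonempty from ⟨a, ⟨le_rfl, hab⟩, ha⟩)
  exact ⟨c, hc.1, hc.2, fun t ht hts =>
    not_lt.2 (hmax ⟨⟨hc.1.1.trans ht.1.le, ht.2⟩, hts⟩) ht.1⟩

theorem deriv_nonneg_of_right {f : ℝ → ℝ} {f' c : ℝ} (hf : HasDerivAt f f' c)
    (h : ∀ᶠ s in 𝓝[>] c, f c ≤ f s) : 0 ≤ f' := by
  by_contra hp
  obtain ⟨s, hs, hs'⟩ := (h.and (eventually_lt_right hf (not_le.1 hp))).exists
  linarith

/-- Antitone growth to the left under a uniform negative slope. -/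
theorem exists_ge_left {w h : ℝ → ℝ} {c : ℝ} (hw : ∀ s, HasDerivAt w (-(1 / 4) * avg N h s) s)
    (hc : 0 < c) (hb : ∀ s, c ≤ avg N h s) (M : ℝ) : ∃ R : ℝ, R < 0 ∧ M ≤ w R := by
  set D : ℝ := (|M - w 0| + 1) / (1 / 4 * c) with hD
  have hD0 : 0 < D := by positivity
  refine ⟨-D, neg_lt_zero.2 hD0, ?_⟩
  have h1 := drop_ge hw (neg_nonpos.2 hD0.le) (c := c) fun s _ => hb s
  have h2 : 1 / 4 * c * D = |M - w 0| + 1 := by rw [hD]; field_simp
  linarith [le_abs_self (M - w 0)]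

namespace IsBranch

theorem restrict (h : IsBranch N p q lo U V) {lo' : ℝ} (h1 : lo ≤ lo') (h2 : lo' < 0) :
    IsBranch N p q lo' U V :=
  ⟨h2, h.contU, h.contV, h.posU, h.posV, h.one, fun ρ hρ => h.eqU ρ (h1.trans_lt hρ),
    fun ρ hρ => h.eqV ρ (h1.trans_lt hρ)⟩

theorem acc_pos (h : IsBranch N p q lo U V) (hN : 2 < N) (hp : 0 < p) (ρ : ℝ) :
    0 < acc N p V (vel N q U) ρ := by
  have hg : ∀ s, 0 < p * V s ^ (p - 1) * -vel N q U s := fun s =>
    mul_pos (mul_pos hp (Real.rpow_pos_of_pos (h.posV s) _)) (neg_pos.2 (vel_neg hN h.contU h.posU s))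
  have h1 : 0 < avg (N + 2) (fun s => p * V s ^ (p - 1) * -vel N q U s) ρ :=
    avg_pos (N := N + 2) (by linarith)
    ((continuous_const.mul (h.contV.rpow_const fun x => Or.inl (h.posV x).ne')).mul
      (continuous_vel hN h.contU h.posU).neg) hg ρ
  have h2 : avg (N + 2) (fun s => p * V s ^ (p - 1) * -vel N q U s) ρ =
      -avg (N + 2) (fun s => p * V s ^ (p - 1) * vel N q U s) ρ := by
    simp only [avg, mul_neg, intervalIntegral.integral_neg]
  rw [h2] at h1
  simp only [acc]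
  linarith

theorem hasDerivAt_quot {u A a : ℝ → ℝ} {f s : ℝ} (du : HasDerivAt u (A s) s)
    (dA : HasDerivAt A (a s) s) (eA : s * a s = -(1 / 4) * f - N / 2 * A s) (hu : u s ≠ 0)
    (hs : s ≠ 0) :
    HasDerivAt (fun r => -A r / u r)
      ((f / u s / 4 - N / 2 * (-A s / u s)) / s + (-A s / u s) ^ 2) s := by
  refine (dA.fun_neg.fun_div du hu).congr_deriv ?_
  field_simp
  linear_combination (-8 * u s) * eA

/-- The derivative of `W` away from zero. -/
theorem hasDerivAt_Wf (h : IsBranch N p q lo U V) (hN : 2 < N) {ρ : ℝ} (hρ : lo < ρ) (h0 : ρ ≠ 0) :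
    HasDerivAt (Wf N p q U V)
      (((1 / (q + 1) * (U ρ ^ q / V ρ) - 1 / (p + 1) * (V ρ ^ p / U ρ)) / 4 -
          N / 2 * Wf N p q U V ρ) / ρ +
        (1 / (q + 1) * (-vel N q U ρ / V ρ) ^ 2 - 1 / (p + 1) * (-vel N p V ρ / U ρ) ^ 2)) ρ := by
  refine (((hasDerivAt_quot (h.hasDerivAt_V hN hρ) (h.velV_spec hN hρ).1 (h.velV_spec hN hρ).2
    (h.posV ρ).ne' h0).const_mul (1 / (q + 1))).fun_sub
    ((hasDerivAt_quot (h.hasDerivAt_U hN hρ) (h.velU_spec hN hρ).1 (h.velU_spec hN hρ).2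
      (h.posU ρ).ne' h0).const_mul (1 / (p + 1)))).congr_deriv ?_
  simp only [Wf]
  ring

theorem num_nonneg (h : IsBranch N p q lo U V) {ρ : ℝ}
    (hz : 1 / (p + 1) * V ρ ^ (p + 1) ≤ 1 / (q + 1) * U ρ ^ (q + 1)) :
    0 ≤ 1 / (q + 1) * (U ρ ^ q / V ρ) - 1 / (p + 1) * (V ρ ^ p / U ρ) := by
  have hU := h.posU ρ; have hV := h.posV ρ
  rw [Real.rpow_add_one hV.ne', Real.rpow_add_one hU.ne'] at hz
  have e : 1 / (q + 1) * (U ρ ^ q / V ρ) - 1 / (p + 1) * (V ρ ^ p / U ρ) =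
      (1 / (q + 1) * (U ρ ^ q * U ρ) - 1 / (p + 1) * (V ρ ^ p * V ρ)) / (U ρ * V ρ) := by
    field_simp
  rw [e]
  exact div_nonneg (by linarith) (by positivity)

/-- `W > 0` backwards as long as `z ≤ (p+1)/(q+1)`. -/
theorem Wf_pos_left (h : IsBranch N p q lo U V) (hc : IsCrit N p q) {ρ₁ : ℝ} (hlo : lo < ρ₁)
    (hρ₁ : ρ₁ ≤ 0)
    (hz : ∀ ρ ∈ Icc ρ₁ 0, 1 / (p + 1) * V ρ ^ (p + 1) ≤ 1 / (q + 1) * U ρ ^ (q + 1)) :
    ∀ ρ ∈ Icc ρ₁ 0, 0 < Wf N p q U V ρ := by
  have hN := hc.dim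
  obtain ⟨hal, hlt, -⟩ := hc.weights
  intro ρ hρ
  by_contra hn
  obtain ⟨c, hcI, hWc, hlast⟩ := exists_last (isClosed_le (h.continuous_Wf hN) continuous_const)
    hρ.2 (not_lt.1 hn)
  simp only [mem_setOf_eq] at hWc
  have hc0 : c < 0 := lt_of_le_of_ne hcI.2 fun e => not_lt.2 hWc (e ▸ h.Wf_pos hc le_rfl)
  have hev : ∀ᶠ s in 𝓝[>] c, 0 < Wf N p q U V s := by
    filter_upwards [Ioo_mem_nhdsGT hc0] with s hs
    exact not_le.1 (hlast s ⟨hs.1, hs.2.le⟩)
  have hW0 : Wf N p q U V c = 0 := le_antisymm hWc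
    (ge_of_tendsto (((h.continuous_Wf hN).tendsto c).mono_left nhdsWithin_le_nhds)
      (hev.mono fun s hs => hs.le))
  have hclo : lo < c := hlo.trans_le (hρ.1.trans hcI.1)
  have hd := deriv_nonneg_of_right (h.hasDerivAt_Wf hN hclo hc0.ne)
    (hev.mono fun s hs => by rw [hW0]; exact hs.le)
  rw [hW0, mul_zero, sub_zero] at hd
  have h1 := div_nonpos_of_nonneg_of_nonpos
    (div_nonneg (h.num_nonneg (hz c ⟨hρ.1.trans hcI.1, hc0.le⟩)) (by norm_num : (0 : ℝ) ≤ 4)) hc0.le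
  set al : ℝ := 1 / (p + 1)
  set be : ℝ := 1 / (q + 1)
  set x : ℝ := -vel N p V c / U c with hx
  set y : ℝ := -vel N q U c / V c with hy
  have hx0 : 0 < x := div_pos (neg_pos.2 (vel_neg hN h.contV h.posV c)) (h.posU c)
  have hyx : be * y = al * x := sub_eq_zero.1 hW0
  have h2 : be * y ^ 2 - al * x ^ 2 < 0 := by
    have h3 : be * (be * y ^ 2 - al * x ^ 2) = al * x ^ 2 * (al - be) := by
      linear_combination (be * y + al * x) * hyx
    have h4 : be * (be * y ^ 2 - al * x ^ 2) < 0 :=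
      h3 ▸ mul_neg_of_pos_of_neg (by positivity) (by linarith)
    exact neg_of_mul_neg_right h4 (hal.trans hlt).le
  linarith

/-- The a priori bound backwards. -/
theorem log_U_le (h : IsBranch N p q lo U V) (hc : IsCrit N p q) {ρ₁ ρ₀ m e : ℝ}
    (hlo : lo < ρ₁) (h10 : ρ₁ ≤ ρ₀) (hρ₀ : ρ₀ < 0) (hm : 0 < m)
    (hm' : m ≤ ρ₀ * vel N p V ρ₀) (he : 0 < e) (he1 : e ≤ 1)
    (he₀ : e * (-vel N p V ρ₀ / U ρ₀) ≤ Wf N p q U V ρ₀)
    (hsmall : e * ((2 * N * (2 * (1 / (p + 1)) + 1) * ((1 + m) / m) +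
        4 * (1 / (p + 1) + 1) / (1 / (q + 1))) / (4 * (1 / (p + 1))) +
        (1 + 2 * (1 / (p + 1))) / (1 / (q + 1))) <
      1 / (p + 1) * (1 - 1 / (p + 1) / (1 / (q + 1))))
    (hz : ∀ ρ ∈ Icc ρ₁ 0, 1 / (p + 1) * V ρ ^ (p + 1) ≤ 1 / (q + 1) * U ρ ^ (q + 1)) :
    Real.log (U ρ₁) ≤ Real.log (U ρ₀) +
      1 / (p + 1) * (1 / (q + 1)) / e * (Real.log (zf p q U V ρ₁) - Real.log (zf p q U V ρ₀)) := by
  have hN := hc.dim
  have hp := hc.p_pos
  have hq := hc.q_pos
  obtain ⟨hal, hlt, -⟩ := hc.weights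
  set al : ℝ := 1 / (p + 1) with hal'
  set be : ℝ := 1 / (q + 1) with hbe'
  have hbe : 0 < be := hal.trans hlt
  set xx : ℝ → ℝ := fun r => -vel N p V r / U r with hxx
  set g : ℝ → ℝ := fun r => Wf N p q U V r - e * xx r with hg
  have cg : Continuous g := (h.continuous_Wf hN).sub
    (continuous_const.mul ((continuous_vel hN h.contV h.posV).neg.div h.contU fun s => (h.posU s).ne'))
  have hgpos : ∀ r ∈ Icc ρ₁ ρ₀, 0 ≤ g r := by
    intro r hr
    by_contra hneg
    rw [not_le] at hneg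
    obtain ⟨c, hcI, hgc, hlast⟩ := exists_last (isClosed_le cg (continuous_const (y := g r)))
      hr.2 (le_refl (g r))
    simp only [mem_setOf_eq] at hgc
    -- the first zero of `g` to the right of `r`
    obtain ⟨d, hd, hgd, hfirst⟩ := exists_first (isClosed_le continuous_const cg) hr.2
      (show ρ₀ ∈ {x | (0 : ℝ) ≤ g x} by simp only [mem_setOf_eq, g, xx]; linarith)
    simp only [mem_setOf_eq] at hgd
    have hrd : r < d := lt_of_le_of_ne hd.1 fun e => not_lt.2 hgd (e ▸ hneg)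
    have hev : ∀ᶠ s in 𝓝[<] d, g s < 0 := by
      filter_upwards [Ioo_mem_nhdsLT hrd] with s hs
      exact not_le.1 (hfirst s ⟨hs.1.le, hs.2⟩)
    have hg0 : g d = 0 := le_antisymm
      (le_of_tendsto ((cg.tendsto d).mono_left nhdsWithin_le_nhds) (hev.mono fun s hs => hs.le)) hgd
    have hdlo : lo < d := hlo.trans_le (hr.1.trans hd.1)
    have hd0 : d < 0 := hd.2.trans_lt hρ₀
    have hder := deriv_nonpos_of_left (((h.hasDerivAt_Wf hN hdlo hd0.ne).fun_sub
      ((hasDerivAt_quot (h.hasDerivAt_U hN hdlo) (h.velU_spec hN hdlo).1 (h.velU_spec hN hdlo).2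
        (h.posU d).ne' hd0.ne).const_mul e)).neg)
      (hev.mono fun s hs => by
        simp only [Pi.neg_apply]
        have : g d = 0 := hg0
        simp only [g, xx] at hs this
        linarith)
    -- the quantities at `d`
    set x : ℝ := -vel N p V d / U d with hx
    set y : ℝ := -vel N q U d / V d with hy
    set P : ℝ := V d ^ p / U d with hP
    set Q : ℝ := U d ^ q / V d with hQ
    have hW : Wf N p q U V d = e * x := sub_eq_zero.1 hg0
    have hyx : be * y = al * x + e * x := by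
      simp only [Wf] at hW; rw [← hx, ← hy] at hW; linarith
    have hx0 : 0 < x := div_pos (neg_pos.2 (vel_neg hN h.contV h.posV d)) (h.posU d)
    have hQ0 : 0 < Q := div_pos (Real.rpow_pos_of_pos (h.posU d) q) (h.posV d)
    have hP0 : 0 < P := div_pos (Real.rpow_pos_of_pos (h.posV d) p) (h.posU d)
    have hnum := h.num_nonneg (hz d ⟨hr.1.trans hd.1, hd0.le⟩)
    -- `- d * x` is bounded below
    have hcx : m / (1 + m) ≤ -d * x := by
      have hmono : MonotoneOn (vel N p V) (Ioi lo) :=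
        monotoneOn_of_hasDerivWithinAt_nonneg (convex_Ioi lo)
          (continuous_vel hN h.contV h.posV).continuousOn
          (fun s hs => (h.velU_spec hN (by simpa using hs)).1.hasDerivWithinAt)
          fun s _ => (h.acc_pos hN hp s).le
      obtain ⟨k, hk, hslope⟩ := exists_hasDerivAt_eq_slope U (vel N p V) hd0
        h.contU.continuousOn fun s hs => h.hasDerivAt_U hN (hdlo.trans hs.1)
      rw [eq_div_iff (by linarith), h.one] at hslope
      have h1 := hmono (mem_Ioi.2 hdlo) (mem_Ioi.2 (hdlo.trans hk.1)) hk.1.le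
      have h2 := hmono (mem_Ioi.2 hdlo) (mem_Ioi.2 (hdlo.trans_le hd.2)) hd.2
      have h3 : m ≤ d * vel N p V d := by
        have h4 := mul_le_mul_of_nonneg_left (neg_le_neg h2) (neg_nonneg.2 hd0.le)
        have h5 := mul_le_mul_of_nonneg_right (neg_le_neg hd.2)
          (neg_nonneg.2 (vel_neg (p := p) hN h.contV h.posV ρ₀).le)
        linarith
      have h4 : U d ≤ 1 + d * vel N p V d := by
        have := mul_le_mul_of_nonneg_right h1 (show 0 ≤ 0 - d by linarith)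
        linarith
      have h5 : -d * x = d * vel N p V d / U d := by rw [hx]; field_simp
      rw [h5, div_le_div_iff₀ (by positivity) (h.posU d)]
      have := mul_le_mul_of_nonneg_left h4 hm.le
      linarith
    have hquad : al * P + be * Q = 2 * N * (al * x + be * y) + 4 * (-d) * x * y := by
      have hb := h.quadric hc hdlo
      rw [Real.rpow_add_one (h.posV d).ne', Real.rpow_add_one (h.posU d).ne'] at hb
      have := h.posU d; have := h.posV d
      rw [hP, hQ, hx, hy, hal', hbe']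
      field_simp at hb ⊢
      linear_combination hb
    set K : ℝ := (2 * N * (2 * al + 1) * ((1 + m) / m) + 4 * (al + 1) / be) / (4 * al) with hK
    have hPb : P / (4 * -d) ≤ K * x ^ 2 := by
      have h1 : x / -d ≤ (1 + m) / m * x ^ 2 := by
        rw [div_le_iff₀ (by linarith)]
        have h2 := mul_le_mul_of_nonneg_left hcx
          (show 0 ≤ (1 + m) / m * x from mul_nonneg (div_pos (by linarith) hm).le hx0.le)
        rw [show (1 + m) / m * x * (m / (1 + m)) = x by field_simp] at h2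
        linarith
      have hy' : y = (al * x + e * x) / be := by rw [← hyx]; field_simp
      have h2 : al * P ≤ 2 * N * (2 * al + 1) * x + 4 * (-d) * ((al + 1) / be) * x ^ 2 := by
        have h3 : al * P ≤ 2 * N * (al * x + be * y) + 4 * (-d) * x * y := by
          linarith [mul_pos hbe hQ0]
        rw [hyx, hy'] at h3
        have h4 : 4 * -d * x * ((al * x + e * x) / be) ≤ 4 * -d * ((al + 1) / be) * x ^ 2 := by
          rw [show 4 * -d * x * ((al * x + e * x) / be) = 4 * -d * ((al + e) / be) * x ^ 2 by ring]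
          refine mul_le_mul_of_nonneg_right (mul_le_mul_of_nonneg_left ?_ (by linarith)) (sq_nonneg x)
          exact div_le_div_of_nonneg_right (by linarith) hbe.le
        have h5 : e * x ≤ x := mul_le_of_le_one_left hx0.le he1
        have h6 := mul_le_mul_of_nonneg_left h5 (show 0 ≤ 2 * N by linarith)
        linarith
      rw [hK]
      have h3 : P / (4 * -d) ≤ (2 * N * (2 * al + 1) * (x / -d) + 4 * ((al + 1) / be) * x ^ 2) /
          (4 * al) := by
        rw [div_le_div_iff₀ (by linarith) (by positivity)]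
        have hdne : d ≠ 0 := hd0.ne
        have h5 : (2 * N * (2 * al + 1) * (x / -d) + 4 * ((al + 1) / be) * x ^ 2) * (4 * -d) =
            4 * (2 * N * (2 * al + 1) * x + 4 * (-d) * ((al + 1) / be) * x ^ 2) := by
          field_simp
          ring
        linarith
      refine h3.trans ?_
      rw [div_mul_eq_mul_div]
      refine div_le_div_of_nonneg_right ?_ (by positivity)
      have := mul_le_mul_of_nonneg_left h1 (show 0 ≤ 2 * N * (2 * al + 1) by positivity)
      rw [show 4 * (al + 1) / be = 4 * ((al + 1) / be) by ring]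
      linarith
    have hkey : be * y ^ 2 - al * x ^ 2 - e * x ^ 2 ≤
        (-(al * (1 - al / be)) + e * ((1 + 2 * al) / be)) * x ^ 2 := by
      have h1 : be * y ^ 2 - al * x ^ 2 - e * x ^ 2 =
          (-(al * (1 - al / be)) + e * ((2 * al + e - be) / be)) * x ^ 2 := by
        rw [show y = (al * x + e * x) / be by rw [← hyx]; field_simp]
        field_simp
        ring
      rw [h1]
      refine mul_le_mul_of_nonneg_right (add_le_add_right ?_ _) (sq_nonneg x)
      exact mul_le_mul_of_nonneg_left (div_le_div_of_nonneg_right (by linarith) hbe.le) he.le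
    have hneg' : e * (P / (4 * -d)) + (be * y ^ 2 - al * x ^ 2 - e * x ^ 2) < 0 := by
      have h1 := mul_le_mul_of_nonneg_left hPb he.le
      have h2 := mul_lt_mul_of_pos_right hsmall (show 0 < x ^ 2 by positivity)
      linarith
    have h1 : (be * Q - al * P) / 4 / d ≤ 0 :=
      div_nonpos_of_nonneg_of_nonpos (div_nonneg hnum (by norm_num)) hd0.le
    rw [hW] at hder
    have e1 : ((be * Q - al * P) / 4 - N / 2 * (e * x)) / d + (be * y ^ 2 - al * x ^ 2) -
        e * ((P / 4 - N / 2 * x) / d + x ^ 2) =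
        (be * Q - al * P) / 4 / d + e * (P / (4 * -d)) + (be * y ^ 2 - al * x ^ 2 - e * x ^ 2) := by
      field_simp
      ring
    linarith
  -- integrate
  set F : ℝ → ℝ := fun r =>
    al * be / e * Real.log (zf p q U V r) - Real.log (U r) with hF
  have dF : ∀ r, lo < r → HasDerivAt F (-(g r) / e) r := fun r hr => by
    have hU := h.posU r; have hV := h.posV r
    have d1 := ((h.hasDerivAt_V hN hr).rpow_const (p := p + 1) (Or.inl hV.ne')).fun_div
      ((h.hasDerivAt_U hN hr).rpow_const (p := q + 1) (Or.inl hU.ne'))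
      (Real.rpow_pos_of_pos hU _).ne'
    have d2 := ((d1.log (div_pos (Real.rpow_pos_of_pos hV _) (Real.rpow_pos_of_pos hU _)).ne').const_mul
      (al * be / e)).fun_sub ((h.hasDerivAt_U hN hr).log hU.ne')
    refine d2.congr_deriv ?_
    simp only [g, xx, Wf, add_sub_cancel_right]
    rw [Real.rpow_add_one hV.ne', Real.rpow_add_one hU.ne', hal', hbe']
    have := Real.rpow_pos_of_pos hV p
    have := Real.rpow_pos_of_pos hU q
    field_simp
    ring
  have hanti : AntitoneOn F (Icc ρ₁ ρ₀) := antitoneOn_of_hasDerivWithinAt_nonpos (convex_Icc ρ₁ ρ₀)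
    (fun r hr => (dF r (hlo.trans_le hr.1)).continuousAt.continuousWithinAt)
    (fun r hr => by
      rw [interior_Icc] at hr
      exact (dF r (hlo.trans hr.1)).hasDerivWithinAt)
    fun r hr => by
      rw [interior_Icc] at hr
      exact div_nonpos_of_nonpos_of_nonneg (neg_nonpos.2 (hgpos r (Ioo_subset_Icc_self hr))) he.le
  have := hanti (left_mem_Icc.2 h10) (right_mem_Icc.2 h10) h10
  simp only [F] at this
  linarith

/-- Once `z` has reached `(p+1)/(q+1)` the branch can be cut just beyond the first such point. -/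
theorem finish (h : IsBranch N p q lo U V) (hc : IsCrit N p q) {ρ₁ : ℝ} (hlo : lo < ρ₁) (h1 : ρ₁ < 0)
    (hz : 1 / (q + 1) * U ρ₁ ^ (q + 1) ≤ 1 / (p + 1) * V ρ₁ ^ (p + 1)) :
    ∃ lo' ρk : ℝ, IsBranch N p q lo' U V ∧ lo' < ρk ∧ ρk < 0 ∧
      1 / (p + 1) * V ρk ^ (p + 1) = 1 / (q + 1) * U ρk ^ (q + 1) ∧
      ∀ ρ, lo' < ρ → 0 < Wf N p q U V ρ := by
  have hN := hc.dim
  have cZ : Continuous fun r => 1 / (p + 1) * V r ^ (p + 1) - 1 / (q + 1) * U r ^ (q + 1) :=
    (continuous_const.mul (h.contV.rpow_const fun x => Or.inl (h.posV x).ne')).sub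
      (continuous_const.mul (h.contU.rpow_const fun x => Or.inl (h.posU x).ne'))
  obtain ⟨c, hcI, hcz, hlast⟩ := exists_last (isClosed_le continuous_const cZ) h1.le
    (show ρ₁ ∈ {r | (0 : ℝ) ≤ 1 / (p + 1) * V r ^ (p + 1) - 1 / (q + 1) * U r ^ (q + 1)} by
      simp only [mem_setOf_eq]; linarith)
  simp only [mem_setOf_eq] at hcz hlast
  have hc0 : c < 0 := lt_of_le_of_ne hcI.2 fun e => by
    have := h.below hc (le_refl (0 : ℝ))
    subst e; linarith
  have hle : ∀ r ∈ Ioc c 0, 1 / (p + 1) * V r ^ (p + 1) ≤ 1 / (q + 1) * U r ^ (q + 1) :=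
    fun r hr => by linarith [not_le.1 (hlast r hr)]
  have hceq : 1 / (p + 1) * V c ^ (p + 1) = 1 / (q + 1) * U c ^ (q + 1) := by
    have : 1 / (p + 1) * V c ^ (p + 1) - 1 / (q + 1) * U c ^ (q + 1) ≤ 0 :=
      le_of_tendsto ((cZ.tendsto c).mono_left nhdsWithin_le_nhds) (by
        filter_upwards [Ioo_mem_nhdsGT hc0] with r hr
        linarith [hle r ⟨hr.1, hr.2.le⟩])
    linarith
  have hW := h.Wf_pos_left hc (hlo.trans_le hcI.1) hc0.le fun r hr => by
    rcases hr.1.eq_or_lt with rfl | hlt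
    · exact hceq.le
    · exact hle r ⟨hlt, hr.2⟩
  obtain ⟨l, hl, hsub⟩ := mem_nhdsLT_iff_exists_Ioo_subset.1 (mem_nhdsWithin_of_mem_nhds
    (((h.continuous_Wf hN).tendsto c).eventually (Ioi_mem_nhds (hW c ⟨le_rfl, hc0.le⟩))))
  set lo' : ℝ := max l lo with hlo'
  have hlo'c : lo' < c := max_lt hl (hlo.trans_le hcI.1)
  refine ⟨lo', c, h.restrict (le_max_right _ _) (hlo'c.trans hc0), hlo'c, hc0, hceq, fun r hr => ?_⟩
  rcases lt_or_ge r c with hrc | hrc
  · exact hsub ⟨(le_max_left _ _).trans_lt hr, hrc⟩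
  rcases le_or_gt r 0 with hr0 | hr0
  · exact hW r ⟨hrc, hr0⟩
  · exact h.Wf_pos hc hr0.le

end IsBranch

/-- **The branch covering all `z` in `(0, (p+1)/(q+1)]`.** -/
theorem exists_full_branch (hc : IsCrit N p q) :
    ∃ (lo ρk : ℝ) (U V : ℝ → ℝ), IsBranch N p q lo U V ∧ lo < ρk ∧ ρk < 0 ∧
      1 / (p + 1) * V ρk ^ (p + 1) = 1 / (q + 1) * U ρk ^ (q + 1) ∧
      ∀ ρ, lo < ρ → 0 < Wf N p q U V ρ := by
  have hN := hc.dim
  have hp := hc.p_pos
  have hq := hc.q_pos
  obtain ⟨hal, hlt, -⟩ := hc.weights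
  set al : ℝ := 1 / (p + 1) with hal'
  set be : ℝ := 1 / (q + 1) with hbe'
  have hbe : 0 < be := hal.trans hlt
  obtain ⟨lo, U, V, h⟩ := exists_isBranch hc
  set ρ₀ : ℝ := lo / 2 with hρ₀
  have hρ₀0 : ρ₀ < 0 := by linarith [h.lo_neg]
  have hρ₀lo : lo < ρ₀ := by linarith [h.lo_neg]
  by_cases hcase : ∃ ρ ∈ Icc ρ₀ 0, be * U ρ ^ (q + 1) ≤ al * V ρ ^ (p + 1)
  · obtain ⟨ρ, hρ, hz⟩ := hcase
    have : ρ < 0 := lt_of_le_of_ne hρ.2 fun e => by
      subst e; linarith [h.below hc (le_refl (0 : ℝ))]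
    obtain ⟨lo', ρk, h'⟩ := h.finish hc (hρ₀lo.trans_le hρ.1) this hz
    exact ⟨lo', ρk, U, V, h'⟩
  push Not at hcase
  have hzle : ∀ ρ ∈ Icc ρ₀ 0, al * V ρ ^ (p + 1) ≤ be * U ρ ^ (q + 1) := fun ρ hρ => (hcase ρ hρ).le
  have hW₀ := h.Wf_pos_left hc hρ₀lo hρ₀0.le hzle ρ₀ ⟨le_rfl, hρ₀0.le⟩
  set x₀ : ℝ := -vel N p V ρ₀ / U ρ₀ with hx₀
  have hx₀0 : 0 < x₀ := div_pos (neg_pos.2 (vel_neg hN h.contV h.posV ρ₀)) (h.posU ρ₀)
  set m : ℝ := ρ₀ * vel N p V ρ₀ with hm
  have hm0 : 0 < m := mul_pos_of_neg_of_neg hρ₀0 (vel_neg hN h.contV h.posV ρ₀)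
  set S : ℝ := (2 * N * (2 * al + 1) * ((1 + m) / m) + 4 * (al + 1) / be) / (4 * al) +
    (1 + 2 * al) / be with hS
  have hS0 : 0 < S := by positivity
  have hc0 : 0 < al * (1 - al / be) := mul_pos hal (sub_pos.2 ((div_lt_one hbe).2 hlt))
  set e : ℝ := min (min 1 (Wf N p q U V ρ₀ / x₀)) (al * (1 - al / be) / (2 * S)) with he
  have he0 : 0 < e := lt_min (lt_min one_pos (div_pos hW₀ hx₀0)) (by positivity)
  have he₀ : e * x₀ ≤ Wf N p q U V ρ₀ :=
    (le_div_iff₀ hx₀0).1 ((min_le_left _ _).trans (min_le_right _ _))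
  have hsmall : e * S < al * (1 - al / be) := by
    have h1 := (le_div_iff₀ (by positivity)).1
      (min_le_right (min 1 (Wf N p q U V ρ₀ / x₀)) (al * (1 - al / be) / (2 * S)))
    linarith
  set M₀ : ℝ := Real.exp (Real.log (U ρ₀) +
    al * be / e * (Real.log ((p + 1) / (q + 1)) - Real.log (zf p q U V ρ₀))) with hM₀
  set M₁ : ℝ := ((p + 1) / (q + 1) * M₀ ^ (q + 1)) ^ (1 / (p + 1)) with hM₁
  set M : ℝ := max (max M₀ M₁) (max (U ρ₀) (V ρ₀)) + 1 with hM
  have hM₀M : M₀ < M := by linarith [le_max_left M₀ M₁, le_max_left (max M₀ M₁) (max (U ρ₀) (V ρ₀))]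
  have hM₁M : M₁ < M := by linarith [le_max_right M₀ M₁, le_max_left (max M₀ M₁) (max (U ρ₀) (V ρ₀))]
  have hUM : U ρ₀ < M := by linarith [le_max_left (U ρ₀) (V ρ₀), le_max_right (max M₀ M₁) (max (U ρ₀) (V ρ₀))]
  have hVM : V ρ₀ < M := by linarith [le_max_right (U ρ₀) (V ρ₀), le_max_right (max M₀ M₁) (max (U ρ₀) (V ρ₀))]
  obtain ⟨aU, aV⟩ := h.antitone_right hN
  have hb := h.posV 0
  set b : ℝ := V 0 with hb'
  set d : ℝ := min 1 b / 2 with hd
  have hd0 : 0 < d := by positivity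
  have hd1 : d < 1 ∧ d < b := by
    constructor <;> simp only [hd] <;> linarith [min_le_left 1 b, min_le_right 1 b]
  have h1U : 1 ≤ U ρ₀ := by
    have := aU.antitoneOn (mem_Ioi.2 hρ₀lo) (mem_Ioi.2 h.lo_neg) hρ₀0.le
    rwa [h.one] at this
  have hdM : d ≤ M := by linarith [hd1.1]
  obtain ⟨L, hf, hg⟩ := exists_lipschitz_pair hd0 hdM p q
  obtain ⟨u, v, huv⟩ := exists_isIntSol hN hf hg (B := max (M ^ p) (M ^ q))
    (fun x => (clampPow_bounded hd0 hp.le hdM x).trans (le_max_left _ _))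
    (fun x => (clampPow_bounded hd0 hq.le hdM x).trans (le_max_right _ _)) b
  have du := fun s => huv.hasDerivAt_u hN (continuous_clampPow hd0 p) s
  have dv := fun s => huv.hasDerivAt_v hN (continuous_clampPow hd0 q) s
  have hposu : ∀ s, d ^ p * (2 / N) ≤ avg N (clampPow p d M ∘ v) s := fun s =>
    avg_ge hN ((continuous_clampPow hd0 p).comp huv.contV) fun x _ => rpow_le_clampPow hd0 hp.le _
  have hposv : ∀ s, d ^ q * (2 / N) ≤ avg N (clampPow q d M ∘ u) s := fun s =>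
    avg_ge hN ((continuous_clampPow hd0 q).comp huv.contU) fun x _ => rpow_le_clampPow hd0 hq.le _
  have au : StrictAnti u := strictAnti_of_hasDerivAt_neg du fun s => by
    linarith [hposu s, show (0 : ℝ) < d ^ p * (2 / N) by positivity]
  have av : StrictAnti v := strictAnti_of_hasDerivAt_neg dv fun s => by
    linarith [hposv s, show (0 : ℝ) < d ^ q * (2 / N) by positivity]
  have neg_ge : ∀ s ≤ (0 : ℝ), 1 ≤ u s ∧ b ≤ v s := fun s hs =>
    ⟨huv.u_zero ▸ au.antitone hs, huv.v_zero ▸ av.antitone hs⟩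
  -- agreement on [ρ₀, 0]
  have agree : ∀ s ∈ Icc ρ₀ 0, u s = U s ∧ v s = V s := by
    intro s hs
    have := stability hN hf hg hρ₀0.le le_rfl huv.contU huv.contV h.contU h.contV
      (fun x _ => ⟨huv.eqU x, huv.eqV x⟩) (b₂ := b) (fun x hx => ?_) hs
    · simpa [sub_eq_zero] using this
    refine ⟨(h.eqU x (hρ₀lo.trans_le hx.1)).trans (congrArg _ (prim_congr fun y hy => ?_)),
      (h.eqV x (hρ₀lo.trans_le hx.1)).trans (congrArg _ (prim_congr fun y hy => ?_))⟩ <;>
    · rw [uIcc_of_ge hx.2] at hy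
      have hy' : lo < y := hρ₀lo.trans_le (hx.1.trans hy.1)
      simp only [Function.comp_apply]
      refine (clampPow_eq ⟨?_, ?_⟩).symm
      · have h1 := aU.antitoneOn (mem_Ioi.2 hy') (mem_Ioi.2 h.lo_neg) hy.2
        have h2 := aV.antitoneOn (mem_Ioi.2 hy') (mem_Ioi.2 h.lo_neg) hy.2
        rw [h.one] at h1
        linarith [hd1.1, hd1.2]
      · have h1 := aU.antitoneOn (mem_Ioi.2 hρ₀lo) (mem_Ioi.2 hy') (hx.1.trans hy.1)
        have h2 := aV.antitoneOn (mem_Ioi.2 hρ₀lo) (mem_Ioi.2 hy') (hx.1.trans hy.1)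
        linarith
  -- the exit point
  obtain ⟨R, hR0, hR⟩ := exists_ge_left du (show (0 : ℝ) < d ^ p * (2 / N) by positivity) hposu M
  obtain ⟨ex, hexI, hex, hlast⟩ := exists_last ((isClosed_le continuous_const huv.contU).union
    (isClosed_le continuous_const huv.contV)) hR0.le
    (show R ∈ {r | M ≤ u r} ∪ {r | M ≤ v r} from Or.inl hR)
  have hexρ₀ : ex < ρ₀ := by
    by_contra hge
    obtain ⟨e1, e2⟩ := agree ρ₀ ⟨le_rfl, hρ₀0.le⟩
    rcases hex with h5 | h5 <;> simp only [mem_setOf_eq] at h5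
    · linarith [au.antitone (not_lt.1 hge)]
    · linarith [av.antitone (not_lt.1 hge)]
  have hlt_M : ∀ r ∈ Ioc ex 0, u r < M ∧ v r < M := fun r hr => by
    have := hlast r hr
    simp only [mem_union, mem_setOf_eq, not_or, not_le] at this
    exact this
  set U₂ : ℝ → ℝ := fun r => if r ≤ 0 then u r else U r with hU₂
  set V₂ : ℝ → ℝ := fun r => if r ≤ 0 then v r else V r with hV₂
  have eqIcc : ∀ r, ρ₀ ≤ r → U₂ r = U r ∧ V₂ r = V r := fun r hr => by
    by_cases h0 : r ≤ 0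
    · simp only [U₂, V₂, if_pos h0]; exact agree r ⟨hr, h0⟩
    · simp only [U₂, V₂, if_neg h0, and_self]
  have h₂ : IsBranch N p q ex U₂ V₂ := by
    refine ⟨hexρ₀.trans hρ₀0, Continuous.if_le huv.contU h.contU continuous_id continuous_const
        fun x hx => by rw [hx, huv.u_zero, h.one],
      Continuous.if_le huv.contV h.contV continuous_id continuous_const
        fun x hx => by rw [hx, huv.v_zero],
      fun r => ?_, fun r => ?_, by simp [U₂, huv.u_zero], fun r hr => ?_, fun r hr => ?_⟩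
    · by_cases h0 : r ≤ 0
      · simp only [U₂, if_pos h0]; linarith [(neg_ge r h0).1]
      · simp only [U₂, if_neg h0]; exact h.posU r
    · by_cases h0 : r ≤ 0
      · simp only [V₂, if_pos h0]; linarith [(neg_ge r h0).2]
      · simp only [V₂, if_neg h0]; exact h.posV r
    all_goals
      have hV0 : V₂ 0 = b := by simp [V₂, huv.v_zero]
      rcases le_or_gt r 0 with h0 | h0
      · try rw [hV0]
        simp only [U₂, V₂, if_pos h0]
        first
          | refine (huv.eqU r).trans (congrArg _ (prim_congr fun y hy => ?_))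
          | refine (huv.eqV r).trans (congrArg _ (prim_congr fun y hy => ?_))
        rw [uIcc_of_ge h0] at hy
        obtain ⟨hu3, hv3⟩ := hlt_M y ⟨hr.trans_le hy.1, hy.2⟩
        simp only [Function.comp_apply, if_pos hy.2]
        exact clampPow_eq ⟨by linarith [(neg_ge y hy.2).1, (neg_ge y hy.2).2, hd1.1, hd1.2],
          by linarith⟩
      · obtain ⟨e1, e2⟩ := eqIcc r (hρ₀0.le.trans h0.le)
        try rw [hV0]
        first
          | refine e1.trans ((h.eqU r (h.lo_neg.trans h0)).trans (congrArg _ (prim_congr fun y hy => ?_)))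
          | refine e2.trans ((h.eqV r (h.lo_neg.trans h0)).trans (congrArg _ (prim_congr fun y hy => ?_)))
        rw [uIcc_of_le h0.le] at hy
        obtain ⟨e3, e4⟩ := eqIcc y (hρ₀0.le.trans hy.1)
        simp only [e3, e4]
  by_cases hreach : ∃ r ∈ Ioc ex 0, be * U₂ r ^ (q + 1) ≤ al * V₂ r ^ (p + 1)
  · obtain ⟨r, hr, hz⟩ := hreach
    have : r < 0 := lt_of_le_of_ne hr.2 fun e => by
      subst e; linarith [h₂.below hc (le_refl (0 : ℝ))]
    obtain ⟨lo', ρk, h'⟩ := h₂.finish hc hr.1 this hz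
    exact ⟨lo', ρk, U₂, V₂, h'⟩
  exfalso
  push Not at hreach
  have hvel : vel N p V₂ ρ₀ = vel N p V ρ₀ ∧ vel N q U₂ ρ₀ = vel N q U ρ₀ := by
    constructor <;> simp only [vel] <;> congr 1 <;> refine avg_congr fun y hy => ?_ <;>
      rw [uIcc_of_ge hρ₀0.le] at hy <;> obtain ⟨e1, e2⟩ := eqIcc y hy.1 <;> simp only [e1, e2]
  obtain ⟨eu0, ev0⟩ := eqIcc ρ₀ le_rfl
  have hz0 : zf p q U₂ V₂ ρ₀ = zf p q U V ρ₀ := by simp only [zf, eu0, ev0]
  have hW0' : Wf N p q U₂ V₂ ρ₀ = Wf N p q U V ρ₀ := by simp only [Wf, hvel.1, hvel.2, eu0, ev0]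
  have hbd : ∀ r ∈ Ioc ex ρ₀, U₂ r ≤ M₀ ∧ V₂ r ≤ M₁ := by
    intro r hr
    have hzr : ∀ s ∈ Icc r 0, al * V₂ s ^ (p + 1) ≤ be * U₂ s ^ (q + 1) := fun s hs =>
      (hreach s ⟨hr.1.trans_le hs.1, hs.2⟩).le
    have hlog := h₂.log_U_le hc hr.1 hr.2 hρ₀0 hm0 (by rw [hvel.1]) he0
      ((min_le_left _ _).trans (min_le_left _ _))
      (by rw [hvel.1, eu0, hW0']; exact he₀) hsmall hzr
    rw [eu0, hz0] at hlog
    have hU2 := h₂.posU r
    have hV2 := h₂.posV r
    have hzk : zf p q U₂ V₂ r ≤ (p + 1) / (q + 1) := by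
      rw [zf, div_le_iff₀ (Real.rpow_pos_of_pos hU2 _)]
      have h3 := mul_le_mul_of_nonneg_left (hzr r ⟨le_rfl, hr.2.trans hρ₀0.le⟩)
        (show 0 ≤ p + 1 by linarith)
      rw [hal', hbe', ← mul_assoc, mul_one_div_cancel (by linarith), one_mul, ← mul_assoc,
        ← mul_div_assoc, mul_one] at h3
      exact h3
    have hzpos : 0 < zf p q U₂ V₂ r :=
      div_pos (Real.rpow_pos_of_pos hV2 _) (Real.rpow_pos_of_pos hU2 _)
    have hUle : U₂ r ≤ M₀ := by
      rw [hM₀, ← Real.exp_log hU2]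
      refine Real.exp_le_exp.2 (hlog.trans ?_)
      have h4 := Real.log_le_log hzpos hzk
      have h5 := mul_le_mul_of_nonneg_left
        (sub_le_sub_right h4 (Real.log (zf p q U V ρ₀))) (show 0 ≤ al * be / e by positivity)
      linarith
    refine ⟨hUle, ?_⟩
    rw [hM₁, ← Real.rpow_le_rpow_iff hV2.le (Real.rpow_nonneg
      (mul_nonneg (by positivity) (Real.rpow_nonneg (hU2.le.trans hUle) _)) _)
      (show 0 < p + 1 by linarith), ← Real.rpow_mul
      (mul_nonneg (by positivity) (Real.rpow_nonneg (hU2.le.trans hUle) _)),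
      one_div_mul_cancel (by linarith), Real.rpow_one]
    calc V₂ r ^ (p + 1) = zf p q U₂ V₂ r * U₂ r ^ (q + 1) := by
          rw [zf, div_mul_cancel₀ _ (Real.rpow_pos_of_pos hU2 _).ne']
      _ ≤ (p + 1) / (q + 1) * M₀ ^ (q + 1) :=
          mul_le_mul hzk (Real.rpow_le_rpow hU2.le hUle (by linarith))
            (Real.rpow_nonneg hU2.le _) (by positivity)
  have hev : ∀ᶠ r in 𝓝[>] ex, u r ≤ M₀ ∧ v r ≤ M₁ := by
    filter_upwards [Ioo_mem_nhdsGT hexρ₀] with r hr
    have := hbd r ⟨hr.1, hr.2.le⟩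
    simp only [U₂, V₂, if_pos (hr.2.le.trans hρ₀0.le)] at this
    exact this
  have hu' : u ex ≤ M₀ := le_of_tendsto ((huv.contU.tendsto ex).mono_left nhdsWithin_le_nhds)
    (hev.mono fun r hr => hr.1)
  have hv' : v ex ≤ M₁ := le_of_tendsto ((huv.contV.tendsto ex).mono_left nhdsWithin_le_nhds)
    (hev.mono fun r hr => hr.2)
  rcases hex with h5 | h5 <;> simp only [mem_setOf_eq] at h5 <;> linarith

end Vale.Agent.P100.Bubble
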