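import Mathlib
import Vale.Agent.P100.Bubble.Phase

/-!
# The limit of the phase orbit at infinity

`x → N - 2`, `y → min (N-2) (N al / be)`, `P → 0` and `be Q → N al (N-2-y)`.
-/

open Set Filter Topology

namespace Vale.Agent.P100.Bubble

/-- A bounded function whose derivative is bounded below where it is `≤ a` is eventually `≥ a`. -/
theorem eventually_ge_of_deriv {f f' : ℝ → ℝ} {a c B : ℝ} (hc : 0 < c)
    (hd : ∀ t, HasDerivAt f (f' t) t) (hB : ∀ t, f t ≤ B)
    (h : ∀ᶠ t in atTop, f t ≤ a → c ≤ f' t) : ∀ᶠ t in atTop, a ≤ f t := by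
  obtain ⟨T, hT⟩ := eventually_atTop.1 h
  have hcont : Continuous f := continuous_iff_continuousAt.2 fun t => (hd t).continuousAt
  obtain ⟨t₁, ht₁, hft₁⟩ : ∃ t₁, T ≤ t₁ ∧ a ≤ f t₁ := by
    by_contra hn
    push Not at hn
    set D : ℝ := (|B - f T| + 1) / c with hD
    have hD0 : 0 < D := by positivity
    have h1 := (convex_Icc T (T + D)).mul_sub_le_image_sub_of_le_deriv hcont.continuousOn
      (fun t _ => (hd t).differentiableAt.differentiableWithinAt) (C := c)
      (fun t ht => by
        rw [interior_Icc] at ht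
        rw [(hd t).deriv]
        exact hT t ht.1.le (hn t ht.1.le).le)
      T (left_mem_Icc.2 (by linarith)) (T + D) (right_mem_Icc.2 (by linarith)) (by linarith)
    rw [add_sub_cancel_left, hD, mul_div_cancel₀ _ hc.ne'] at h1
    linarith [hB (T + (|B - f T| + 1) / c), le_abs_self (B - f T)]
  filter_upwards [eventually_ge_atTop t₁] with t ht
  have h1 := image_le_of_deriv_right_lt_deriv_boundary (f := fun u => -f u) (B := fun _ => -a)
    (B' := fun _ => 0) (a := t₁) (b := t) hcont.neg.continuousOn
    (fun u _ => (hd u).neg.hasDerivWithinAt) (neg_le_neg hft₁) (fun u => hasDerivAt_const u _)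
    (fun u hu hue => by
      have := hT u (ht₁.trans hu.1) (by linarith)
      linarith) (right_mem_Icc.2 ht)
  linarith

/-- The same from above. -/
theorem eventually_le_of_deriv {f f' : ℝ → ℝ} {a c B : ℝ} (hc : 0 < c)
    (hd : ∀ t, HasDerivAt f (f' t) t) (hB : ∀ t, B ≤ f t)
    (h : ∀ᶠ t in atTop, a ≤ f t → f' t ≤ -c) : ∀ᶠ t in atTop, f t ≤ a :=
  (eventually_ge_of_deriv (f := fun u => -f u) (a := -a) (B := -B) hc (fun t => (hd t).neg)
    (fun t => neg_le_neg (hB t))
    (h.mono fun t ht hle => by have := ht (by linarith); linarith)).mono fun t ht => by linarith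

namespace IsOrbit

variable {N al be : ℝ} {x y P Q : ℝ → ℝ}

/-- `be Q (1 + r) = N al x + y (N be - x)`. -/
theorem sum_eq' (h : IsOrbit N al be x y P Q) (t : ℝ) :
    be * Q t * (1 + ratio al be P Q t) = al * x t * N + y t * (N * be - x t) := by
  have := h.be_pos; have := h.Q_pos t
  simp only [ratio]
  field_simp
  linear_combination h.quad t

theorem P_tendsto (h : IsOrbit N al be x y P Q) (hr : Tendsto (ratio al be P Q) atTop (𝓝 0)) :
    Tendsto P atTop (𝓝 0) := by
  have hal := h.al_pos
  have hbe := h.be_pos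
  obtain ⟨C, hC⟩ := h.exists_bound (Φ := fun s => be * s.2.2.2 / al) (by fun_prop)
  refine squeeze_zero (fun t => (h.P_pos t).le) (g := fun t => ratio al be P Q t * C) (fun t => ?_)
    (by simpa using hr.mul_const C)
  have e : P t = ratio al be P Q t * (be * Q t / al) := by
    have := h.Q_pos t
    simp only [ratio]; field_simp
  rw [e]
  exact mul_le_mul_of_nonneg_left ((le_abs_self _).trans (hC t)) (h.ratio_mem t).1.le

theorem x_tendsto (h : IsOrbit N al be x y P Q) (hr : Tendsto (ratio al be P Q) atTop (𝓝 0)) :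
    Tendsto x atTop (𝓝 (N - 2)) := by
  have hal := h.al_pos
  have hbe := h.be_pos
  have hN := h.dim
  have hP := h.P_tendsto hr
  refine tendsto_order.2 ⟨fun a ha => ?_, fun a ha => Eventually.of_forall fun t => (h.x_lt t).trans ha⟩
  by_contra hn
  set e : ℝ := min (N - 2 - a) ((N - 2) / 2) with he
  have he0 : 0 < e := lt_min (by linarith) (by linarith)
  have he2 : e ≤ (N - 2) / 2 := min_le_right _ _
  have hhalf : 0 < (N - 2) / 2 := by linarith
  have hxc : Continuous x := continuous_iff_continuousAt.2 fun t => (h.dx t).continuousAt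
  -- `x` is trapped below `N - 2 - e`
  obtain ⟨T, hT⟩ := eventually_atTop.1
    (hP.eventually (Iio_mem_nhds (show 0 < (N - 2 - e) * e from mul_pos (by linarith) he0)))
  obtain ⟨t₀, ht₀, hxt₀⟩ : ∃ t₀, T ≤ t₀ ∧ x t₀ ≤ N - 2 - e := by
    by_contra hcon
    push Not at hcon
    exact hn (eventually_atTop.2 ⟨T, fun t ht => by
      have := hcon t ht; linarith [min_le_left (N - 2 - a) ((N - 2) / 2)]⟩)
  have htrap : ∀ t, t₀ ≤ t → x t ≤ N - 2 - e := fun t ht =>
    image_le_of_deriv_right_lt_deriv_boundary (B := fun _ => N - 2 - e) (B' := fun _ => 0)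
      hxc.continuousOn (fun u _ => (h.dx u).hasDerivWithinAt) hxt₀ (fun u => hasDerivAt_const u _)
      (fun u hu hue => by
        have : P u < (N - 2 - e) * e := hT u (ht₀.trans hu.1)
        rw [hue]; linarith) (right_mem_Icc.2 ht)
  -- hence `x → 0`
  have hx0 : Tendsto x atTop (𝓝 0) := by
    refine tendsto_order.2 ⟨fun b hb => Eventually.of_forall fun t => hb.trans (h.x_pos t),
      fun b hb => ?_⟩
    have hev := eventually_le_of_deriv (a := b / 2) (c := b / 4 * e) (B := 0) (by positivity) h.dx
      (fun t => (h.x_pos t).le) (by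
        filter_upwards [eventually_ge_atTop t₀,
          hP.eventually (Iio_mem_nhds (show 0 < b / 4 * e by positivity))] with t ht hPt hxt
        have h1 := mul_le_mul hxt (show e ≤ N - 2 - x t by linarith [htrap t ht]) he0.le (h.x_pos t).le
        linarith [show P t < b / 4 * e from hPt])
    exact hev.mono fun t ht => ht.trans_lt (by linarith)
  -- then `y` would grow without bound
  have hrate : Tendsto (fun t => (N - x t / be) / (1 + ratio al be P Q t) - (N - 2)) atTop
      (𝓝 2) := by
    have h1 := ((hx0.div_const be).const_sub N).div (hr.const_add 1) (by norm_num)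
    simpa using h1.sub_const (N - 2)
  obtain ⟨T₂, hT₂⟩ := eventually_atTop.1 (hrate.eventually (Ioi_mem_nhds (show (1 : ℝ) < 2 by norm_num)))
  have hy' : ∀ t, T₂ ≤ t → y t ≤ Q t - y t * (N - 2 - y t) := fun t ht => by
    have h1 : (1 : ℝ) < (N - x t / be) / (1 + ratio al be P Q t) - (N - 2) := hT₂ t ht
    obtain ⟨hr0, -⟩ := h.ratio_mem t
    have h2 : y t * ((N - x t / be) / (1 + ratio al be P Q t)) ≤ Q t := by
      rw [← mul_div_assoc, div_le_iff₀ (by linarith)]
      refine le_of_mul_le_mul_left ?_ hbe
      have e1 : be * (y t * (N - x t / be)) = y t * (N * be - x t) := by field_simp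
      rw [e1, ← mul_assoc, h.sum_eq' t]
      linarith [mul_pos (mul_pos hal (h.x_pos t)) (show 0 < N by linarith)]
    have h3 := mul_le_mul_of_nonneg_left h1.le (h.y_pos t).le
    nlinarith [h.y_pos t]
  have hyc : Continuous y := continuous_iff_continuousAt.2 fun t => (h.dy t).continuousAt
  have hm : MonotoneOn y (Ici T₂) := monotoneOn_of_hasDerivWithinAt_nonneg (convex_Ici T₂)
    hyc.continuousOn (fun s _ => (h.dy s).hasDerivWithinAt) fun s hs => by
      rw [interior_Ici] at hs
      linarith [hy' s hs.le, h.y_pos s]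
  have hev := eventually_ge_of_deriv (a := N - 2) (c := y T₂) (B := N - 2) (h.y_pos T₂) h.dy
    (fun t => (h.y_lt t).le) ((eventually_ge_atTop T₂).mono fun t ht _ =>
      (hm self_mem_Ici ht ht).trans (hy' t ht))
  obtain ⟨t, ht⟩ := hev.exists
  linarith [h.y_lt t]

theorem y_Q_tendsto (h : IsOrbit N al be x y P Q) (hr : Tendsto (ratio al be P Q) atTop (𝓝 0)) :
    Tendsto y atTop (𝓝 (min (N - 2) (N * al / be))) ∧
      Tendsto Q atTop (𝓝 (N * al / be * (N - 2 - min (N - 2) (N * al / be)))) := by
  have hal := h.al_pos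
  have hbe := h.be_pos
  have hN := h.dim
  have hx := h.x_tendsto hr
  set k : ℝ := N * al / be with hk
  -- `y' = (k - y) (N - 2 - y) + o(1)`
  obtain ⟨C, hC⟩ := h.exists_bound (Φ := fun s => |s.2.2.2| + |N * al / be| + |s.2.1 / be|) (by fun_prop)
  have herr : Tendsto (fun t => Q t - y t * (N - 2 - y t) - (k - y t) * (N - 2 - y t)) atTop (𝓝 0) := by
    refine squeeze_zero_norm (a := fun t => (ratio al be P Q t + |x t - (N - 2)|) * C) (fun t => ?_)
      (by simpa using (hr.add ((hx.sub_const (N - 2)).abs)).mul_const C)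
    have e : Q t - y t * (N - 2 - y t) - (k - y t) * (N - 2 - y t) =
        -(ratio al be P Q t) * Q t + (x t - (N - 2)) * (N * al / be - y t / be) := by
      have e1 := h.sum_eq' t
      have e3 : be * y t * N = (N - 2) * y t - N * al * y t + 2 * y t * 0 +
          (N * al + N * be - (N - 2)) * y t := by ring
      rw [h.sum, sub_self, zero_mul] at e3
      have e2 : Q t = (al * x t * N + y t * (N * be - x t)) / be - ratio al be P Q t * Q t := by
        field_simp; linarith
      rw [hk]
      nth_rewrite 1 [e2]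
      field_simp
      linear_combination y t * h.sum
    rw [Real.norm_eq_abs, e]
    have hCt : |Q t| + |N * al / be| + |y t / be| ≤ C := (le_abs_self _).trans (hC t)
    refine (abs_add_le _ _).trans ?_
    rw [abs_mul, abs_neg, abs_of_pos (h.ratio_mem t).1, abs_mul, add_mul]
    exact add_le_add
      (mul_le_mul_of_nonneg_left (by linarith [abs_nonneg (N * al / be), abs_nonneg (y t / be)])
        (h.ratio_mem t).1.le)
      (mul_le_mul_of_nonneg_left ((abs_sub _ _).trans (by linarith [abs_nonneg (Q t)])) (abs_nonneg _))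
  set m : ℝ := min (N - 2) k with hm
  have hlow : ∀ e, 0 < e → ∀ᶠ t in atTop, m - e ≤ y t := fun e he => by
    refine eventually_ge_of_deriv (c := e * e / 2) (B := N - 2) (by positivity) h.dy
      (fun t => (h.y_lt t).le) ?_
    filter_upwards [herr.eventually (Ioi_mem_nhds (show -(e * e / 2) < 0 by nlinarith))] with t ht hyt
    have h1 : e * e ≤ (k - y t) * (N - 2 - y t) :=
      mul_le_mul (by linarith [min_le_right (N - 2) k]) (by linarith [min_le_left (N - 2) k]) he.le
        (by linarith [min_le_right (N - 2) k])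
    linarith [show -(e * e / 2) < Q t - y t * (N - 2 - y t) - (k - y t) * (N - 2 - y t) from ht]
  have hQlim : ∀ {l : ℝ}, Tendsto y atTop (𝓝 l) → Tendsto Q atTop (𝓝 (k * (N - 2 - l))) := by
    intro l hl
    have h1 := (herr.add ((hl.const_sub k).mul (hl.const_sub (N - 2)))).add (hl.mul (hl.const_sub (N - 2)))
    rw [show k * (N - 2 - l) = 0 + (k - l) * (N - 2 - l) + l * (N - 2 - l) by ring]
    exact h1.congr fun t => by ring
  have hy : Tendsto y atTop (𝓝 m) := by
    refine tendsto_order.2 ⟨fun a ha => ?_, fun a ha => ?_⟩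
    · exact (hlow ((m - a) / 2) (by linarith)).mono fun t ht => by linarith
    rcases le_or_gt (N - 2) k with hcase | hcase
    · rw [hm, min_eq_left hcase] at ha
      exact Eventually.of_forall fun t => (h.y_lt t).trans ha
    rw [hm, min_eq_right hcase.le] at ha
    by_contra hn
    -- then `y` tends to `N - 2`, and `Q` increases towards zero
    have hy2 : Tendsto y atTop (𝓝 (N - 2)) := by
      refine tendsto_order.2 ⟨fun b hb => ?_, fun b hb => Eventually.of_forall fun t => (h.y_lt t).trans hb⟩
      by_contra hn2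
      set e : ℝ := min (N - 2 - b) ((N - 2 - k) / 2) with he
      have he0 : 0 < e := lt_min (by linarith) (by linarith)
      set d : ℝ := min ((a - k) / 2) ((N - 2 - k) / 2) with hd
      have hd0 : 0 < d := lt_min (by linarith) (by linarith)
      have hek : k + d ≤ N - 2 - e := by
        linarith [min_le_right ((a - k) / 2) ((N - 2 - k) / 2), min_le_right (N - 2 - b) ((N - 2 - k) / 2)]
      obtain ⟨T, hT⟩ := eventually_atTop.1
        (herr.eventually (Iio_mem_nhds (show 0 < d * e / 2 by positivity)))
      obtain ⟨t₀, ht₀, hyt₀⟩ : ∃ t₀, T ≤ t₀ ∧ y t₀ ≤ N - 2 - e := by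
        by_contra hcon
        push Not at hcon
        exact hn2 (eventually_atTop.2 ⟨T, fun t ht => by
          have := hcon t ht; linarith [min_le_left (N - 2 - b) ((N - 2 - k) / 2)]⟩)
      have hder : ∀ t, T ≤ t → k + d ≤ y t → y t ≤ N - 2 - e →
          Q t - y t * (N - 2 - y t) ≤ -(d * e / 2) := fun t ht h1 h2 => by
        have h3 := mul_le_mul (show d ≤ y t - k by linarith) (show e ≤ N - 2 - y t by linarith) he0.le
          (by linarith)
        linarith [show Q t - y t * (N - 2 - y t) - (k - y t) * (N - 2 - y t) < d * e / 2 from hT t ht]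
      have htrap : ∀ t, t₀ ≤ t → y t ≤ N - 2 - e := fun t ht =>
        image_le_of_deriv_right_lt_deriv_boundary (B := fun _ => N - 2 - e) (B' := fun _ => 0)
          (fun u _ => (h.dy u).continuousAt.continuousWithinAt) (fun u _ => (h.dy u).hasDerivWithinAt)
          hyt₀ (fun u => hasDerivAt_const u _)
          (fun u hu hue => by
            have := hder u (ht₀.trans hu.1) (hue ▸ hek) hue.le
            linarith [show 0 < d * e / 2 by positivity]) (right_mem_Icc.2 ht)
      have hev := eventually_le_of_deriv (a := k + d) (show 0 < d * e / 2 by positivity) h.dy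
        (fun t => (h.y_pos t).le)
        ((eventually_ge_atTop t₀).mono fun t ht hle => hder t (ht₀.trans ht) hle (htrap t ht))
      exact hn (hev.mono fun t ht => by linarith [min_le_left ((a - k) / 2) ((N - 2 - k) / 2)])
    have hQ0 := hQlim hy2
    rw [sub_self, mul_zero] at hQ0
    have hrate : Tendsto (fun t => 2 - (1 / be - 1) * x t + y t) atTop
        (𝓝 (2 - (1 / be - 1) * (N - 2) + (N - 2))) := ((hx.const_mul _).const_sub 2).add hy2
    have hpos : 0 < 2 - (1 / be - 1) * (N - 2) + (N - 2) := by
      have h1 : be * (2 - (1 / be - 1) * (N - 2) + (N - 2)) = be * (2 * N - 2) - (N - 2) := by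
        field_simp; ring
      rw [hk, div_lt_iff₀ hbe] at hcase
      refine pos_of_mul_pos_right (show 0 < be * _ from ?_) hbe.le
      rw [h1]
      linarith [h.sum]
    obtain ⟨T₂, hT₂⟩ := eventually_atTop.1 (hrate.eventually (Ioi_mem_nhds hpos))
    have hmono : MonotoneOn Q (Ici T₂) := monotoneOn_of_hasDerivWithinAt_nonneg (convex_Ici T₂)
      (fun s _ => (h.dQ s).continuousAt.continuousWithinAt) (fun s _ => (h.dQ s).hasDerivWithinAt)
      fun s hs => by
        rw [interior_Ici] at hs
        exact mul_nonneg (h.Q_pos s).le (le_of_lt (hT₂ s hs.le))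
    have := ge_of_tendsto hQ0 ((eventually_ge_atTop T₂).mono fun t ht => hmono self_mem_Ici ht ht)
    linarith [h.Q_pos T₂]
  exact ⟨hy, hQlim hy⟩

end IsOrbit

end Vale.Agent.P100.Bubble
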