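import Mathlib
import Vale.Agent.P100.Bubble.Backward
import Vale.Agent.P100.Bubble.Tail

/-!
# The trapping band of the bubble

With `x = -u'/u`, `y = -v'/v`: `ρ (z y - x) < 0` for `ρ ≠ 0` and `y ≤ x` everywhere,
strictly for `ρ > 0`.
-/

open Set Filter Topology

namespace Vale.Agent.P100.Bubble

variable {N p q lo : ℝ} {U V : ℝ → ℝ}

namespace IsOrbit

variable {al be : ℝ} {x y P Q : ℝ → ℝ}

/-- `y < x` along an orbit on which `y ≥ x` forces `P < Q`. -/
theorem y_lt_x (h : IsOrbit N al be x y P Q) (hr : Tendsto (ratio al be P Q) atTop (𝓝 0))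
    (hPQ : ∀ t, x t ≤ y t → P t < Q t) (t₁ : ℝ) : y t₁ < x t₁ := by
  have hN := h.dim
  have hd : ∀ t, HasDerivAt (fun s => y s - x s)
      (Q t - P t + (y t - x t) * (x t + y t - (N - 2))) t := fun t =>
    ((h.dy t).fun_sub (h.dx t)).congr_deriv (by ring)
  have hc : Continuous fun s => y s - x s := continuous_iff_continuousAt.2 fun t => (hd t).continuousAt
  have hnot : ∀ t, ¬ x t < y t := by
    intro t ht
    have hstay : ∀ u, t ≤ u → x u ≤ y u := fun u hu => by
      have h1 := image_le_of_deriv_right_lt_deriv_boundary (f := fun s => -(y s - x s))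
        (B := fun _ => 0) (B' := fun _ => 0) hc.neg.continuousOn
        (fun s _ => (hd s).neg.hasDerivWithinAt) (by linarith) (fun s => hasDerivAt_const s _)
        (fun s _ hs => by
          have h0 : y s - x s = 0 := by linarith
          have := hPQ s (by linarith)
          rw [h0]; linarith) (right_mem_Icc.2 hu)
      linarith
    have hw := ((h.y_Q_tendsto hr).1).sub (h.x_tendsto hr)
    have hm := min_le_left (N - 2) (N * al / be)
    rcases hm.eq_or_lt with he | hlt
    · rw [he, sub_self] at hw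
      have hsum : Tendsto (fun u => x u + y u - (N - 2)) atTop (𝓝 (N - 2)) := by
        have h1 := ((h.x_tendsto hr).add (h.y_Q_tendsto hr).1).sub_const (N - 2)
        rwa [he, add_sub_cancel_right] at h1
      obtain ⟨T, hT⟩ := eventually_atTop.1
        ((hsum.eventually (Ioi_mem_nhds (show (0 : ℝ) < N - 2 by linarith))).and
          (eventually_ge_atTop t))
      have hmono : StrictMonoOn (fun s => y s - x s) (Ici T) :=
        strictMonoOn_of_hasDerivWithinAt_pos (convex_Ici T) hc.continuousOn
          (fun s _ => (hd s).hasDerivWithinAt) fun s hs => by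
            rw [interior_Ici] at hs
            obtain ⟨h1, h2⟩ := hT s hs.le
            have := hPQ s (hstay s h2)
            have := mul_nonneg (sub_nonneg.2 (hstay s h2)) (le_of_lt (mem_Ioi.1 h1))
            linarith
      have h1 := ge_of_tendsto hw ((eventually_ge_atTop (T + 1)).mono fun s hs =>
        hmono.monotoneOn (show T + 1 ∈ Ici T by simp) (show s ∈ Ici T by simp; linarith) hs)
      have h2 := hmono (self_mem_Ici (a := T)) (show T + 1 ∈ Ici T by simp) (by linarith)
      linarith [hstay T (hT T le_rfl).2]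
    · have h1 := ge_of_tendsto hw ((eventually_ge_atTop t).mono fun s hs =>
        show (0 : ℝ) ≤ y s - x s by linarith [hstay s hs])
      linarith
  refine lt_of_le_of_ne (not_lt.1 (hnot t₁)) fun he => ?_
  have h1 : 0 < Q t₁ - P t₁ + (y t₁ - x t₁) * (x t₁ + y t₁ - (N - 2)) := by
    rw [he, sub_self, zero_mul, add_zero]; linarith [hPQ t₁ he.ge]
  obtain ⟨s, hs⟩ := (eventually_lt_right (hd t₁).neg (neg_lt_zero.2 h1)).exists
  simp only [Pi.neg_apply] at hs
  exact hnot s (by linarith)

end IsOrbit

namespace IsBranch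

/-- `log (z y / x)`. -/
noncomputable def gap (N p q : ℝ) (U V : ℝ → ℝ) (ρ : ℝ) : ℝ :=
  Real.log (zf p q U V ρ * (-vel N q U ρ / V ρ) / (-vel N p V ρ / U ρ))

theorem hasDerivAt_ratios' (h : IsBranch N p q lo U V) (hN : 2 < N) (hp : 0 < p) (hq : 0 < q) {ρ : ℝ}
    (hρ : lo < ρ) :
    HasDerivAt (zf p q U V)
      (zf p q U V ρ * ((q + 1) * (-vel N p V ρ / U ρ) - (p + 1) * (-vel N q U ρ / V ρ))) ρ := by
  have hU := h.posU ρ
  have hV := h.posV ρ
  refine (((h.hasDerivAt_V hN hρ).rpow_const (p := p + 1) (Or.inl hV.ne')).fun_div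
    ((h.hasDerivAt_U hN hρ).rpow_const (p := q + 1) (Or.inl hU.ne'))
    (Real.rpow_pos_of_pos hU _).ne').congr_deriv ?_
  simp only [zf, add_sub_cancel_right]
  rw [Real.rpow_add_one hV.ne', Real.rpow_add_one hU.ne']
  have := Real.rpow_pos_of_pos hU q
  field_simp
  ring

theorem gap_zero (h : IsBranch N p q lo U V) (hN : 2 < N) : gap N p q U V 0 = 0 := by
  have hV := h.posV 0
  rw [gap]
  simp only [zf, h.one, velU_zero hN, Real.one_rpow, Real.rpow_add_one hV.ne']
  have := Real.rpow_pos_of_pos hV p
  rw [Real.log_eq_zero]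
  right; left
  field_simp

theorem hasDerivAt_gap (h : IsBranch N p q lo U V) (hc : IsCrit N p q) {ρ : ℝ} (hρ : lo < ρ)
    (h0 : ρ ≠ 0) :
    HasDerivAt (gap N p q U V)
      (q * (-vel N p V ρ / U ρ) - p * (-vel N q U ρ / V ρ) +
        (U ρ ^ q / V ρ / (-vel N q U ρ / V ρ) - V ρ ^ p / U ρ / (-vel N p V ρ / U ρ)) / (4 * ρ)) ρ := by
  have hN := hc.dim
  have hx : 0 < -vel N p V ρ / U ρ := div_pos (neg_pos.2 (vel_neg hN h.contV h.posV ρ)) (h.posU ρ)
  have hy : 0 < -vel N q U ρ / V ρ := div_pos (neg_pos.2 (vel_neg hN h.contU h.posU ρ)) (h.posV ρ)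
  have hz : 0 < zf p q U V ρ :=
    div_pos (Real.rpow_pos_of_pos (h.posV ρ) _) (Real.rpow_pos_of_pos (h.posU ρ) _)
  have dx := hasDerivAt_quot (h.hasDerivAt_U hN hρ) (h.velU_spec hN hρ).1 (h.velU_spec hN hρ).2
    (h.posU ρ).ne' h0
  have dy := hasDerivAt_quot (h.hasDerivAt_V hN hρ) (h.velV_spec hN hρ).1 (h.velV_spec hN hρ).2
    (h.posV ρ).ne' h0
  refine (((h.hasDerivAt_ratios' hN hc.p_pos hc.q_pos hρ).fun_mul dy).fun_div dx hx.ne'
    |>.log (div_pos (mul_pos hz hy) hx).ne').congr_deriv ?_
  set x := -vel N p V ρ / U ρ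
  set y := -vel N q U ρ / V ρ
  set z := zf p q U V ρ
  set P := V ρ ^ p / U ρ
  set Q := U ρ ^ q / V ρ
  field_simp
  ring

/-- `ρ (z y - x) < 0`. -/
theorem gap_sign (h : IsBranch N p q lo U V) (hc : IsCrit N p q)
    (hW : ∀ r, lo < r → 0 < Wf N p q U V r) {ρ : ℝ} (hρ : lo < ρ) :
    (0 < ρ → gap N p q U V ρ < 0) ∧ (ρ < 0 → 0 < gap N p q U V ρ) := by
  have hN := hc.dim
  have hp := hc.p_pos
  have hq := hc.q_pos
  have hg0 := h.gap_zero (p := p) (q := q) hN
  have hsign : ∀ r, lo < r → (0 < r → 0 ≤ gap N p q U V r →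
      q * (-vel N p V r / U r) - p * (-vel N q U r / V r) +
        (U r ^ q / V r / (-vel N q U r / V r) - V r ^ p / U r / (-vel N p V r / U r)) / (4 * r) < 0) ∧
      (r < 0 → gap N p q U V r ≤ 0 →
      q * (-vel N p V r / U r) - p * (-vel N q U r / V r) +
        (U r ^ q / V r / (-vel N q U r / V r) - V r ^ p / U r / (-vel N p V r / U r)) / (4 * r) < 0) := by
    intro r hr
    have hU := h.posU r; have hV := h.posV r
    set x := -vel N p V r / U r with hxdef
    set y := -vel N q U r / V r with hydef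
    have hx : 0 < x := div_pos (neg_pos.2 (vel_neg hN h.contV h.posV r)) hU
    have hy : 0 < y := div_pos (neg_pos.2 (vel_neg hN h.contU h.posU r)) hV
    have hz : zf p q U V r * (U r ^ q / V r) = V r ^ p / U r := by
      have := Real.rpow_pos_of_pos hU q
      simp only [zf, Real.rpow_add_one hU.ne', Real.rpow_add_one hV.ne']
      field_simp
    have hz0 : 0 < zf p q U V r :=
      div_pos (Real.rpow_pos_of_pos hV _) (Real.rpow_pos_of_pos hU _)
    have hQ : 0 < U r ^ q / V r := div_pos (Real.rpow_pos_of_pos hU q) hV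
    have h1 : q * x - p * y < 0 := by
      have h2 : 0 < 1 / (q + 1) * y - 1 / (p + 1) * x := hW r hr
      have h3 : (q + 1) * x < (p + 1) * y := by
        field_simp at h2
        linarith
      have h4 : (q + 1) * (q * x - p * y) < 0 := by
        have := mul_lt_mul_of_pos_left h3 hq
        have := mul_pos (sub_pos.2 hc.lt) hy
        linarith
      exact neg_of_mul_neg_right h4 (by linarith)
    have e : U r ^ q / V r / y - V r ^ p / U r / x =
        U r ^ q / V r / y * (1 - zf p q U V r * y / x) := by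
      rw [← hz]; field_simp
    constructor <;> intro hr0 hg
    · have h2 : 1 ≤ zf p q U V r * y / x :=
        not_lt.1 fun hn => not_lt.2 hg (Real.log_neg (by positivity) hn)
      have h3 : (U r ^ q / V r / y - V r ^ p / U r / x) / (4 * r) ≤ 0 :=
        div_nonpos_of_nonpos_of_nonneg
          (e ▸ mul_nonpos_of_nonneg_of_nonpos (by positivity) (sub_nonpos.2 h2)) (by linarith)
      linarith
    · have h2 : zf p q U V r * y / x ≤ 1 :=
        not_lt.1 fun hn => not_lt.2 hg (Real.log_pos hn)
      have h3 : (U r ^ q / V r / y - V r ^ p / U r / x) / (4 * r) ≤ 0 :=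
        div_nonpos_of_nonneg_of_nonpos
          (e ▸ mul_nonneg (by positivity) (sub_nonneg.2 h2)) (by linarith)
      linarith
  have cg : ∀ r, lo < r → ContinuousAt (gap N p q U V) r := fun r hr => by
    have hU := h.posU r; have hV := h.posV r
    refine ContinuousAt.log ?_ ?_
    · refine ((((h.hasDerivAt_ratios' hN hp hq hr).continuousAt).mul ?_).div ?_ ?_)
      · exact ((continuous_vel hN h.contU h.posU).neg.div h.contV fun s => (h.posV s).ne').continuousAt
      · exact ((continuous_vel hN h.contV h.posV).neg.div h.contU fun s => (h.posU s).ne').continuousAt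
      · exact (div_pos (neg_pos.2 (vel_neg hN h.contV h.posV r)) hU).ne'
    · exact (div_pos (mul_pos (div_pos (Real.rpow_pos_of_pos hV _) (Real.rpow_pos_of_pos hU _))
        (div_pos (neg_pos.2 (vel_neg hN h.contU h.posU r)) hV))
        (div_pos (neg_pos.2 (vel_neg hN h.contV h.posV r)) hU)).ne'
  constructor
  · intro hpos
    have strict : ∀ r, 0 < r → ¬ 0 < gap N p q U V r := by
      intro r hr hgr
      have hne : (Icc 0 r ∩ gap N p q U V ⁻¹' Iic 0).Nonempty :=
        ⟨0, ⟨le_rfl, hr.le⟩, show gap N p q U V 0 ≤ 0 from hg0.le⟩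
      have hcl : IsCompact (Icc 0 r ∩ gap N p q U V ⁻¹' Iic 0) :=
        isCompact_Icc.of_isClosed_subset ((continuousOn_of_forall_continuousAt fun s hs =>
          cg s (h.lo_neg.trans_le hs.1)).preimage_isClosed_of_isClosed isClosed_Icc isClosed_Iic)
          inter_subset_left
      obtain ⟨c, ⟨hcI, hcg⟩, hmax⟩ := hcl.exists_isGreatest hne
      have hcr : c < r := lt_of_le_of_ne hcI.2 fun e => not_lt.2 hcg (e ▸ hgr)
      obtain ⟨d, hd, hslope⟩ := exists_hasDerivAt_eq_slope _ _ hcr
        (fun s hs => (cg s (h.lo_neg.trans_le (hcI.1.trans hs.1))).continuousWithinAt)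
        (fun s hs => h.hasDerivAt_gap hc (h.lo_neg.trans (hcI.1.trans_lt hs.1)) (hcI.1.trans_lt hs.1).ne')
      have hd0 : 0 < d := hcI.1.trans_lt hd.1
      have hgd : 0 ≤ gap N p q U V d := by
        by_contra hn
        exact not_lt.2 (hmax ⟨⟨hd0.le, hd.2.le⟩, show gap N p q U V d ≤ 0 from (not_le.1 hn).le⟩) hd.1
      have h1 := (hsign d (h.lo_neg.trans hd0)).1 hd0 hgd
      rw [hslope] at h1
      have h2 : 0 ≤ (gap N p q U V r - gap N p q U V c) / (r - c) :=
        div_nonneg (by linarith [show gap N p q U V c ≤ 0 from hcg]) (by linarith)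
      linarith
    refine lt_of_le_of_ne (not_lt.1 (strict ρ hpos)) fun he => ?_
    obtain ⟨s, hs, hs0⟩ := ((eventually_lt_left (h.hasDerivAt_gap hc hρ hpos.ne').neg
      (neg_pos.2 ((hsign ρ hρ).1 hpos he.ge))).and (Ioo_mem_nhdsLT hpos)).exists
    simp only [Pi.neg_apply] at hs
    exact strict s hs0.1 (by linarith)
  · intro hneg
    have strict : ∀ r, lo < r → r < 0 → ¬ gap N p q U V r < 0 := by
      intro r hlr hr hgr
      have hne : (Icc r 0 ∩ gap N p q U V ⁻¹' Ici 0).Nonempty :=
        ⟨0, ⟨hr.le, le_rfl⟩, show 0 ≤ gap N p q U V 0 from hg0.ge⟩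
      have hcl : IsCompact (Icc r 0 ∩ gap N p q U V ⁻¹' Ici 0) :=
        isCompact_Icc.of_isClosed_subset ((continuousOn_of_forall_continuousAt fun s hs =>
          cg s (hlr.trans_le hs.1)).preimage_isClosed_of_isClosed isClosed_Icc isClosed_Ici)
          inter_subset_left
      obtain ⟨c, ⟨hcI, hcg⟩, hmin⟩ := hcl.exists_isLeast hne
      have hrc : r < c := lt_of_le_of_ne hcI.1 fun e => not_lt.2 hcg (e ▸ hgr)
      obtain ⟨d, hd, hslope⟩ := exists_hasDerivAt_eq_slope _ _ hrc
        (fun s hs => (cg s (hlr.trans_le hs.1)).continuousWithinAt)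
        (fun s hs => h.hasDerivAt_gap hc (hlr.trans hs.1) (hs.2.trans_le hcI.2).ne)
      have hd0 : d < 0 := hd.2.trans_le hcI.2
      have hgd : gap N p q U V d ≤ 0 := by
        by_contra hn
        exact not_lt.2 (hmin ⟨⟨hd.1.le, hd0.le⟩, show 0 ≤ gap N p q U V d from (not_le.1 hn).le⟩) hd.2
      have h1 := (hsign d (hlr.trans hd.1)).2 hd0 hgd
      rw [hslope] at h1
      have h2 : 0 ≤ (gap N p q U V c - gap N p q U V r) / (c - r) :=
        div_nonneg (by linarith [show 0 ≤ gap N p q U V c from hcg]) (by linarith)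
      linarith
    refine lt_of_le_of_ne (not_lt.1 (strict ρ hρ hneg)) fun he => ?_
    obtain ⟨s, hs, hs0⟩ := ((eventually_lt_right (h.hasDerivAt_gap hc hρ hneg.ne)
      ((hsign ρ hρ).2 hneg he.ge)).and (Ioo_mem_nhdsGT hneg)).exists
    exact strict s (hρ.trans hs0.1) hs0.2 (by linarith)

/-- `z y < x` for `ρ > 0`, `x < z y` for `ρ < 0`, and `y ≤ x`, strictly for `ρ > 0`. -/
theorem band (h : IsBranch N p q lo U V) (hc : IsCrit N p q)
    (hW : ∀ r, lo < r → 0 < Wf N p q U V r) :
    (∀ r, lo < r →
      (0 < r → zf p q U V r * (-vel N q U r / V r) < -vel N p V r / U r ∧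
        -vel N q U r / V r < -vel N p V r / U r) ∧
      (r < 0 → -vel N p V r / U r < zf p q U V r * (-vel N q U r / V r))) ∧
    (∀ r, lo < r → -vel N q U r / V r ≤ -vel N p V r / U r) := by
  have hN := hc.dim
  have hp := hc.p_pos
  have hq := hc.q_pos
  set x : ℝ → ℝ := fun r => -vel N p V r / U r with hxd
  set y : ℝ → ℝ := fun r => -vel N q U r / V r with hyd
  set z : ℝ → ℝ := zf p q U V with hzd
  have hx : ∀ r, 0 < x r := fun r => div_pos (neg_pos.2 (vel_neg hN h.contV h.posV r)) (h.posU r)
  have hy : ∀ r, 0 < y r := fun r => div_pos (neg_pos.2 (vel_neg hN h.contU h.posU r)) (h.posV r)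
  have hz : ∀ r, 0 < z r := fun r =>
    div_pos (Real.rpow_pos_of_pos (h.posV r) _) (Real.rpow_pos_of_pos (h.posU r) _)
  have hup : ∀ r, lo < r → 0 < r → z r * y r < x r := fun r hr hr0 =>
    (div_lt_one (hx r)).1 (not_le.1 fun hn =>
      not_lt.2 (Real.log_nonneg hn) ((h.gap_sign hc hW hr).1 hr0))
  have hdown : ∀ r, lo < r → r < 0 → x r < z r * y r := fun r hr hr0 =>
    (one_lt_div (hx r)).1 (not_le.1 fun hn =>
      not_lt.2 (Real.log_nonpos (div_pos (mul_pos (hz r) (hy r)) (hx r)).le hn)
        ((h.gap_sign hc hW hr).2 hr0))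
  have hQ : ∀ r, 0 < U r ^ q / V r := fun r => div_pos (Real.rpow_pos_of_pos (h.posU r) q) (h.posV r)
  have hzQ : ∀ r, z r * (U r ^ q / V r) = V r ^ p / U r := fun r => by
    have := Real.rpow_pos_of_pos (h.posU r) q
    simp only [z, zf, Real.rpow_add_one (h.posU r).ne', Real.rpow_add_one (h.posV r).ne']
    have := h.posU r; have := h.posV r
    field_simp
  have ho := h.isOrbit hc
  have hT : ∀ t ≤ (0 : ℝ), 0 < 1 / (q + 1) *
      (-(2 * Real.exp (2 * t) * vel N q U (Real.exp (2 * t))) / V (Real.exp (2 * t))) -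
      1 / (p + 1) * (-(2 * Real.exp (2 * t) * vel N p V (Real.exp (2 * t))) /
        U (Real.exp (2 * t))) := fun t _ => by
    have := mul_pos (mul_pos (two_pos (α := ℝ)) (Real.exp_pos (2 * t)))
      (hW _ (h.lo_neg.trans (Real.exp_pos (2 * t))))
    simp only [Wf] at this
    ring_nf at this ⊢
    linarith
  have hpos : ∀ r, 0 < r → y r < x r := fun r hr => by
    have h1 := ho.y_lt_x (ho.ratio_tendsto hT) (fun t ht => ?_) (Real.log r / 2)
    · rw [mul_div_cancel₀ _ two_ne_zero, Real.exp_log hr] at h1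
      have e1 : -(2 * r * vel N q U r) / V r = 2 * r * y r := by simp only [y]; ring
      have e2 : -(2 * r * vel N p V r) / U r = 2 * r * x r := by simp only [x]; ring
      rw [e1, e2] at h1
      exact lt_of_mul_lt_mul_left h1 (by positivity)
    · set s := Real.exp (2 * t) with hs
      have hs0 : 0 < s := Real.exp_pos _
      have h2 := hup s (h.lo_neg.trans hs0) hs0
      have h3 : x s ≤ y s := by
        have e1 : -(2 * s * vel N q U s) / V s = 2 * s * y s := by simp only [y]; ring
        have e2 : -(2 * s * vel N p V s) / U s = 2 * s * x s := by simp only [x]; ring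
        rw [e1, e2] at ht
        exact le_of_mul_le_mul_left ht (by positivity)
      have h4 : z s < 1 := lt_of_mul_lt_mul_right (show z s * y s < 1 * y s by linarith) (hy s).le
      rw [mul_div_assoc, mul_div_assoc]
      refine mul_lt_mul_of_pos_left ?_ hs0
      rw [← hzQ s]
      exact mul_lt_of_lt_one_left (hQ s) h4
  have hcxy : Continuous fun r => y r - x r :=
    ((continuous_vel hN h.contU h.posU).neg.div h.contV fun s => (h.posV s).ne').sub
      ((continuous_vel hN h.contV h.posV).neg.div h.contU fun s => (h.posU s).ne')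
  have hzero : y 0 ≤ x 0 := by
    have h1 := le_of_tendsto ((hcxy.tendsto 0).mono_left (nhdsWithin_le_nhds (s := Ioi 0))) (b := 0) (by
      filter_upwards [self_mem_nhdsWithin] with r hr
      linarith [hpos r (mem_Ioi.1 hr)])
    linarith
  have hneg : ∀ r, lo < r → r < 0 → y r ≤ x r := by
    intro r hr hr0
    by_contra hn
    obtain ⟨c, hcI, hcz, hfirst⟩ := exists_first (isClosed_le hcxy continuous_const) hr0.le
      (show (0 : ℝ) ∈ {u | y u - x u ≤ 0} by simp only [mem_setOf_eq]; linarith)
    simp only [mem_setOf_eq] at hcz hfirst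
    have hrc : r < c := lt_of_le_of_ne hcI.1 fun e => by subst e; exact hn (by linarith)
    have hev : ∀ᶠ u in 𝓝[<] c, 0 < y u - x u := by
      filter_upwards [Ioo_mem_nhdsLT hrc] with u hu
      exact not_le.1 (hfirst u ⟨hu.1.le, hu.2⟩)
    have hc0 : y c - x c = 0 := le_antisymm hcz
      (ge_of_tendsto ((hcxy.tendsto c).mono_left nhdsWithin_le_nhds) (hev.mono fun u hu => hu.le))
    -- at zero the inequality `y ≤ x` is strict unless `z 0 = 1`; move to a negative point
    rcases hcI.2.eq_or_lt with hce | hcneg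
    · -- on `(r, 0)` we have `y > x`, hence `(y - x)' > 0` at every zero, and `z ≥ x / y`
      subst hce
      have hz0 : z 0 = 1 := by
        have h1 : z 0 * y 0 = x 0 := by
          have hV := h.posV 0
          simp only [x, y, z, zf, velU_zero hN, h.one, Real.one_rpow, Real.rpow_add_one hV.ne']
          field_simp
        rw [show y 0 = x 0 by linarith] at h1
        exact (mul_eq_right₀ (hx 0).ne').1 h1
      have cz : ContinuousAt (fun u => q * x u - p * y u) 0 := by
        refine ((continuous_const.mul ((continuous_vel hN h.contV h.posV).neg.div h.contU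
          fun s => (h.posU s).ne')).sub (continuous_const.mul
            ((continuous_vel hN h.contU h.posU).neg.div h.contV fun s => (h.posV s).ne'))).continuousAt
      obtain ⟨d, hd, hslope⟩ := exists_hasDerivAt_eq_slope (fun u => y u - x u)
        (fun u => (U u ^ q / V u - V u ^ p / U u) / 4 / u -
          N / 2 * (y u - x u) / u + (y u - x u) * (y u + x u)) hrc hcxy.continuousOn fun u hu => by
          refine ((hasDerivAt_quot (h.hasDerivAt_V hN (hr.trans hu.1))
            (h.velV_spec hN (hr.trans hu.1)).1 (h.velV_spec hN (hr.trans hu.1)).2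
            (h.posV u).ne' hu.2.ne).fun_sub
            (hasDerivAt_quot (h.hasDerivAt_U hN (hr.trans hu.1))
              (h.velU_spec hN (hr.trans hu.1)).1 (h.velU_spec hN (hr.trans hu.1)).2
              (h.posU u).ne' hu.2.ne)).congr_deriv ?_
          simp only [x, y]
          ring
      have hd1 : 0 < y d - x d := not_le.1 (hfirst d ⟨hd.1.le, hd.2⟩)
      have hz1 : 1 ≤ z d := by
        have hanti : AntitoneOn z (Icc d 0) := antitoneOn_of_hasDerivWithinAt_nonpos (convex_Icc d 0)
          (fun u hu => (h.hasDerivAt_ratios' hN hp hq (hr.trans (hd.1.trans_le hu.1))).continuousAt.continuousWithinAt)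
          (fun u hu => by
            rw [interior_Icc] at hu
            exact (h.hasDerivAt_ratios' hN hp hq (hr.trans (hd.1.trans hu.1))).hasDerivWithinAt)
          fun u hu => by
            rw [interior_Icc] at hu
            have h2 : 0 < 1 / (q + 1) * y u - 1 / (p + 1) * x u := hW u (hr.trans (hd.1.trans hu.1))
            refine mul_nonpos_of_nonneg_of_nonpos (hz u).le ?_
            have e3 : (q + 1) * x u - (p + 1) * y u =
                -((p + 1) * (q + 1)) * (1 / (q + 1) * y u - 1 / (p + 1) * x u) := by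
              field_simp
              ring
            rw [e3]
            exact mul_nonpos_of_nonpos_of_nonneg (neg_nonpos.2 (by positivity)) h2.le
        have := hanti (left_mem_Icc.2 hd.2.le) (right_mem_Icc.2 hd.2.le) hd.2.le
        linarith
      have h1 : 0 ≤ (U d ^ q / V d - V d ^ p / U d) / 4 / d := by
        rw [← hzQ d]
        exact div_nonneg_of_nonpos
          (div_nonpos_of_nonpos_of_nonneg
            (by linarith [mul_le_mul_of_nonneg_right hz1 (hQ d).le]) (by norm_num)) hd.2.le
      have h2 : 0 < -(N / 2 * (y d - x d) / d) :=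
        neg_pos.2 (div_neg_of_pos_of_neg (mul_pos (by linarith) hd1) hd.2)
      have h3 : 0 < (y d - x d) * (y d + x d) := mul_pos hd1 (by linarith [hx d, hy d])
      have h4 : (y 0 - x 0 - (y r - x r)) / (0 - r) < 0 :=
        div_neg_of_neg_of_pos (by linarith [not_le.1 hn]) (by linarith)
      linarith
    · have hclo : lo < c := hr.trans hrc
      have hder := deriv_nonpos_of_left
        ((hasDerivAt_quot (h.hasDerivAt_V hN hclo) (h.velV_spec hN hclo).1
          (h.velV_spec hN hclo).2 (h.posV c).ne' hcneg.ne).fun_sub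
          (hasDerivAt_quot (h.hasDerivAt_U hN hclo) (h.velU_spec hN hclo).1
            (h.velU_spec hN hclo).2 (h.posU c).ne' hcneg.ne))
        (hev.mono fun u hu => by simp only [x, y] at hu hc0; linarith)
      have he : y c = x c := by linarith
      have h1 := hdown c hclo hcneg
      rw [he] at h1
      have h2 : 1 < z c := lt_of_mul_lt_mul_right (show 1 * x c < z c * x c by linarith) (hx c).le
      have h3 : 0 < (U c ^ q / V c - V c ^ p / U c) / 4 / c := by
        rw [← hzQ c]
        exact div_pos_of_neg_of_neg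
          (div_neg_of_neg_of_pos (sub_neg.2 (lt_mul_of_one_lt_left (hQ c) h2)) (by norm_num)) hcneg
      simp only [x, y] at he
      rw [he] at hder
      linarith [show (U c ^ q / V c / 4 - N / 2 * (-vel N p V c / U c)) / c + (-vel N p V c / U c) ^ 2 -
        ((V c ^ p / U c / 4 - N / 2 * (-vel N p V c / U c)) / c + (-vel N p V c / U c) ^ 2) =
        (U c ^ q / V c - V c ^ p / U c) / 4 / c by ring]
  refine ⟨fun r hr => ⟨fun hr0 => ⟨hup r hr hr0, hpos r hr0⟩, hdown r hr⟩, fun r hr => ?_⟩
  rcases lt_trichotomy r 0 with hr0 | rfl | hr0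
  · exact hneg r hr hr0
  · exact hzero
  · exact (hpos r hr0).le

end IsBranch

end Vale.Agent.P100.Bubble
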