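import Mathlib

/-!
# Algebra of the trapping region of the bubble

`r = y/x`; the sign of `(f - e)'` where `e = f` is that of `gp x r`. Everything is proved on
the strip `5 ≤ N`, `al < be`, `1 ≤ N al`.
-/

namespace Vale.Agent.P100.Bubble.Trap

variable {N a d : ℝ}

/-- Positive coordinates `N = 5 + m`, `N a = (1 + (3 + m) u / 2) / (1 + u)` of the strip. -/
theorem coords (hN : 5 ≤ N) (hs : N * (2 * a + d) = N - 2) (hd : 0 < d) (ha : 1 ≤ N * a) :
    ∃ m u : ℝ, 0 ≤ m ∧ 0 ≤ u ∧ N = 5 + m ∧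
      N * (1 + u) * a = 1 + (3 + m) / 2 * u ∧
      N * (1 + u) * d = (3 + m) * (1 + u) - 2 * (1 + (3 + m) / 2 * u) := by
  have hNd : 0 < N * d := mul_pos (by linarith) hd
  refine ⟨N - 5, (N * a - 1) / (N * d / 2), by linarith, by positivity, by ring, ?_, ?_⟩
  · field_simp
    linear_combination (N * a - 1) * hs
  · field_simp
    linear_combination (N * d) * hs

theorem end_pos (hN : 5 ≤ N) (hs : N * (2 * a + d) = N - 2) (hd : 0 < d) (ha : 1 ≤ N * a) :
    0 ≤ ((N - 2) * (N - 3)) * (1 - d ^ 2) + (4 * N - 6) * (1 + d + 2 * a * d) -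
      2 * (N + 2 * a) * (1 + d + 2 * a) - 5 * (a * (1 + a)) := by
  obtain ⟨m, u, hm, hu, rfl, eA, eD⟩ := coords hN hs hd ha
  set L := (5 + m) * (1 + u) with hL
  have hL0 : 0 < L := by positivity
  refine nonneg_of_mul_nonneg_left (b := L ^ 2) ?_ (by positivity)
  rw [show ((5 + m - 2) * (5 + m - 3) * (1 - d ^ 2) + (4 * (5 + m) - 6) * (1 + d + 2 * a * d) -
      2 * (5 + m + 2 * a) * (1 + d + 2 * a) - 5 * (a * (1 + a))) * L ^ 2 =
    (3 + m) * (2 + m) * (L ^ 2 - (L * d) ^ 2) +
      (14 + 4 * m) * (L ^ 2 + L * d * L + 2 * (L * a) * (L * d)) -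
      2 * ((5 + m) * L + 2 * (L * a)) * (L + L * d + 2 * (L * a)) -
      5 * (L * a) * (L + L * a) by ring, eA, eD, hL]
  ring_nf
  positivity

theorem slope_pos (hN : 5 ≤ N) (hs : N * (2 * a + d) = N - 2) (hd : 0 < d) (ha : 1 ≤ N * a) :
    0 < (a + d) * (N + 2 * a) * (12 + 12 * (N - 2) + 2 * (N - 2) ^ 2) -
      2 * d * (a + d) * (4 * (N - 2) + 3 * (N - 2) ^ 2) + 12 * N * (a * (1 + a)) -
      4 * (N - 2) * N * (1 + d + 2 * a * d) - (N - 2) ^ 2 * N * (1 - d ^ 2) := by
  obtain ⟨m, u, hm, hu, rfl, eA, eD⟩ := coords hN hs hd ha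
  set L := (5 + m) * (1 + u) with hL
  have hL0 : 0 < L := by positivity
  refine pos_of_mul_pos_left (b := L ^ 2) ?_ (by positivity)
  rw [show ((a + d) * (5 + m + 2 * a) * (12 + 12 * (5 + m - 2) + 2 * (5 + m - 2) ^ 2) -
      2 * d * (a + d) * (4 * (5 + m - 2) + 3 * (5 + m - 2) ^ 2) + 12 * (5 + m) * (a * (1 + a)) -
      4 * (5 + m - 2) * (5 + m) * (1 + d + 2 * a * d) -
      (5 + m - 2) ^ 2 * (5 + m) * (1 - d ^ 2)) * L ^ 2 =
    (L * a + L * d) * ((5 + m) * L + 2 * (L * a)) * (12 + 12 * (3 + m) + 2 * (3 + m) ^ 2) -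
      2 * (L * d) * (L * a + L * d) * (4 * (3 + m) + 3 * (3 + m) ^ 2) +
      12 * (5 + m) * (L * a) * (L + L * a) -
      4 * (3 + m) * (5 + m) * (L ^ 2 + L * d * L + 2 * (L * a) * (L * d)) -
      (3 + m) ^ 2 * (5 + m) * (L ^ 2 - (L * d) ^ 2) by ring, eA, eD, hL]
  ring_nf
  positivity

theorem curv_pos (hN : 5 ≤ N) (hs : N * (2 * a + d) = N - 2) (hd : 0 < d) (ha : 1 ≤ N * a) :
    0 < (a + d) * (N + 2 * a) * (6 + 3 * (N - 2)) - 2 * d * (a + d) * (N - 2) +
      6 * N * (a * (1 + a)) - (N - 2) * N * (1 + d + 2 * a * d) := by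
  obtain ⟨m, u, hm, hu, rfl, eA, eD⟩ := coords hN hs hd ha
  set L := (5 + m) * (1 + u) with hL
  have hL0 : 0 < L := by positivity
  refine pos_of_mul_pos_left (b := L ^ 2) ?_ (by positivity)
  rw [show ((a + d) * (5 + m + 2 * a) * (6 + 3 * (5 + m - 2)) - 2 * d * (a + d) * (5 + m - 2) +
      6 * (5 + m) * (a * (1 + a)) - (5 + m - 2) * (5 + m) * (1 + d + 2 * a * d)) * L ^ 2 =
    (L * a + L * d) * ((5 + m) * L + 2 * (L * a)) * (6 + 3 * (3 + m)) -
      2 * (L * d) * (L * a + L * d) * (3 + m) + 6 * (5 + m) * (L * a) * (L + L * a) -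
      (3 + m) * (5 + m) * (L ^ 2 + L * d * L + 2 * (L * a) * (L * d)) by ring, eA, eD, hL]
  ring_nf
  positivity


/-- The strip of weights. -/
structure Strip (N al be : ℝ) : Prop where
  five : 5 ≤ N
  lt : al < be
  sum : N * al + N * be = N - 2
  low : 1 ≤ N * al

/-- `x' = 0` side: `ρ > ρc` iff `c0p > 0`. -/
def c0p (N al be r : ℝ) : ℝ := be * (N + 2 * al) * r - al * (N + 2 * be)

/-- The quadratic of the linear coefficient. -/
def qc (al be r : ℝ) : ℝ :=
  be * (1 + al) * r ^ 2 - (1 + al + be + 2 * al * be) * r + al * (1 + be)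

/-- The sign function of `(f - e)'` on `f = e`. -/
def gp (N al be x r : ℝ) : ℝ :=
  c0p N al be r * (al + be * r) + x * ((be * r - al) * qc al be r)

variable {al be x r : ℝ}

theorem Strip.al_pos (h : Strip N al be) : 0 < al :=
  pos_of_mul_pos_right (lt_of_lt_of_le one_pos h.low) (by linarith [h.five])

theorem Strip.be_pos (h : Strip N al be) : 0 < be := h.al_pos.trans h.lt

theorem Strip.diff_lt_one (h : Strip N al be) : be - al < 1 := by
  have := h.five
  refine lt_of_mul_lt_mul_left (show N * (be - al) < N * 1 by linarith [h.sum, h.low]) (by linarith)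

theorem Strip.weights (h : Strip N al be) :
    0 < be - al ∧ N * (2 * al + (be - al)) = N - 2 :=
  ⟨sub_pos.2 h.lt, by linarith [h.sum]⟩

theorem qc_neg (h : Strip N al be) (h0 : al ≤ be * r) (h1 : r ≤ 1) : qc al be r < 0 := by
  have hal := h.al_pos; have hbe := h.be_pos; have hd := h.diff_lt_one
  have hd0 : 0 < be - al := sub_pos.2 h.lt
  have hsq : (be - al) * (be - al) < 1 * 1 := mul_self_lt_mul_self hd0.le hd
  have e : (be - al) * qc al be r = (be * r - al) * (-1) +
      be * (1 - r) * (al / be * ((be - al) ^ 2 - 1)) -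
      be * (1 + al) * ((be * r - al) * (1 - r)) * ((be - al) / be) := by
    simp only [qc]
    field_simp
    ring
  have h2 : al / be * ((be - al) ^ 2 - 1) < 0 :=
    mul_neg_of_pos_of_neg (div_pos hal hbe) (by linarith)
  have h3 : 0 ≤ be * (1 + al) * ((be * r - al) * (1 - r)) * ((be - al) / be) :=
    mul_nonneg (mul_nonneg (by positivity) (mul_nonneg (sub_nonneg.2 h0) (sub_nonneg.2 h1)))
      (div_nonneg hd0.le hbe.le)
  refine neg_of_mul_neg_right ?_ hd0.le
  rw [e]
  rcases h1.eq_or_lt with h4 | h4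
  · subst h4
    simp only [sub_self, mul_zero, zero_mul, add_zero] at h3 ⊢
    linarith
  · have := mul_neg_of_pos_of_neg (mul_pos hbe (sub_pos.2 h4)) h2
    linarith

/-- `2 + x j > 0` below `min (1, k)`. -/
theorem two_pos' (h : Strip N al be) (hr : 0 < r) (hk : (N - 2) * be * r ≤ N * al) (h1 : r ≤ 1)
    (hx : 0 < x) (hxM : x < N - 2) :
    0 < 2 * (al + be * r) + x * (al + be * r ^ 2 - r) := by
  have hA : 0 < 2 * (al + be * r) := by have := h.al_pos; have := h.be_pos; positivity
  have h2 : 0 ≤ 2 * (al + be * r) + (N - 2) * (al + be * r ^ 2 - r) := by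
    have e : 2 * (al + be * r) + (N - 2) * (al + be * r ^ 2 - r) =
        ((N - 2) * be * r - N * al) * (r - 1) := by linear_combination r * h.sum
    rw [e]
    exact mul_nonneg_of_nonpos_of_nonpos (sub_nonpos.2 hk) (sub_nonpos.2 h1)
  have h3 := mul_pos (sub_pos.2 hxM) hA
  have h4 := mul_nonneg hx.le h2
  refine pos_of_mul_pos_right (show 0 < (N - 2) * (2 * (al + be * r) + x * (al + be * r ^ 2 - r))
    by linarith) (by linarith)

/-- The scalar inequality behind `brace_pos`. -/
theorem core_pos (hN : 5 ≤ N) (hs : N * (2 * a + d) = N - 2) (hd : 0 < d) (ha : 1 ≤ N * a)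
    {t e : ℝ} (he : e = 2 * d / (N + 2 * a)) (het : e < t) (ht : t ≤ 2 / (N - 2)) :
    0 < (1 - d ^ 2) * (2 * e - e * t + 2 * t ^ 2) +
      (1 + d + 2 * a * d) * (4 * e * t + t ^ 3 - 2 * t ^ 2) +
      a * (1 + a) * t ^ 2 * (4 * t - 6 * e - e * t) := by
  have ha0 : 0 < a := pos_of_mul_pos_right (lt_of_lt_of_le one_pos ha) (by linarith)
  have hd1 : d < 1 :=
    lt_of_mul_lt_mul_left (show N * d < N * 1 by linarith) (by linarith)
  have hd2 : 0 < 1 - d ^ 2 := by nlinarith
  set S := 1 + d + 2 * a * d with hS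
  set K := N + 2 * a with hK
  have hK0 : 0 < K := by positivity
  have hS1 : 1 ≤ S := by
    have := mul_pos ha0 hd
    linarith
  have he0 : 0 < e := by rw [he]; positivity
  have he2 : e ≤ 1 / 2 := by rw [he, div_le_div_iff₀ hK0 two_pos]; linarith
  have ht0 : 0 < t := he0.trans het
  have hM : (3 : ℝ) ≤ N - 2 := by linarith
  set g := 4 * (1 - d ^ 2) + t * (8 * S - 2 * (1 - d ^ 2)) -
    t ^ 2 * (2 * K * (1 + d + 2 * a) + 5 * (a * (1 + a)) - 2 * S) with hg
  have hg0 : 0 ≤ g := by
    set Qd := 2 * K * (1 + d + 2 * a) + 5 * (a * (1 + a)) - 2 * S with hQd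
    have hlin : 0 ≤ t * (8 * S - 2 * (1 - d ^ 2)) :=
      mul_nonneg ht0.le (by have := sq_nonneg d; linarith)
    rcases le_or_gt Qd 0 with hQ | hQ
    · have := mul_nonpos_of_nonneg_of_nonpos (sq_nonneg t) hQ
      linarith
    · have h1 : t ^ 2 * Qd ≤ 2 / (N - 2) * t * Qd :=
        mul_le_mul_of_nonneg_right (by rw [pow_two]; exact mul_le_mul_of_nonneg_right ht ht0.le) hQ.le
      have hend := end_pos hN hs hd ha
      have h2 : 0 ≤ 4 * (1 - d ^ 2) + 2 / (N - 2) * (8 * S - 2 * (1 - d ^ 2) - 2 / (N - 2) * Qd) := by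
        refine nonneg_of_mul_nonneg_left (b := (N - 2) ^ 2 / 4) (le_of_le_of_eq hend ?_) (by positivity)
        simp only [hQd, hS, hK]
        field_simp
        ring
      rcases le_or_gt 0 (8 * S - 2 * (1 - d ^ 2) - 2 / (N - 2) * Qd) with hc | hc
      · have := mul_nonneg ht0.le hc
        linarith
      · have := mul_le_mul_of_nonpos_right ht hc.le
        linarith
  have h3 : 0 < S * t ^ 2 * (t - e) := by positivity
  have h4 : 0 ≤ a * (1 + a) * t ^ 2 * ((4 - e) * (t - e) + (1 / 2 - e) * e) :=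
    mul_nonneg (by positivity) (add_nonneg (mul_nonneg (by linarith) (sub_nonneg.2 het.le))
      (mul_nonneg (sub_nonneg.2 he2) he0.le))
  have h5 : 0 ≤ d / K * g := by positivity
  have h6 : (1 - d ^ 2) * (2 * e - e * t + 2 * t ^ 2) + S * (4 * e * t + t ^ 3 - 2 * t ^ 2) +
      a * (1 + a) * t ^ 2 * (4 * t - 6 * e - e * t) = d / K * g + S * t ^ 2 * (t - e) +
      a * (1 + a) * t ^ 2 * ((4 - e) * (t - e) + (1 / 2 - e) * e) := by
    simp only [hg, he, hS]
    field_simp
    ring
  rw [h6]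
  linarith

/-- Positivity of the drift of `gp` on its zero set. -/
theorem brace_pos (h : Strip N al be) (hc : 0 < c0p N al be r) (hk : (N - 2) * be * r ≤ N * al) :
    0 < (be * (N + 2 * al) * (al + be * r) + 2 * be * c0p N al be r) *
        ((be * r - al) * (-qc al be r)) +
      c0p N al be r * (al + be * r) * (be * qc al be r +
        (be * r - al) * (2 * be * (1 + al) * r - (1 + al + be + 2 * al * be))) := by
  have hal := h.al_pos; have hbe := h.be_pos
  have hN := h.five
  obtain ⟨hd, hs⟩ := h.weights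
  set t := be * r / al - 1 with ht
  set e := 2 * (be - al) / (N + 2 * al) with he
  have hK : 0 < N + 2 * al := by linarith
  have het : e < t := by
    rw [he, ht, div_lt_iff₀ hK, sub_mul, div_mul_eq_mul_div, lt_sub_iff_add_lt, lt_div_iff₀ hal]
    simp only [c0p] at hc
    linarith
  have ht2 : t ≤ 2 / (N - 2) := by
    rw [ht, sub_le_iff_le_add, div_add_one (by linarith), div_le_div_iff₀ hal (by linarith)]
    linarith
  have hcore := core_pos hN hs hd h.low he het ht2
  have e1 : (be * (N + 2 * al) * (al + be * r) + 2 * be * c0p N al be r) *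
        ((be * r - al) * (-qc al be r)) +
      c0p N al be r * (al + be * r) * (be * qc al be r +
        (be * r - al) * (2 * be * (1 + al) * r - (1 + al + be + 2 * al * be))) =
      al ^ 3 * (N + 2 * al) * ((1 - (be - al) ^ 2) * (2 * e - e * t + 2 * t ^ 2) +
      (1 + (be - al) + 2 * al * (be - al)) * (4 * e * t + t ^ 3 - 2 * t ^ 2) +
      al * (1 + al) * t ^ 2 * (4 * t - 6 * e - e * t)) := by
    simp only [c0p, qc, he, ht]
    field_simp
    ring
  rw [e1]
  positivity

/-- `gp > 0` beyond `k` as long as `be x r < N al`. -/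
theorem gp_pos (h : Strip N al be) (hk : N * al < (N - 2) * be * r) (h1 : r ≤ 1)
    (hy : be * (x * r) < N * al) : 0 < gp N al be x r := by
  have hal := h.al_pos; have hbe := h.be_pos
  have hN := h.five
  obtain ⟨hd, hs⟩ := h.weights
  have hM : 0 < N - 2 := by linarith
  have hr0 : 0 < r :=
    pos_of_mul_pos_right ((mul_pos (show 0 < N by linarith) hal).trans hk) (by positivity)
  set u := be * r / al - 1 - 2 / (N - 2) with hu
  have hu0 : 0 < u := by
    rw [hu, sub_pos, lt_sub_iff_add_lt, div_add_one hM.ne', div_lt_div_iff₀ hM hal]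
    linarith
  have h0 : al < be * r := by
    have h2 : (N - 2) * al < (N - 2) * (be * r) := by linarith
    exact lt_of_mul_lt_mul_left h2 hM.le
  have hq := qc_neg h h0.le h1
  have key : 0 < c0p N al be r * (al + be * r) * (be * r) +
      N * al * ((be * r - al) * qc al be r) := by
    have s1 := slope_pos hN hs hd h.low
    have s2 := curv_pos hN hs hd h.low
    set A1 := (al + (be - al)) * (N + 2 * al) * (12 + 12 * (N - 2) + 2 * (N - 2) ^ 2) -
      2 * (be - al) * (al + (be - al)) * (4 * (N - 2) + 3 * (N - 2) ^ 2) +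
      12 * N * (al * (1 + al)) -
      4 * (N - 2) * N * (1 + (be - al) + 2 * al * (be - al)) -
      (N - 2) ^ 2 * N * (1 - (be - al) ^ 2) with hA1
    set A2 := (al + (be - al)) * (N + 2 * al) * (6 + 3 * (N - 2)) -
      2 * (be - al) * (al + (be - al)) * (N - 2) + 6 * N * (al * (1 + al)) -
      (N - 2) * N * (1 + (be - al) + 2 * al * (be - al)) with hA2
    have e1 : c0p N al be r * (al + be * r) * (be * r) +
        N * al * ((be * r - al) * qc al be r) = al ^ 3 / be *
        (A1 / (N - 2) ^ 2 * u + A2 / (N - 2) * u ^ 2 +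
          (be * (N + 2 * al) + N * (al * (1 + al))) * u ^ 3) := by
      have hbv : be = (N - 2) / N - al := by
        field_simp
        linarith [h.sum]
      rw [div_mul_eq_mul_div, eq_div_iff hbe.ne']
      simp only [c0p, qc, hA1, hA2, hu, hbv]
      field_simp
      ring
    rw [e1]
    positivity
  have h3 : N * al * ((be * r - al) * qc al be r) ≤ be * (x * r) * ((be * r - al) * qc al be r) :=
    mul_le_mul_of_nonpos_right hy.le (mul_nonpos_of_nonneg_of_nonpos (sub_nonneg.2 h0.le) hq.le)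
  refine pos_of_mul_pos_left (b := be * r) ?_ (by positivity)
  simp only [gp]
  linarith

end Vale.Agent.P100.Bubble.Trap
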