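import Mathlib
import Vale.Agent.P100.Bubble.Tail
import Vale.Agent.P100.Bubble.TrapAlg

/-!
# The trapping region of the phase orbit

With `e = P/x + x - (N-2)`, `f = Q/y + y - (N-2)` one has `x' = x e`, `y' = y f`. On the strip
`be y < N al`, `0 < e < f`, and `r = y/x` increases with `ρc < r`, `(N-2) be y < N al x`.
-/

open Set Filter Topology

namespace Vale.Agent.P100.Bubble

open Trap

theorem eventually_pos_right {f : ℝ → ℝ} {f' c : ℝ} (hf : HasDerivAt f f' c) (h0 : f c = 0)
    (hp : 0 < f') : ∀ᶠ s in 𝓝[>] c, 0 < f s :=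
  (eventually_lt_right hf.neg (neg_neg_of_pos hp)).mono fun s hs => by
    simp only [Pi.neg_apply, h0] at hs; linarith

theorem eventually_neg_right {f : ℝ → ℝ} {f' c : ℝ} (hf : HasDerivAt f f' c) (h0 : f c = 0)
    (hp : f' < 0) : ∀ᶠ s in 𝓝[>] c, f s < 0 :=
  (eventually_lt_right hf hp).mono fun s hs => by rwa [h0] at hs

/-- A function increasing at each of its zeros stays nonnegative. -/
theorem no_down {f f' : ℝ → ℝ} (hf : ∀ t, HasDerivAt f (f' t) t) (h : ∀ t, f t = 0 → 0 < f' t)
    {a b : ℝ} (hab : a < b) (ha : 0 ≤ f a) : 0 < f b := by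
  by_contra hb
  rw [not_lt] at hb
  obtain ⟨a', ha', hab', hpos⟩ : ∃ a', a ≤ a' ∧ a' < b ∧ 0 < f a' := by
    rcases ha.eq_or_lt with h0 | h0
    · obtain ⟨s, hs, hs'⟩ := ((eventually_pos_right (hf a) h0.symm (h a h0.symm)).and
        (Ioo_mem_nhdsGT hab)).exists
      exact ⟨s, hs'.1.le, hs'.2, hs⟩
    · exact ⟨a, le_rfl, hab, h0⟩
  have hc' : Continuous f := continuous_iff_continuousAt.2 fun t => (hf t).continuousAt
  obtain ⟨c, hc, hfc, hfirst⟩ := exists_first (isClosed_le hc' continuous_const) hab'.le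
    (show b ∈ {t | f t ≤ 0} from hb)
  have hfc' : f c ≤ 0 := hfc
  have hac : a' < c := lt_of_le_of_ne hc.1 fun e => by rw [← e] at hfc'; linarith
  have hev : ∀ᶠ s in 𝓝[<] c, 0 < f s := by
    filter_upwards [Ioo_mem_nhdsLT hac] with s hs
    exact not_le.1 (hfirst s ⟨hs.1.le, hs.2⟩)
  have hc0 : f c = 0 := le_antisymm hfc'
    (ge_of_tendsto ((hc'.tendsto c).mono_left nhdsWithin_le_nhds) (hev.mono fun s hs => hs.le))
  have := deriv_nonpos_of_left (hf c) (hev.mono fun s hs => by linarith)
  linarith [h c hc0]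

/-- A function positive to the right of a zero cannot satisfy `f' ≤ C f` there. -/
theorem exp_contra {f f' C : ℝ → ℝ} {c d : ℝ} (hcd : c < d) (hf : ∀ t, HasDerivAt f (f' t) t)
    (h0 : f c = 0) (hC : ContinuousAt C c)
    (h : ∀ s ∈ Ioo c d, 0 < f s ∧ f' s ≤ C s * f s) : False := by
  have hev : ∀ᶠ s in 𝓝[>] c, C s < C c + 1 :=
    nhdsWithin_le_nhds (hC.eventually (Iio_mem_nhds (by linarith)))
  obtain ⟨l, hl, hsub⟩ := mem_nhdsGT_iff_exists_Ioo_subset.1 hev
  obtain ⟨s, hs1, hs2⟩ := exists_between (lt_min hcd (mem_Ioi.1 hl))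
  set K := C c + 1
  have hd : ∀ u, HasDerivAt (fun u => f u * Real.exp (-(K * u)))
      ((f' u - K * f u) * Real.exp (-(K * u))) u := fun u =>
    ((hf u).fun_mul ((((hasDerivAt_id u).const_mul K).fun_neg).exp)).congr_deriv (by simp only [id_eq]; ring)
  have hanti := antitoneOn_of_hasDerivWithinAt_nonpos (convex_Icc c s)
    (fun u _ => (hd u).continuousAt.continuousWithinAt) (fun u _ => (hd u).hasDerivWithinAt)
    fun u hu => by
      rw [interior_Icc] at hu
      obtain ⟨h1, h2⟩ := h u ⟨hu.1, hu.2.trans (hs2.trans_le (min_le_left _ _))⟩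
      refine mul_nonpos_of_nonpos_of_nonneg ?_ (Real.exp_pos _).le
      have h3 : C u < K := hsub ⟨hu.1, hu.2.trans (hs2.trans_le (min_le_right _ _))⟩
      have h4 := mul_le_mul_of_nonneg_right h3.le h1.le
      linarith
  have h5 := hanti (left_mem_Icc.2 hs1.le) (right_mem_Icc.2 hs1.le) hs1.le
  simp only [h0, zero_mul] at h5
  have := mul_pos (h s ⟨hs1, hs2.trans_le (min_le_left _ _)⟩).1 (Real.exp_pos (-(K * s)))
  linarith

/-- A regular orbit on the strip. -/
structure IsRegular (N al be : ℝ) (x y P Q : ℝ → ℝ) : Prop where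
  orbit : IsOrbit N al be x y P Q
  strip : Strip N al be
  W_pos : ∀ t, al * x t < be * y t
  y_lt_x : ∀ t, y t < x t
  x_zero : Tendsto x atBot (𝓝 0)
  y_zero : Tendsto y atBot (𝓝 0)
  P_div : Tendsto (fun t => P t / x t) atBot (𝓝 N)
  Q_div : Tendsto (fun t => Q t / y t) atBot (𝓝 N)
  ratio_zero : Tendsto (IsOrbit.ratio al be P Q) atTop (𝓝 0)

namespace IsRegular

variable {N al be : ℝ} {x y P Q : ℝ → ℝ}

/-- `x'/x`. -/
noncomputable def ee (N : ℝ) (x P : ℝ → ℝ) (t : ℝ) : ℝ := P t / x t + x t - (N - 2)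

/-- `y/x`. -/
noncomputable def rr (x y : ℝ → ℝ) (t : ℝ) : ℝ := y t / x t

/-- `(y/x)'/(y/x)`. -/
noncomputable def dd (N : ℝ) (x y P Q : ℝ → ℝ) (t : ℝ) : ℝ := ee N y Q t - ee N x P t

/-- The derivative of `ee`. -/
noncomputable def dee (N q : ℝ) (x y P : ℝ → ℝ) (t : ℝ) : ℝ :=
  (ee N x P t + (N - 2) - x t) * (2 + x t + y t - y t / q - ee N x P t) + x t * ee N x P t

theorem hasDerivAt_ee {q : ℝ} (hx : ∀ t, HasDerivAt x (P t - x t * (N - 2 - x t)) t)
    (hP : ∀ t, HasDerivAt P (P t * (2 - (1 / q - 1) * y t + x t)) t) (hpos : ∀ t, 0 < x t) (t : ℝ) :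
    HasDerivAt (ee N x P) (dee N q x y P t) t := by
  have := (hpos t).ne'
  refine ((((hP t).fun_div (hx t) this).fun_add (hx t)).sub_const (N - 2)).congr_deriv ?_
  simp only [dee, ee]
  field_simp
  ring

theorem hasDerivAt_x (h : IsRegular N al be x y P Q) (t : ℝ) :
    HasDerivAt x (x t * ee N x P t) t := by
  have := (h.orbit.x_pos t).ne'
  refine (h.orbit.dx t).congr_deriv ?_
  simp only [ee]; field_simp; ring

theorem hasDerivAt_y (h : IsRegular N al be x y P Q) (t : ℝ) :
    HasDerivAt y (y t * ee N y Q t) t := by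
  have := (h.orbit.y_pos t).ne'
  refine (h.orbit.dy t).congr_deriv ?_
  simp only [ee]; field_simp; ring

theorem hasDerivAt_rr (h : IsRegular N al be x y P Q) (t : ℝ) :
    HasDerivAt (rr x y) (rr x y t * dd N x y P Q t) t := by
  have := (h.orbit.x_pos t).ne'
  refine ((h.hasDerivAt_y t).fun_div (h.hasDerivAt_x t) this).congr_deriv ?_
  simp only [rr, dd]; field_simp

theorem hasDerivAt_dd (h : IsRegular N al be x y P Q) (t : ℝ) :
    HasDerivAt (dd N x y P Q) (dee N be y x Q t - dee N al x y P t) t :=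
  (hasDerivAt_ee (fun t => h.orbit.dy t) (fun t => h.orbit.dQ t) h.orbit.y_pos t).fun_sub
    (hasDerivAt_ee (fun t => h.orbit.dx t) (fun t => h.orbit.dP t) h.orbit.x_pos t)

theorem rr_mem (h : IsRegular N al be x y P Q) (t : ℝ) :
    0 < rr x y t ∧ rr x y t < 1 ∧ al < be * rr x y t := by
  have := h.orbit.x_pos t
  refine ⟨div_pos (h.orbit.y_pos t) this, (div_lt_one this).2 (h.y_lt_x t), ?_⟩
  rw [rr, ← mul_div_assoc, lt_div_iff₀ this]
  exact h.W_pos t

/-- The quadric in the variables `x`, `r`, `e`, `f - e`. -/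
theorem ee_eq (h : IsRegular N al be x y P Q) (t : ℝ) :
    (al + be * rr x y t) * ee N x P t = 2 * (al + be * rr x y t) +
      x t * (al + be * rr x y t ^ 2 - rr x y t) - be * rr x y t * dd N x y P Q t := by
  have := (h.orbit.x_pos t).ne'
  have := (h.orbit.y_pos t).ne'
  simp only [rr, dd, ee]
  field_simp
  linear_combination (x t) * h.orbit.quad t

/-- `be y < N al`. -/
theorem y_cap (h : IsRegular N al be x y P Q) (t₁ : ℝ) : be * y t₁ < N * al := by
  have ho := h.orbit
  have hbe := h.strip.be_pos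
  set c : ℝ := N * al / be with hc
  have hcM : N - 2 - c + N * al / be = N - 2 := by rw [hc]; ring
  set H : ℝ → ℝ := fun t => -Q t + y t * (N - 2 - c) with hHdef
  have dH : ∀ t, HasDerivAt H
      (-(Q t * (c + 2 - (1 / be - 1) * x t)) - (N - 2 - y t) * H t) t := fun t =>
    ((ho.dQ t).fun_neg.fun_add ((ho.dy t).mul_const (N - 2 - c))).congr_deriv (by
      simp only [H]; ring)
  have hkey : ∀ t, (1 / be - 1) * x t < c + 2 := by
    intro t
    have e : c + 2 = (1 / be - 1) * (N - 2) := by
      rw [hc]; field_simp; linear_combination ho.sum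
    rw [e]
    refine mul_lt_mul_of_pos_left (ho.x_lt t) ?_
    rw [sub_pos, lt_div_iff₀ hbe, one_mul]
    have h5 := h.strip.five
    exact lt_of_mul_lt_mul_left
      (show N * be < N * 1 by linarith [ho.sum, h.strip.low]) (by linarith)
  have hQ0 : Tendsto Q atBot (𝓝 0) := by
    have := h.Q_div.mul h.y_zero
    rw [mul_zero] at this
    exact this.congr fun t => div_mul_cancel₀ _ (ho.y_pos t).ne'
  have hH : ∀ t, H t < 0 := by
    intro b
    by_contra hb
    rw [not_lt] at hb
    have h0 : ∀ t, -H t = 0 → 0 < -(-(Q t * (c + 2 - (1 / be - 1) * x t)) - (N - 2 - y t) * H t) :=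
      fun t ht => by
        rw [neg_eq_zero.1 ht, mul_zero, sub_zero, neg_neg]
        exact mul_pos (ho.Q_pos t) (sub_pos.2 (hkey t))
    have hpos : ∀ t < b, 0 < H t := fun t ht => by
      by_contra hn
      have := no_down (fun t => (dH t).fun_neg) h0 ht (by linarith)
      linarith
    have hanti : AntitoneOn H (Iic b) := antitoneOn_of_hasDerivWithinAt_nonpos (convex_Iic b)
      (fun t _ => (dH t).continuousAt.continuousWithinAt) (fun t _ => (dH t).hasDerivWithinAt)
      fun t ht => by
        rw [interior_Iic] at ht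
        have := mul_pos (ho.Q_pos t) (sub_pos.2 (hkey t))
        have := mul_pos (sub_pos.2 (ho.y_lt t)) (hpos t ht)
        linarith
    have hlim : Tendsto H atBot (𝓝 0) := by
      simpa using (hQ0.neg).add (h.y_zero.mul_const (N - 2 - c))
    have h1 := ge_of_tendsto hlim ((eventually_le_atBot (b - 1)).mono fun t ht =>
      hanti (show t ∈ Iic b by simp; linarith) (show b - 1 ∈ Iic b by simp) ht)
    linarith [hpos (b - 1) (by linarith)]
  by_contra hn
  rw [not_lt] at hn
  set g : ℝ → ℝ := fun t => c - y t with hg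
  have dg : ∀ t, HasDerivAt g (H t + y t * g t) t := fun t =>
    ((ho.dy t).const_sub c).congr_deriv (by simp only [H, g]; ring)
  have hg1 : 0 ≤ -g t₁ := by simp only [g, hc, neg_sub, sub_nonneg, div_le_iff₀ hbe]; linarith
  have hneg : ∀ t, t₁ < t → g t < 0 := fun t ht => by
    have := no_down (fun t => (dg t).fun_neg) (fun t ht => ?_) ht hg1
    · linarith
    · rw [neg_eq_zero.1 ht, mul_zero, add_zero]; linarith [hH t]
  have hanti : AntitoneOn g (Ici t₁) := antitoneOn_of_hasDerivWithinAt_nonpos (convex_Ici t₁)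
    (fun t _ => (dg t).continuousAt.continuousWithinAt) (fun t _ => (dg t).hasDerivWithinAt)
    fun t ht => by
      rw [interior_Ici] at ht
      linarith [hH t, mul_neg_of_pos_of_neg (ho.y_pos t) (hneg t ht)]
  have hlim := ((ho.y_Q_tendsto h.ratio_zero).1).const_sub c
  have h1 := le_of_tendsto hlim ((eventually_ge_atTop (t₁ + 1)).mono fun t ht =>
    hanti (show t₁ + 1 ∈ Ici t₁ by simp) (show t ∈ Ici t₁ by simp; linarith) ht)
  have h2 := min_le_right (N - 2) c
  linarith [hneg (t₁ + 1) (by linarith)]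

/-- The sign function along the orbit. -/
noncomputable def gg (N al be : ℝ) (x y : ℝ → ℝ) (t : ℝ) : ℝ := gp N al be (x t) (rr x y t)

/-- The derivative of `gg`. -/
noncomputable def dgg (N al be : ℝ) (x y P Q : ℝ → ℝ) (t : ℝ) : ℝ :=
  x t * ee N x P t * ((be * rr x y t - al) * qc al be (rr x y t)) +
    rr x y t * dd N x y P Q t * (be * (N + 2 * al) * (al + be * rr x y t) +
      c0p N al be (rr x y t) * be + x t * (be * qc al be (rr x y t) + (be * rr x y t - al) *
        (2 * be * (1 + al) * rr x y t - (1 + al + be + 2 * al * be))))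

theorem hasDerivAt_gg (h : IsRegular N al be x y P Q) (t : ℝ) :
    HasDerivAt (gg N al be x y) (dgg N al be x y P Q t) t := by
  have hr := h.hasDerivAt_rr t
  refine ((((hr.const_mul (be * (N + 2 * al))).sub_const (al * (N + 2 * be))).fun_mul
    ((hr.const_mul be).const_add al)).fun_add ((h.hasDerivAt_x t).fun_mul
      (((hr.const_mul be).sub_const al).fun_mul ((((hr.fun_pow 2).const_mul (be * (1 + al))).fun_sub
        (hr.const_mul (1 + al + be + 2 * al * be))).add_const (al * (1 + be)))))).congr_deriv ?_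
  simp only [dgg, c0p, qc]
  ring

/-- Where `gg = 0`, `dd ≤ 0` and `r ≤ k`, the function `gg` decreases. -/
theorem dgg_neg (h : IsRegular N al be x y P Q) {t : ℝ} (h0 : gg N al be x y t = 0)
    (hd : dd N x y P Q t ≤ 0) (hk : (N - 2) * be * rr x y t ≤ N * al) :
    dgg N al be x y P Q t < 0 := by
  obtain ⟨hr0, hr1, hr2⟩ := h.rr_mem t
  have hal := h.strip.al_pos; have hbe := h.strip.be_pos
  have hx := h.orbit.x_pos t
  set r := rr x y t with hr
  set D := dd N x y P Q t with hD
  have hA : 0 < al + be * r := by positivity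
  have hphi : 0 < be * r - al := sub_pos.2 hr2
  have hq : 0 < -qc al be r := neg_pos.2 (qc_neg h.strip hr2.le hr1.le)
  have hE := two_pos' h.strip hr0 hk hr1.le hx (h.orbit.x_lt t)
  have e0 : c0p N al be r * (al + be * r) = x t * ((be * r - al) * (-qc al be r)) := by
    simp only [gg, gp, ← hr] at h0
    linarith
  have hc0 : 0 < c0p N al be r :=
    pos_of_mul_pos_left (e0.symm ▸ mul_pos hx (mul_pos hphi hq)) hA.le
  have hb := brace_pos h.strip hc0 hk
  rw [e0] at hb
  have hb' : 0 < be * (N + 2 * al) * (al + be * r) + 2 * be * c0p N al be r +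
      x t * (be * qc al be r + (be * r - al) *
        (2 * be * (1 + al) * r - (1 + al + be + 2 * al * be))) :=
    pos_of_mul_pos_left (b := (be * r - al) * (-qc al be r)) (by linarith) (mul_pos hphi hq).le
  have e1 : (al + be * r) * dgg N al be x y P Q t =
      -(x t * ((be * r - al) * (-qc al be r)) *
          (2 * (al + be * r) + x t * (al + be * r ^ 2 - r))) +
        r * D * (al + be * r) * (be * (N + 2 * al) * (al + be * r) + 2 * be * c0p N al be r +
          x t * (be * qc al be r + (be * r - al) *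
            (2 * be * (1 + al) * r - (1 + al + be + 2 * al * be)))) := by
    have := h.ee_eq t
    simp only [dgg, ← hr, ← hD] at this ⊢
    linear_combination (x t * ((be * r - al) * qc al be r)) * this - (r * D * be) * e0
  refine neg_of_mul_neg_right ?_ hA.le
  rw [e1]
  have h1 := mul_pos (mul_pos hx (mul_pos hphi hq)) hE
  have h2 := mul_nonpos_of_nonpos_of_nonneg
    (mul_nonpos_of_nonpos_of_nonneg (mul_nonpos_of_nonneg_of_nonpos hr0.le hd) hA.le) hb'.le
  linarith

/-- The coefficient of `dd` in its derivative. -/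
noncomputable def cf (N al be : ℝ) (x y P Q : ℝ → ℝ) (t : ℝ) : ℝ :=
  (2 + x t + y t - x t / be - ee N y Q t) - ee N x P t - (N - 2) + y t + y t -
    be * rr x y t / (al + be * rr x y t) * (-2 * (x t - y t) + (y t / al - x t / be))

theorem ddd_eq (h : IsRegular N al be x y P Q) (t : ℝ) :
    dee N be y x Q t - dee N al x y P t =
      x t / (al * be * (al + be * rr x y t)) * gg N al be x y t +
        cf N al be x y P Q t * dd N x y P Q t := by
  obtain ⟨hr0, -, -⟩ := h.rr_mem t
  have hal := h.strip.al_pos; have hbe := h.strip.be_pos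
  have := h.orbit.x_pos t
  have hA : 0 < al + be * rr x y t := by positivity
  have hf : ee N y Q t = ee N x P t + dd N x y P Q t := by simp only [dd]; ring
  have he : ee N x P t = (2 * (al + be * rr x y t) +
      x t * (al + be * rr x y t ^ 2 - rr x y t) - be * rr x y t * dd N x y P Q t) /
        (al + be * rr x y t) := by
    rw [eq_div_iff hA.ne', mul_comm]; exact h.ee_eq t
  have hy : y t = rr x y t * x t := by simp only [rr]; field_simp
  simp only [dee, cf, gg, gp, c0p, qc]
  rw [hf, he]
  set r := rr x y t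
  set D := dd N x y P Q t
  rw [hy]
  field_simp
  ring

theorem continuous_xy (h : IsRegular N al be x y P Q) :
    Continuous x ∧ Continuous y ∧ Continuous P ∧ Continuous Q :=
  ⟨continuous_iff_continuousAt.2 fun t => (h.orbit.dx t).continuousAt,
    continuous_iff_continuousAt.2 fun t => (h.orbit.dy t).continuousAt,
    continuous_iff_continuousAt.2 fun t => (h.orbit.dP t).continuousAt,
    continuous_iff_continuousAt.2 fun t => (h.orbit.dQ t).continuousAt⟩

theorem continuous_cf (h : IsRegular N al be x y P Q) : Continuous (cf N al be x y P Q) := by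
  obtain ⟨cx, cy, cP, cQ⟩ := h.continuous_xy
  have hal := h.strip.al_pos; have hbe := h.strip.be_pos
  unfold cf ee rr
  fun_prop (disch := intro t; first
    | exact (h.orbit.x_pos t).ne'
    | exact (h.orbit.y_pos t).ne'
    | exact (add_pos hal (mul_pos hbe (div_pos (h.orbit.y_pos t) (h.orbit.x_pos t)))).ne')

theorem k_of_nonpos (h : IsRegular N al be x y P Q) {t : ℝ} (hg : gg N al be x y t ≤ 0) :
    (N - 2) * be * rr x y t ≤ N * al := by
  by_contra hn
  obtain ⟨-, hr1, -⟩ := h.rr_mem t
  refine not_lt.2 hg (gp_pos h.strip (not_le.1 hn) hr1.le ?_)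
  have := (h.orbit.x_pos t).ne'
  rw [rr, mul_div_cancel₀ _ this]
  exact h.y_cap t

/-- The region `dd < 0`, `gg < 0` is never entered. -/
theorem no_bad (h : IsRegular N al be x y P Q) {c : ℝ} (hd : dd N x y P Q c < 0)
    (hg : gg N al be x y c < 0) : False := by
  have hbe := h.strip.be_pos
  have hM : 0 < N - 2 := by linarith [h.strip.five]
  have cd : Continuous (dd N x y P Q) :=
    continuous_iff_continuousAt.2 fun t => (h.hasDerivAt_dd t).continuousAt
  have cg : Continuous (gg N al be x y) :=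
    continuous_iff_continuousAt.2 fun t => (h.hasDerivAt_gg t).continuousAt
  have hk := h.k_of_nonpos hg.le
  have hanti : ∀ b, c ≤ b → (∀ s ∈ Ioo c b, dd N x y P Q s < 0) → rr x y b ≤ rr x y c :=
    fun b hb hs => antitoneOn_of_hasDerivWithinAt_nonpos (convex_Icc c b)
      (fun u _ => (h.hasDerivAt_rr u).continuousAt.continuousWithinAt)
      (fun u _ => (h.hasDerivAt_rr u).hasDerivWithinAt)
      (fun u hu => by
        rw [interior_Icc] at hu
        exact mul_nonpos_of_nonneg_of_nonpos (h.rr_mem u).1.le (hs u hu).le)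
      (left_mem_Icc.2 hb) (right_mem_Icc.2 hb) hb
  have hall : ∀ b, c ≤ b → dd N x y P Q b < 0 ∧ gg N al be x y b < 0 := by
    by_contra hn
    push Not at hn
    obtain ⟨b, hb, hbad⟩ := hn
    have hb' : 0 ≤ max (dd N x y P Q b) (gg N al be x y b) := by
      rcases le_or_gt 0 (dd N x y P Q b) with h1 | h1
      · exact le_max_of_le_left h1
      · exact le_max_of_le_right (hbad h1)
    obtain ⟨s, hs, hsm, hfirst⟩ := exists_first (isClosed_le continuous_const (cd.max cg)) hb
      (show b ∈ {u | 0 ≤ max (dd N x y P Q u) (gg N al be x y u)} from hb')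
    have hsm' : 0 ≤ max (dd N x y P Q s) (gg N al be x y s) := hsm
    have hcs : c < s := lt_of_le_of_ne hs.1 fun e => by
      rw [← e] at hsm'; exact absurd hsm' (not_le.2 (max_lt hd hg))
    have hin : ∀ u ∈ Ico c s, dd N x y P Q u < 0 ∧ gg N al be x y u < 0 := fun u hu =>
      max_lt_iff.1 (not_le.1 (hfirst u hu))
    have hev : ∀ᶠ u in 𝓝[<] s, dd N x y P Q u < 0 ∧ gg N al be x y u < 0 := by
      filter_upwards [Ioo_mem_nhdsLT hcs] with u hu
      exact hin u ⟨hu.1.le, hu.2⟩
    have hds : dd N x y P Q s ≤ 0 :=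
      le_of_tendsto ((cd.tendsto s).mono_left nhdsWithin_le_nhds) (hev.mono fun u hu => hu.1.le)
    have hgs : gg N al be x y s ≤ 0 :=
      le_of_tendsto ((cg.tendsto s).mono_left nhdsWithin_le_nhds) (hev.mono fun u hu => hu.2.le)
    have hks : (N - 2) * be * rr x y s ≤ N * al := h.k_of_nonpos hgs
    rcases hgs.eq_or_lt with h1 | h1
    · have h2 := deriv_nonpos_of_left (h.hasDerivAt_gg s).neg
        (hev.mono fun u hu => by simp only [Pi.neg_apply, h1]; linarith [hu.2])
      linarith [h.dgg_neg h1 hds hks]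
    · have hd0 : dd N x y P Q s = 0 := by
        rcases le_max_iff.1 hsm' with h2 | h2
        · exact le_antisymm hds h2
        · linarith
      have h2 := deriv_nonpos_of_left (h.hasDerivAt_dd s).neg
        (hev.mono fun u hu => by simp only [Pi.neg_apply, hd0]; linarith [hu.1])
      rw [h.ddd_eq s, hd0, mul_zero, add_zero] at h2
      obtain ⟨hr0, -, -⟩ := h.rr_mem s
      have hal := h.strip.al_pos
      have h3 : x s / (al * be * (al + be * rr x y s)) * gg N al be x y s < 0 :=
        mul_neg_of_pos_of_neg (div_pos (h.orbit.x_pos s) (by positivity)) h1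
      linarith
  have hlim : Tendsto (rr x y) atTop (𝓝 (min (N - 2) (N * al / be) / (N - 2))) :=
    (h.orbit.y_Q_tendsto h.ratio_zero).1.div (h.orbit.x_tendsto h.ratio_zero) hM.ne'
  have hsa : StrictAntiOn (rr x y) (Ici c) := strictAntiOn_of_hasDerivWithinAt_neg (convex_Ici c)
    (fun u _ => (h.hasDerivAt_rr u).continuousAt.continuousWithinAt)
    (fun u _ => (h.hasDerivAt_rr u).hasDerivWithinAt) fun u hu => by
      rw [interior_Ici] at hu
      exact mul_neg_of_pos_of_neg (h.rr_mem u).1 (hall u (le_of_lt hu)).1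
  have h1 := le_of_tendsto hlim ((eventually_ge_atTop (c + 1)).mono fun t ht =>
    hsa.antitoneOn (show c + 1 ∈ Ici c by simp) (show t ∈ Ici c by simp; linarith) ht)
  have h2 := hsa (self_mem_Ici (a := c)) (show c + 1 ∈ Ici c by simp) (by linarith)
  have h3 : rr x y c ≤ min (N - 2) (N * al / be) / (N - 2) := by
    rw [le_div_iff₀ hM, le_min_iff]
    refine ⟨mul_le_of_le_one_left hM.le (h.rr_mem c).2.1.le, ?_⟩
    rw [le_div_iff₀ hbe]
    linarith
  linarith

/-- At a zero of `dd`, `gg > 0`. -/
theorem gg_pos_of_zero (h : IsRegular N al be x y P Q) {c : ℝ} (hd : dd N x y P Q c = 0) :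
    0 < gg N al be x y c := by
  have hal := h.strip.al_pos; have hbe := h.strip.be_pos
  have hcoef : ∀ u, 0 < x u / (al * be * (al + be * rr x y u)) := fun u => by
    have := (h.rr_mem u).1
    exact div_pos (h.orbit.x_pos u) (by positivity)
  by_contra hn
  rcases (not_lt.1 hn).eq_or_lt with h0 | h0
  · have hg := eventually_neg_right (h.hasDerivAt_gg c) h0
      (h.dgg_neg h0 hd.le (h.k_of_nonpos h0.le))
    obtain ⟨l, hl, hsub⟩ := mem_nhdsGT_iff_exists_Ioo_subset.1 hg
    have hpos : ∀ s ∈ Ioo c l, 0 ≤ dd N x y P Q s := fun s hs =>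
      not_lt.1 fun hs' => h.no_bad hs' (hsub hs)
    have hstrict : ∀ s ∈ Ioo c l, 0 < dd N x y P Q s := fun s hs => by
      refine lt_of_le_of_ne (hpos s hs) fun he => ?_
      have h1 := deriv_nonpos_of_left (h.hasDerivAt_dd s)
        (by filter_upwards [Ioo_mem_nhdsLT hs.1] with u hu
            rw [← he]; exact hpos u ⟨hu.1, hu.2.trans hs.2⟩)
      obtain ⟨u, hu, hu'⟩ := ((eventually_neg_right (h.hasDerivAt_dd s) he.symm (by
        rw [h.ddd_eq s, ← he, mul_zero, add_zero]
        exact mul_neg_of_pos_of_neg (hcoef s) (hsub hs))).and (Ioo_mem_nhdsGT hs.2)).exists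
      exact not_lt.2 (hpos u ⟨hs.1.trans hu'.1, hu'.2⟩) hu
    refine exp_contra (mem_Ioi.1 hl) h.hasDerivAt_dd hd h.continuous_cf.continuousAt
      fun s hs => ⟨hstrict s hs, ?_⟩
    rw [h.ddd_eq s]
    linarith [mul_neg_of_pos_of_neg (hcoef s) (show gg N al be x y s < 0 from hsub hs)]
  · obtain ⟨s, hs, hs'⟩ := ((eventually_neg_right (h.hasDerivAt_dd c) hd (by
      rw [h.ddd_eq c, hd, mul_zero, add_zero]
      exact mul_neg_of_pos_of_neg (hcoef c) h0)).and (nhdsWithin_le_nhds
        ((h.hasDerivAt_gg c).continuousAt.eventually (Iio_mem_nhds h0)))).exists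
    exact h.no_bad hs hs'

theorem ee_tendsto (h : IsRegular N al be x y P Q) :
    Tendsto (ee N x P) atBot (𝓝 2) ∧ Tendsto (ee N y Q) atBot (𝓝 2) := by
  constructor
  all_goals unfold ee
  · simpa using (h.P_div.add h.x_zero).sub_const (N - 2)
  · simpa using (h.Q_div.add h.y_zero).sub_const (N - 2)

theorem dd_tendsto (h : IsRegular N al be x y P Q) : Tendsto (dd N x y P Q) atBot (𝓝 0) := by
  have h1 := h.ee_tendsto.2.sub h.ee_tendsto.1
  simp only [sub_self] at h1
  exact h1

/-- **`y/x` increases.** -/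
theorem dd_pos (h : IsRegular N al be x y P Q) (t₁ : ℝ) : 0 < dd N x y P Q t₁ := by
  have hal := h.strip.al_pos; have hbe := h.strip.be_pos; have hN := h.strip.five
  by_contra hn
  rw [not_lt] at hn
  have hcoef : ∀ u, 0 < x u / (al * be * (al + be * rr x y u)) := fun u => by
    have := (h.rr_mem u).1
    exact div_pos (h.orbit.x_pos u) (by positivity)
  have h0 : ∀ t, dd N x y P Q t = 0 → 0 < dee N be y x Q t - dee N al x y P t := fun t ht => by
    rw [h.ddd_eq t, ht, mul_zero, add_zero]
    exact mul_pos (hcoef t) (h.gg_pos_of_zero ht)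
  have hneg : ∀ t < t₁, dd N x y P Q t < 0 := fun t ht => by
    by_contra hge
    exact not_lt.2 hn (no_down h.hasDerivAt_dd h0 ht (not_lt.1 hge))
  obtain ⟨hP, hQ⟩ := h.ee_tendsto
  have hsmall : Tendsto (fun t => be * rr x y t / (al + be * rr x y t) *
      (-2 * (x t - y t) + (y t / al - x t / be))) atBot (𝓝 0) := by
    refine squeeze_zero_norm (a := fun t => |-2 * (x t - y t) + (y t / al - x t / be)|)
      (fun t => ?_) ?_
    · rw [Real.norm_eq_abs, abs_mul]
      refine mul_le_of_le_one_left (abs_nonneg _) ?_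
      have := (h.rr_mem t).1
      rw [abs_of_pos (by positivity), div_le_one (by positivity)]
      linarith
    · simpa using (((h.x_zero.sub h.y_zero).const_mul (-2)).add
        ((h.y_zero.div_const al).sub (h.x_zero.div_const be))).abs
  have hcf : Tendsto (cf N al be x y P Q) atBot (𝓝 (-N)) := by
    have := (((((((((h.x_zero.const_add 2).add h.y_zero).sub (h.x_zero.div_const be)).sub hQ).sub hP)
      ).sub_const (N - 2)).add h.y_zero).add h.y_zero).sub hsmall
    have e : -N = 2 + 0 + 0 - 0 / be - 2 - 2 - (N - 2) + 0 + 0 - 0 := by ring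
    rw [e]
    exact this
  obtain ⟨T, hT⟩ := eventually_atBot.1
    ((hcf.eventually (Iio_mem_nhds (show -N < 0 by linarith))).and (eventually_lt_atBot t₁))
  have hmono : MonotoneOn (dd N x y P Q) (Iic T) := monotoneOn_of_hasDerivWithinAt_nonneg
    (convex_Iic T) (fun u _ => (h.hasDerivAt_dd u).continuousAt.continuousWithinAt)
    (fun u _ => (h.hasDerivAt_dd u).hasDerivWithinAt) fun u hu => by
      rw [interior_Iic] at hu
      obtain ⟨h1, h2⟩ := hT u hu.le
      have hd := hneg u h2
      have hg : 0 ≤ gg N al be x y u := not_lt.1 fun hg => h.no_bad hd hg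
      rw [h.ddd_eq u]
      exact add_nonneg (mul_nonneg (hcoef u).le hg)
        (mul_nonneg_of_nonpos_of_nonpos h1.le hd.le)
  have h1 := le_of_tendsto h.dd_tendsto ((eventually_le_atBot T).mono fun u hu =>
    hmono (mem_Iic.2 hu) self_mem_Iic hu)
  linarith [hneg T (hT T le_rfl).2]

theorem rr_strictMono (h : IsRegular N al be x y P Q) : StrictMono (rr x y) :=
  strictMono_of_hasDerivAt_pos h.hasDerivAt_rr fun t => mul_pos (h.rr_mem t).1 (h.dd_pos t)

/-- `r < k`. -/
theorem rr_lt (h : IsRegular N al be x y P Q) (t : ℝ) : (N - 2) * be * rr x y t < N * al := by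
  have hbe := h.strip.be_pos
  have hM : 0 < N - 2 := by linarith [h.strip.five]
  have hlim : Tendsto (rr x y) atTop (𝓝 (min (N - 2) (N * al / be) / (N - 2))) :=
    (h.orbit.y_Q_tendsto h.ratio_zero).1.div (h.orbit.x_tendsto h.ratio_zero) hM.ne'
  have h1 := ge_of_tendsto hlim ((eventually_ge_atTop (t + 1)).mono fun s hs =>
    h.rr_strictMono.monotone hs)
  have h2 : rr x y t < min (N - 2) (N * al / be) / (N - 2) :=
    (h.rr_strictMono (by linarith)).trans_le h1
  rw [lt_div_iff₀ hM] at h2
  have h3 := h2.trans_le (min_le_right _ _)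
  rw [lt_div_iff₀ hbe] at h3
  linarith

/-- `ρc < r`. -/
theorem c0p_pos (h : IsRegular N al be x y P Q) (t₁ : ℝ) : 0 < c0p N al be (rr x y t₁) := by
  have hal := h.strip.al_pos; have hbe := h.strip.be_pos; have hN := h.strip.five
  by_contra hn
  rw [not_lt] at hn
  have hg : ∀ t < t₁, gg N al be x y t < 0 := fun t ht => by
    obtain ⟨hr0, hr1, hr2⟩ := h.rr_mem t
    have h1 : c0p N al be (rr x y t) < 0 := by
      refine lt_of_lt_of_le ?_ hn
      simp only [c0p, sub_lt_sub_iff_right]
      exact mul_lt_mul_of_pos_left (h.rr_strictMono ht) (by positivity)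
    have h2 := mul_neg_of_neg_of_pos h1 (show 0 < al + be * rr x y t by positivity)
    have h3 := mul_nonpos_of_nonneg_of_nonpos (h.orbit.x_pos t).le
      (mul_nonpos_of_nonneg_of_nonpos (sub_nonneg.2 hr2.le) (qc_neg h.strip hr2.le hr1.le).le)
    simp only [gg, gp]
    linarith
  have cd : Continuous (dd N x y P Q) :=
    continuous_iff_continuousAt.2 fun t => (h.hasDerivAt_dd t).continuousAt
  obtain ⟨hP, hQ⟩ := h.ee_tendsto
  obtain ⟨hx, hy⟩ := And.intro h.x_zero h.y_zero
  have hbound : ∀ t, cf N al be x y P Q t ≤ (2 + x t + y t - x t / be - ee N y Q t) - ee N x P t -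
      (N - 2) + y t + y t + |-2 * (x t - y t) + (y t / al - x t / be)| := fun t => by
    have hr := (h.rr_mem t).1
    simp only [cf]
    have h1 : |be * rr x y t / (al + be * rr x y t) *
        (-2 * (x t - y t) + (y t / al - x t / be))| ≤
        |-2 * (x t - y t) + (y t / al - x t / be)| := by
      rw [abs_mul]
      refine mul_le_of_le_one_left (abs_nonneg _) ?_
      rw [abs_of_pos (by positivity), div_le_one (by positivity)]
      linarith
    linarith [neg_abs_le (be * rr x y t / (al + be * rr x y t) *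
      (-2 * (x t - y t) + (y t / al - x t / be)))]
  have hlim : Tendsto (fun t => (2 + x t + y t - x t / be - ee N y Q t) - ee N x P t -
      (N - 2) + y t + y t + |-2 * (x t - y t) + (y t / al - x t / be)|) atBot (𝓝 (-N)) := by
    have := (((((((hx.const_add 2).add hy).sub (hx.div_const be)).sub hQ).sub hP).sub_const
      (N - 2)).add hy).add hy |>.add (((hx.sub hy).const_mul (-2)).add
        ((hy.div_const al).sub (hx.div_const be))).abs
    have e : -N = 2 + 0 + 0 - 0 / be - 2 - 2 - (N - 2) + 0 + 0 +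
        |-2 * ((0 : ℝ) - 0) + (0 / al - 0 / be)| := by simp; ring
    rw [e]
    exact this
  obtain ⟨T, hT⟩ := eventually_atBot.1
    ((hlim.eventually (Iio_mem_nhds (show -N < 0 by linarith))).and (eventually_lt_atBot t₁))
  have hanti : AntitoneOn (dd N x y P Q) (Iic T) := antitoneOn_of_hasDerivWithinAt_nonpos
    (convex_Iic T) cd.continuousOn
    (fun u _ => (h.hasDerivAt_dd u).hasDerivWithinAt) fun u hu => by
      rw [interior_Iic] at hu
      obtain ⟨h1, h2⟩ := hT u hu.le
      have hr := (h.rr_mem u).1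
      rw [h.ddd_eq u]
      exact add_nonpos (mul_nonpos_of_nonneg_of_nonpos
        (div_pos (h.orbit.x_pos u) (by positivity)).le (hg u h2).le)
        (mul_nonpos_of_nonpos_of_nonneg ((hbound u).trans h1.le) (h.dd_pos u).le)
  have h1 := ge_of_tendsto h.dd_tendsto ((eventually_le_atBot T).mono fun u hu =>
    hanti (mem_Iic.2 hu) self_mem_Iic hu)
  linarith [h.dd_pos T]

/-- `f > 0`. -/
theorem ff_pos (h : IsRegular N al be x y P Q) (t : ℝ) : 0 < ee N y Q t := by
  obtain ⟨hr0, hr1, -⟩ := h.rr_mem t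
  have hal := h.strip.al_pos; have hbe := h.strip.be_pos
  have hE := two_pos' h.strip hr0 (h.rr_lt t).le hr1.le (h.orbit.x_pos t) (h.orbit.x_lt t)
  have h1 : (al + be * rr x y t) * ee N y Q t = 2 * (al + be * rr x y t) +
      x t * (al + be * rr x y t ^ 2 - rr x y t) + al * dd N x y P Q t := by
    have := h.ee_eq t
    simp only [dd] at this ⊢
    linarith
  refine pos_of_mul_pos_right (show 0 < (al + be * rr x y t) * ee N y Q t from ?_) (by positivity)
  rw [h1]
  linarith [mul_pos hal (h.dd_pos t)]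

/-- **`x` increases.** -/
theorem ee_pos (h : IsRegular N al be x y P Q) (t₁ : ℝ) : 0 < ee N x P t₁ := by
  have hal := h.strip.al_pos; have hM : 0 < N - 2 := by linarith [h.strip.five]
  have hp : 0 < 1 / al - 1 := by
    rw [sub_pos, lt_div_iff₀ hal, one_mul]
    exact lt_of_mul_lt_mul_left (show N * al < N * 1 by
      linarith [h.orbit.sum, mul_pos (show 0 < N by linarith) h.strip.be_pos]) (by linarith)
  set phi : ℝ → ℝ := fun t => (1 / al - 1) * y t - 2 - x t with hphi
  have dphi : ∀ t, HasDerivAt phi ((1 / al - 1) * (y t * ee N y Q t) - x t * ee N x P t) t :=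
    fun t => ((((h.hasDerivAt_y t).const_mul _).sub_const 2).fun_sub (h.hasDerivAt_x t))
  have de : ∀ t, HasDerivAt (ee N x P) (dee N al x y P t) t :=
    hasDerivAt_ee (fun t => h.orbit.dx t) (fun t => h.orbit.dP t) h.orbit.x_pos
  have dee_eq : ∀ t, dee N al x y P t = -(N - 2 - x t) * phi t +
      ee N x P t * (-phi t - ee N x P t - (N - 2 - x t) + x t) := fun t => by
    simp only [dee, phi]; ring
  have hphi_up : ∀ t, ee N x P t ≤ 0 → 0 < (1 / al - 1) * (y t * ee N y Q t) - x t * ee N x P t :=
    fun t ht => by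
      have := mul_pos hp (mul_pos (h.orbit.y_pos t) (h.ff_pos t))
      have := mul_nonpos_of_nonneg_of_nonpos (h.orbit.x_pos t).le ht
      linarith
  have ce : Continuous (ee N x P) := continuous_iff_continuousAt.2 fun t => (de t).continuousAt
  have cp : Continuous phi := continuous_iff_continuousAt.2 fun t => (dphi t).continuousAt
  have no_bad' : ∀ c, ee N x P c < 0 → 0 < phi c → False := by
    intro c hc hpc
    have hall : ∀ b, c ≤ b → ee N x P b < 0 := by
      by_contra hn
      push Not at hn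
      obtain ⟨b, hb, hbad⟩ := hn
      obtain ⟨s, hs, hse, hfirst⟩ := exists_first (isClosed_le continuous_const ce) hb
        (show b ∈ {u | 0 ≤ ee N x P u} from hbad)
      have hse' : 0 ≤ ee N x P s := hse
      have hcs : c < s := lt_of_le_of_ne hs.1 fun e => by rw [← e] at hse'; linarith
      have hev : ∀ᶠ u in 𝓝[<] s, ee N x P u < 0 := by
        filter_upwards [Ioo_mem_nhdsLT hcs] with u hu
        exact not_le.1 (hfirst u ⟨hu.1.le, hu.2⟩)
      have he0 : ee N x P s = 0 := le_antisymm
        (le_of_tendsto ((ce.tendsto s).mono_left nhdsWithin_le_nhds) (hev.mono fun u hu => hu.le)) hse'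
      have hmono := monotoneOn_of_hasDerivWithinAt_nonneg (convex_Icc c s) cp.continuousOn
        (fun u _ => (dphi u).hasDerivWithinAt) (fun u hu => by
          rw [interior_Icc] at hu
          exact (hphi_up u (not_le.1 (hfirst u ⟨hu.1.le, hu.2⟩)).le).le)
        (left_mem_Icc.2 hs.1) (right_mem_Icc.2 hs.1) hs.1
      have h2 := deriv_nonpos_of_left (de s).neg
        (hev.mono fun u hu => by simp only [Pi.neg_apply, he0]; linarith)
      rw [dee_eq s, he0, zero_mul, add_zero] at h2
      have := mul_pos (sub_pos.2 (h.orbit.x_lt s)) (hpc.trans_le hmono)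
      linarith
    have hanti : AntitoneOn x (Ici c) := antitoneOn_of_hasDerivWithinAt_nonpos (convex_Ici c)
      (fun u _ => (h.orbit.dx u).continuousAt.continuousWithinAt)
      (fun u _ => (h.hasDerivAt_x u).hasDerivWithinAt) fun u hu => by
        rw [interior_Ici] at hu
        exact mul_nonpos_of_nonneg_of_nonpos (h.orbit.x_pos u).le (hall u (le_of_lt hu)).le
    have h1 := le_of_tendsto (h.orbit.x_tendsto h.ratio_zero)
      ((eventually_ge_atTop c).mono fun u hu => hanti self_mem_Ici (mem_Ici.2 hu) hu)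
    linarith [h.orbit.x_lt c]
  have h0 : ∀ t, ee N x P t = 0 → 0 < dee N al x y P t := by
    intro t ht
    rw [dee_eq t, ht, zero_mul, add_zero, neg_mul, neg_pos]
    refine mul_neg_of_pos_of_neg (sub_pos.2 (h.orbit.x_lt t)) (not_le.1 fun hge => ?_)
    rcases hge.eq_or_lt with h1 | h1
    · obtain ⟨l, hl, hsub⟩ := mem_nhdsGT_iff_exists_Ioo_subset.1
        (eventually_pos_right (dphi t) h1.symm (hphi_up t ht.le))
      have hnn : ∀ s ∈ Ioo t l, 0 ≤ ee N x P s := fun s hs =>
        not_lt.1 fun hs' => no_bad' s hs' (hsub hs)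
      have hstrict : ∀ s ∈ Ioo t l, 0 < ee N x P s := fun s hs => by
        refine lt_of_le_of_ne (hnn s hs) fun he => ?_
        obtain ⟨u, hu, hu'⟩ := ((eventually_neg_right (de s) he.symm (by
          rw [dee_eq s, ← he, zero_mul, add_zero, neg_mul, neg_lt_zero]
          exact mul_pos (sub_pos.2 (h.orbit.x_lt s)) (hsub hs))).and (Ioo_mem_nhdsGT hs.2)).exists
        exact not_lt.2 (hnn u ⟨hs.1.trans hu'.1, hu'.2⟩) hu
      refine exp_contra (mem_Ioi.1 hl) de ht
        (C := fun s => -phi s - ee N x P s - (N - 2 - x s) + x s) ?_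
        fun s hs => ⟨hstrict s hs, ?_⟩
      · exact (((cp.neg.sub ce).sub (continuous_const.sub h.continuous_xy.1)).add
          h.continuous_xy.1).continuousAt
      · rw [dee_eq s]
        have := mul_pos (sub_pos.2 (h.orbit.x_lt s)) (show 0 < phi s from hsub hs)
        linarith
    · obtain ⟨s, hs, hs'⟩ := ((eventually_neg_right (de t) ht (by
        rw [dee_eq t, ht, zero_mul, add_zero, neg_mul, neg_lt_zero]
        exact mul_pos (sub_pos.2 (h.orbit.x_lt t)) h1)).and (nhdsWithin_le_nhds
          ((cp.tendsto t).eventually (Ioi_mem_nhds h1)))).exists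
      exact no_bad' s hs hs'
  obtain ⟨a, ha, hat⟩ := ((h.ee_tendsto.1.eventually (Ioi_mem_nhds
    (show (0 : ℝ) < 2 by norm_num))).and (eventually_lt_atBot t₁)).exists
  exact no_down de h0 hat (le_of_lt ha)

/-- `r ρc`-bounds and monotonicity in the original variables. -/
theorem trap (h : IsRegular N al be x y P Q) (t : ℝ) :
    al * (N + 2 * be) * x t < be * (N + 2 * al) * y t ∧ (N - 2) * be * y t < N * al * x t ∧
      be * y t < N * al ∧ x t * (N - 2 - x t) < P t ∧ y t * P t < x t * Q t - x t * y t * (x t - y t) := by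
  have hx := h.orbit.x_pos t
  have hy := h.orbit.y_pos t
  have h1 := h.c0p_pos t
  have h2 := h.rr_lt t
  have h3 := h.ee_pos t
  have h4 := h.dd_pos t
  have e : y t = rr x y t * x t := by simp only [rr]; field_simp
  refine ⟨?_, ?_, h.y_cap t, ?_, ?_⟩
  · simp only [c0p] at h1
    rw [e]
    have := mul_pos h1 hx
    linarith
  · rw [e]
    have := mul_lt_mul_of_pos_right h2 hx
    linarith
  · simp only [ee] at h3
    have := mul_pos h3 hx
    rw [sub_mul, add_mul, div_mul_cancel₀ _ hx.ne'] at this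
    linarith
  · simp only [dd, ee] at h4
    have := mul_pos h4 (mul_pos hx hy)
    field_simp at this
    linarith

end IsRegular

end Vale.Agent.P100.Bubble
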