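import Mathlib
import Vale.Agent.P100.Bubble.Trap

/-!
# The cap `x - z y < x²/(N-2)` of the phase orbit

With `z = P/Q`, `g = (N-2) z y/x - (N-2-x)` is positive: at a zero of `g` its derivative has the sign
of `hn (x, y/x)`, whose negative set is forward invariant, and `g > 0` eventually.
-/

open Set Filter Topology

namespace Vale.Agent.P100.Bubble

open Trap

namespace Trap

variable {N al be x x' r r' : ℝ}

/-- The sign function of `g'` on `g = 0`. -/
def hn (N al be x r : ℝ) : ℝ :=
  ((al - 1) * be * r + al - 2 * al * be) * ((N - 2) * (al + be * r) - al * x) +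
    2 * al * be * (N * (al + be * r) - x * r)

theorem hn_zero_lower (h : Strip N al be) (hk : (N - 2) * be * r ≤ N * al) (hr : 0 ≤ r) :
    al * (al + be * r) * (1 / 5) ≤ hn N al be 0 r := by
  have hal := h.al_pos; have hbe := h.be_pos; have hN := h.five
  have ha1 : al < 1 := lt_of_mul_lt_mul_left (show N * al < N * 1 by
    linarith [h.sum, mul_pos (show 0 < N by linarith) hbe]) (by linarith)
  have e : hn N al be 0 r =
      (al + be * r) * ((al - 1) * ((N - 2) * be * r) + al * (N - 2) + 4 * al * be) := by
    simp only [hn]; ring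
  rw [e, mul_comm al (al + be * r), mul_assoc]
  refine mul_le_mul_of_nonneg_left ?_ (by positivity)
  have h1 := mul_le_mul_of_nonpos_left hk (sub_nonpos.2 ha1.le)
  have hbe3 : 3 / 10 ≤ be := by
    refine le_of_mul_le_mul_left (a := N) ?_ (by linarith)
    have := mul_lt_mul_of_pos_left h.lt (show 0 < N by linarith)
    linarith [h.sum]
  have h2 : al * (1 / 5) ≤ al * (N * al + 4 * be - 2) :=
    mul_le_mul_of_nonneg_left (by linarith [h.low]) hal.le
  linarith

theorem hn_zero_pos (h : Strip N al be) (hk : (N - 2) * be * r ≤ N * al) (hr : 0 ≤ r) :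
    0 < hn N al be 0 r := by
  have := h.al_pos; have := h.be_pos
  exact lt_of_lt_of_le (by positivity) (hn_zero_lower h hk hr)

theorem hn_r_zero (h : Strip N al be) (hx : 0 < x) (hxM : x ≤ N - 2) : 0 < hn N al be x 0 := by
  have hal := h.al_pos; have hbe := h.be_pos
  have e : hn N al be x 0 = al ^ 2 * ((1 - 2 * be) * (N - 2 - x) + 2 * N * be) := by
    simp only [hn]; ring
  rw [e]
  refine mul_pos (by positivity) ?_
  have := mul_lt_mul_of_pos_left (show N - 2 - x < N by linarith) hbe
  linarith [sub_nonneg.2 hxM]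

/-- The set `hn ≤ 0` is forward invariant, strictly. -/
theorem hn_neg_of_le (h : Strip N al be) (hx : 0 < x) (hxx : x < x') (hx' : x' ≤ N - 2)
    (hr : 0 < r) (hrr : r ≤ r') (hk : (N - 2) * be * r' ≤ N * al) (h0 : hn N al be x r ≤ 0) :
    hn N al be x' r' < 0 := by
  have hbe := h.be_pos; have hal := h.al_pos
  have hk0 : (N - 2) * be * r ≤ N * al :=
    (mul_le_mul_of_nonneg_left hrr (mul_nonneg (by linarith [h.five]) hbe.le)).trans hk
  have hN0 := hn_zero_pos h hk0 hr.le
  have e1 : x * hn N al be x' r = x' * hn N al be x r - (x' - x) * hn N al be 0 r := by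
    simp only [hn]; ring
  have h1 : hn N al be x' r < 0 := by
    refine neg_of_mul_neg_right ?_ hx.le
    rw [e1]
    have := mul_nonpos_of_nonneg_of_nonpos (hx.trans hxx).le h0
    have := mul_pos (sub_pos.2 hxx) hN0
    linarith
  have hr' : 0 < r' := hr.trans_le hrr
  have e2 : r' * hn N al be x' r = r * hn N al be x' r' + (r' - r) * hn N al be x' 0 +
      r * r' * (r' - r) * ((1 - al) * be * ((N - 2) * be)) := by
    simp only [hn]; ring
  have ha1 : al < 1 := lt_of_mul_lt_mul_left (show N * al < N * 1 by
    linarith [h.sum, mul_pos (show 0 < N by linarith [h.five]) hbe]) (by linarith [h.five])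
  refine neg_of_mul_neg_right (a := r) ?_ hr.le
  have h2 := mul_nonneg (sub_nonneg.2 hrr) (hn_r_zero h (hx.trans hxx) hx').le
  have h3 : 0 ≤ r * r' * (r' - r) * ((1 - al) * be * ((N - 2) * be)) :=
    mul_nonneg (mul_nonneg (mul_pos hr hr').le (sub_nonneg.2 hrr))
      (mul_nonneg (mul_pos (sub_pos.2 ha1) hbe).le (mul_nonneg (by linarith [h.five]) hbe.le))
  have h4 := mul_neg_of_pos_of_neg hr' h1
  linarith

end Trap

namespace IsRegular

variable {N al be : ℝ} {x y P Q : ℝ → ℝ}

/-- `(N-2) z y/x - (N-2-x)`. -/
noncomputable def cap (N : ℝ) (x y P Q : ℝ → ℝ) (t : ℝ) : ℝ :=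
  (N - 2) * (P t / x t / (Q t / y t)) - (N - 2 - x t)

/-- The derivative of `cap`. -/
noncomputable def dcap (N al be : ℝ) (x y P Q : ℝ → ℝ) (t : ℝ) : ℝ :=
  (N - 2) * (P t / x t / (Q t / y t)) * (x t / be - y t / al + dd N x y P Q t) + x t * ee N x P t

/-- The coefficient of `cap` in its derivative. -/
noncomputable def capC (N al be : ℝ) (x y Q : ℝ → ℝ) (g : ℝ → ℝ) (t : ℝ) : ℝ :=
  -((N - 2 - x t) * (2 * x t) * (Q t / y t) * al /
      ((N - 2) * ((N - 2) * (al + be * rr x y t) - al * x t))) +
    (x t / be - y t / al - (x t - y t) + 2 * x t * (Q t / y t) / (N - 2) -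
      (N - 2 - x t + g t) * (Q t / y t) / (N - 2))

theorem hasDerivAt_cap (h : IsRegular N al be x y P Q) (t : ℝ) :
    HasDerivAt (cap N x y P Q) (dcap N al be x y P Q t) t := by
  have hx := (h.orbit.x_pos t).ne'
  have hy := (h.orbit.y_pos t).ne'
  have hQ := (h.orbit.Q_pos t).ne'
  have hal := h.strip.al_pos.ne'
  have hbe := h.strip.be_pos.ne'
  refine (((((h.orbit.dP t).fun_div (h.orbit.dx t) hx).fun_div
    ((h.orbit.dQ t).fun_div (h.orbit.dy t) hy) (div_ne_zero hQ hy)).const_mul (N - 2)).fun_sub
      ((h.orbit.dx t).const_sub (N - 2))).congr_deriv ?_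
  simp only [dcap, dd, ee]
  field_simp
  ring

theorem cap_den (h : IsRegular N al be x y P Q) (t : ℝ) :
    0 < (N - 2) * (al + be * rr x y t) - al * x t := by
  have hM : 0 < N - 2 := by linarith [h.strip.five]
  have h1 := mul_lt_mul_of_pos_left (h.orbit.x_lt t) h.strip.al_pos
  have h2 := mul_pos hM (mul_pos h.strip.be_pos (h.rr_mem t).1)
  linarith

theorem dcap_eq (h : IsRegular N al be x y P Q) (t : ℝ) :
    dcap N al be x y P Q t = (N - 2 - x t) * x t * hn N al be (x t) (rr x y t) /
      (al * be * ((N - 2) * (al + be * rr x y t) - al * x t)) +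
        capC N al be x y Q (cap N x y P Q) t * cap N x y P Q t := by
  have hx := h.orbit.x_pos t
  have hy := h.orbit.y_pos t
  have hQ := h.orbit.Q_pos t
  have hal := h.strip.al_pos
  have hbe := h.strip.be_pos
  have hM : N - 2 ≠ 0 := by linarith [h.strip.five]
  have hq := h.orbit.quad t
  have hd := h.cap_den t
  have hey : y t = rr x y t * x t := by simp only [rr]; field_simp
  set r := rr x y t with hr
  set q := Q t / y t with hqd
  set g := cap N x y P Q t with hg
  have hq0 : 0 < q := div_pos hQ hy
  have hPx : P t / x t = (N - 2 - x t + g) * q / (N - 2) := by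
    simp only [g, cap, ← hqd]; field_simp; ring
  have hD : dd N x y P Q t = q * (x t - g) / (N - 2) - (x t - y t) := by
    simp only [dd, ee, ← hqd, hPx]; field_simp; ring
  have he : ee N x P t = (N - 2 - x t + g) * q / (N - 2) - (N - 2 - x t) := by
    simp only [ee, hPx]; ring
  have hqv : q * ((N - 2) * (al + be * r) - al * x t + al * g) =
      (N - 2) * (N * (al + be * r) - x t * r) := by
    have e1 : P t = (N - 2 - x t + g) * q / (N - 2) * x t := by
      rw [← hPx, div_mul_cancel₀ _ hx.ne']
    have e2 : Q t = q * (r * x t) := by rw [← hey, hqd, div_mul_cancel₀ _ hy.ne']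
    rw [e1, e2, hey] at hq
    field_simp at hq
    linear_combination hq
  have e3 : P t / x t / q = (N - 2 - x t + g) / (N - 2) := by rw [hPx]; field_simp
  simp only [dcap, capC, ← hqd, ← hg, ← hr, hn]
  simp only [e3, hD, he]
  simp only [hey]
  clear_value q g r
  generalize hDn : (N - 2) * (al + be * r) - al * x t = Dn at hd hqv ⊢
  field_simp
  subst hDn
  linear_combination (2 * (N - 2 - x t) * x t * al * be) * hqv

theorem continuous_cap (h : IsRegular N al be x y P Q) : Continuous (cap N x y P Q) :=
  continuous_iff_continuousAt.2 fun t => (h.hasDerivAt_cap t).continuousAt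

theorem continuous_capC (h : IsRegular N al be x y P Q) :
    Continuous (capC N al be x y Q (cap N x y P Q)) := by
  obtain ⟨cx, cy, cP, cQ⟩ := h.continuous_xy
  have cg := h.continuous_cap
  have cr : Continuous (rr x y) :=
    continuous_iff_continuousAt.2 fun t => (h.hasDerivAt_rr t).continuousAt
  have hM : N - 2 ≠ 0 := by linarith [h.strip.five]
  unfold capC
  fun_prop (disch := intro t; first
    | exact (h.orbit.y_pos t).ne'
    | exact mul_ne_zero hM (h.cap_den t).ne')

/-- `cap > 0` near infinity. -/
theorem cap_eventually (h : IsRegular N al be x y P Q) : ∀ᶠ t in atTop, 0 < cap N x y P Q t := by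
  have hbe := h.strip.be_pos; have hal := h.strip.al_pos
  have hM : 0 < N - 2 := by linarith [h.strip.five]
  set m := min (N - 2) (N * al / be) with hm
  obtain ⟨hy, hQ⟩ := h.orbit.y_Q_tendsto h.ratio_zero
  have hneg : N * al / be * (N - 2 - m) - (N - 2) * m < 0 := by
    have hc : 0 < N * al / be := div_pos (mul_pos (by linarith) hal) hbe
    rcases le_total (N - 2) (N * al / be) with h1 | h1
    · have e : m = N - 2 := min_eq_left h1
      rw [e]
      have := mul_pos hM hM
      linarith
    · have e : m = N * al / be := min_eq_right h1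
      rw [e]
      have := mul_pos hc hc
      linarith
  filter_upwards [(hQ.sub (hy.const_mul (N - 2))).eventually (Iio_mem_nhds hneg)] with t ht
  by_contra hn
  rw [not_lt] at hn
  have he := h.ee_pos t
  have hxp := h.orbit.x_pos t
  have hyp := h.orbit.y_pos t
  have hQp := h.orbit.Q_pos t
  simp only [ee] at he
  simp only [cap] at hn
  have h1 : (N - 2) * (P t / x t / (Q t / y t)) < P t / x t := by linarith
  have h2 : N - 2 < Q t / y t := by
    rw [mul_div, div_lt_iff₀ (div_pos hQp hyp)] at h1
    exact lt_of_mul_lt_mul_left (show P t / x t * (N - 2) < P t / x t * (Q t / y t) by linarith)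
      (div_pos (h.orbit.P_pos t) hxp).le
  rw [lt_div_iff₀ hyp] at h2
  linarith

/-- **The cap.** -/
theorem cap_pos (h : IsRegular N al be x y P Q) (t₁ : ℝ) : 0 < cap N x y P Q t₁ := by
  have hal := h.strip.al_pos; have hbe := h.strip.be_pos; have hN := h.strip.five
  have hM : 0 < N - 2 := by linarith
  have hcoef : ∀ t, 0 < (N - 2 - x t) * x t /
      (al * be * ((N - 2) * (al + be * rr x y t) - al * x t)) := fun t =>
    div_pos (mul_pos (sub_pos.2 (h.orbit.x_lt t)) (h.orbit.x_pos t))
      (mul_pos (mul_pos hal hbe) (h.cap_den t))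
  have dg0 : ∀ t, cap N x y P Q t = 0 → dcap N al be x y P Q t =
      (N - 2 - x t) * x t / (al * be * ((N - 2) * (al + be * rr x y t) - al * x t)) *
        hn N al be (x t) (rr x y t) := fun t ht => by
    rw [h.dcap_eq t, ht, mul_zero, add_zero, mul_div_right_comm]
  have hxmono : StrictMono x := strictMono_of_hasDerivAt_pos h.hasDerivAt_x
    fun t => mul_pos (h.orbit.x_pos t) (h.ee_pos t)
  have hrmono := h.rr_strictMono.monotone
  have hfw : ∀ c t, c < t → hn N al be (x c) (rr x y c) ≤ 0 → hn N al be (x t) (rr x y t) < 0 :=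
    fun c t hct hc => hn_neg_of_le h.strip (h.orbit.x_pos c) (hxmono hct) (h.orbit.x_lt t).le
      (h.rr_mem c).1 (hrmono hct.le) (h.rr_lt t).le hc
  -- no zero with `hn ≤ 0`
  have nozero : ∀ c, cap N x y P Q c = 0 → 0 < hn N al be (x c) (rr x y c) := by
    intro c hc
    by_contra hn0
    rw [not_lt] at hn0
    have hdown : ∀ t, c < t → cap N x y P Q t = 0 → dcap N al be x y P Q t < 0 := fun t ht ht0 => by
      rw [dg0 t ht0]
      exact mul_neg_of_pos_of_neg (hcoef t) (hfw c t ht hn0)
    obtain ⟨T, hT⟩ := eventually_atTop.1 h.cap_eventually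
    have hall : ∀ s, c < s → 0 < cap N x y P Q s := by
      intro s hs
      by_contra hs0
      rw [not_lt] at hs0
      set b := max T (s + 1) with hb
      have hsb : s < b := (lt_add_one s).trans_le (le_max_right _ _)
      obtain ⟨d, hd, hdz, hlast⟩ := exists_first (isClosed_le continuous_const h.continuous_cap)
        hsb.le (show b ∈ {u | 0 ≤ cap N x y P Q u} from (hT b (le_max_left _ _)).le)
      have hdz' : 0 ≤ cap N x y P Q d := hdz
      rcases hd.1.eq_or_lt with he | he
      · subst he
        have h0 : cap N x y P Q s = 0 := le_antisymm hs0 hdz'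
        obtain ⟨u, hu, hu'⟩ := ((eventually_neg_right (h.hasDerivAt_cap s) h0 (hdown s hs h0)).and
          (Ioo_mem_nhdsGT hsb)).exists
        obtain ⟨d', hd', hdz'', hlast'⟩ := exists_first (isClosed_le continuous_const h.continuous_cap)
          hu'.2.le (show b ∈ {w | 0 ≤ cap N x y P Q w} from (hT b (le_max_left _ _)).le)
        have hdz3 : 0 ≤ cap N x y P Q d' := hdz''
        have hud : u < d' := lt_of_le_of_ne hd'.1 fun e => by rw [← e] at hdz3; linarith
        have hev : ∀ᶠ w in 𝓝[<] d', cap N x y P Q w < 0 := by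
          filter_upwards [Ioo_mem_nhdsLT hud] with w hw
          exact not_le.1 (hlast' w ⟨hw.1.le, hw.2⟩)
        have h3 : cap N x y P Q d' = 0 := le_antisymm (le_of_tendsto
          ((h.continuous_cap.tendsto d').mono_left nhdsWithin_le_nhds)
          (hev.mono fun w hw => hw.le)) hdz3
        have h4 := deriv_nonpos_of_left (h.hasDerivAt_cap d').neg
          (hev.mono fun w hw => by simp only [Pi.neg_apply, h3]; linarith)
        linarith [hdown d' (hs.trans (hu'.1.trans hud)) h3]
      · have hev : ∀ᶠ w in 𝓝[<] d, cap N x y P Q w < 0 := by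
          filter_upwards [Ioo_mem_nhdsLT he] with w hw
          exact not_le.1 (hlast w ⟨hw.1.le, hw.2⟩)
        have h3 : cap N x y P Q d = 0 := le_antisymm (le_of_tendsto
          ((h.continuous_cap.tendsto d).mono_left nhdsWithin_le_nhds)
          (hev.mono fun w hw => hw.le)) hdz'
        have h4 := deriv_nonpos_of_left (h.hasDerivAt_cap d).neg
          (hev.mono fun w hw => by simp only [Pi.neg_apply, h3]; linarith)
        linarith [hdown d (hs.trans he) h3]
    refine exp_contra (lt_add_one c) h.hasDerivAt_cap hc h.continuous_capC.continuousAt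
      fun s hs => ⟨hall s hs.1, ?_⟩
    rw [h.dcap_eq s, mul_div_right_comm]
    linarith [mul_neg_of_pos_of_neg (hcoef s) (hfw c s hs.1 hn0)]
  have h0 : ∀ t, cap N x y P Q t = 0 → 0 < dcap N al be x y P Q t := fun t ht => by
    rw [dg0 t ht]; exact mul_pos (hcoef t) (nozero t ht)
  by_contra hneg1
  rw [not_lt] at hneg1
  have hneg : ∀ t < t₁, cap N x y P Q t < 0 := fun t ht => by
    by_contra hge
    exact not_lt.2 hneg1 (no_down h.hasDerivAt_cap h0 ht (not_lt.1 hge))
  have hq : Tendsto (fun t => Q t / y t) atBot (𝓝 N) := h.Q_div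
  have hcap : Tendsto (cap N x y P Q) atBot (𝓝 0) := by
    have h1 := ((h.P_div.div hq (by linarith)).const_mul (N - 2)).sub (h.x_zero.const_sub (N - 2))
    rw [div_self (by linarith : N ≠ 0), mul_one, sub_zero, sub_self] at h1
    exact h1
  have hcl : Tendsto (capC N al be x y Q (cap N x y P Q)) atBot (𝓝 (-N)) := by
    have hb : Tendsto (fun t => (N - 2 - x t) * (2 * x t) * (Q t / y t) * al /
        ((N - 2) * ((N - 2) * (al + be * rr x y t) - al * x t))) atBot (𝓝 0) := by
      have hup : Tendsto (fun t => (N - 2 - x t) * (2 * x t) * (Q t / y t) * al /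
          ((N - 2) * ((N - 2) * al - al * x t))) atBot (𝓝 0) := by
        have h1 := ((((h.x_zero.const_sub (N - 2)).mul (h.x_zero.const_mul 2)).mul hq).mul_const
          al).div (((h.x_zero.const_mul al).const_sub ((N - 2) * al)).const_mul (N - 2))
          (by rw [mul_zero, sub_zero]; positivity)
        simp only [mul_zero, zero_mul, zero_div] at h1
        exact h1
      refine squeeze_zero (fun t => ?_) (fun t => ?_) hup
      · exact div_nonneg (mul_nonneg (mul_nonneg (mul_nonneg (sub_nonneg.2 (h.orbit.x_lt t).le)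
          (by linarith [h.orbit.x_pos t])) (div_pos (h.orbit.Q_pos t) (h.orbit.y_pos t)).le) hal.le)
          (mul_pos hM (h.cap_den t)).le
      · refine div_le_div_of_nonneg_left (mul_nonneg (mul_nonneg (mul_nonneg
          (sub_nonneg.2 (h.orbit.x_lt t).le) (by linarith [h.orbit.x_pos t]))
          (div_pos (h.orbit.Q_pos t) (h.orbit.y_pos t)).le) hal.le) (mul_pos hM ?_) ?_
        · have := mul_lt_mul_of_pos_left (h.orbit.x_lt t) hal
          linarith
        · refine mul_le_mul_of_nonneg_left ?_ hM.le
          have := mul_pos hM (mul_pos hbe (h.rr_mem t).1)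
          linarith
    have h1 := hb.neg.add (((((h.x_zero.div_const be).sub (h.y_zero.div_const al)).sub
      (h.x_zero.sub h.y_zero)).add (((h.x_zero.const_mul 2).mul hq).div_const (N - 2))).sub
      ((((h.x_zero.const_sub (N - 2)).add hcap).mul hq).div_const (N - 2)))
    have e : -N = -(0 : ℝ) + (0 / be - 0 / al - (0 - 0) + 2 * 0 * N / (N - 2) -
        (N - 2 - 0 + 0) * N / (N - 2)) := by field_simp; ring
    rw [e]
    exact h1
  have hlow : Tendsto (fun t => al * al * (1 / 5) - x t * (al * (N + 1 / be + N * al))) atBot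
      (𝓝 (al * al * (1 / 5))) := by
    simpa using (h.x_zero.mul_const (al * (N + 1 / be + N * al))).const_sub (al * al * (1 / 5))
  obtain ⟨T, hT⟩ := eventually_atBot.1 (((hcl.eventually (Iio_mem_nhds (show -N < 0 by linarith))).and
    (eventually_lt_atBot t₁)).and (hlow.eventually (Ioi_mem_nhds (show (0 : ℝ) < al * al * (1 / 5) by
      positivity))))
  have hmono : MonotoneOn (cap N x y P Q) (Iic T) := monotoneOn_of_hasDerivWithinAt_nonneg
    (convex_Iic T) h.continuous_cap.continuousOn
    (fun u _ => (h.hasDerivAt_cap u).hasDerivWithinAt) fun u hu => by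
      rw [interior_Iic] at hu
      obtain ⟨⟨h1, h2⟩, h3⟩ := hT u hu.le
      obtain ⟨hr0, hr1, -⟩ := h.rr_mem u
      have hb1 : be < 1 := lt_of_mul_lt_mul_left (show N * be < N * 1 by
        linarith [h.strip.sum, h.strip.low]) (by linarith)
      have hx := h.orbit.x_pos u
      have hn0 : 0 ≤ hn N al be (x u) (rr x y u) := by
        have h4 := hn_zero_lower h.strip (h.rr_lt u).le hr0.le
        have h5 : al * al * (1 / 5) ≤ al * (al + be * rr x y u) * (1 / 5) := by
          have := mul_pos (mul_pos hal hbe) hr0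
          linarith
        have e : hn N al be (x u) (rr x y u) = hn N al be 0 (rr x y u) - x u *
            (((al - 1) * be * rr x y u + al - 2 * al * be) * al + 2 * al * be * rr x y u) := by
          simp only [hn]; ring
        have h6 : ((al - 1) * be * rr x y u + al - 2 * al * be) * al + 2 * al * be * rr x y u ≤
            al * (N + 1 / be + N * al) := by
          have a1 : ((al - 1) * be * rr x y u + al - 2 * al * be) + 2 * be * rr x y u ≤
              N + 1 / be + N * al := by
            have b1 := mul_le_mul_of_nonneg_left hr1.le hbe.le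
            have b2 := mul_nonneg hal.le hbe.le
            have b3 := mul_le_mul_of_nonneg_left b1 hal.le
            have b4 : 0 < 1 / be := by positivity
            have b5 := mul_le_mul_of_nonneg_right (show (1 : ℝ) ≤ N by linarith) hal.le
            linarith
          have := mul_le_mul_of_nonneg_left a1 hal.le
          linarith
        have h7 := mul_le_mul_of_nonneg_left h6 hx.le
        rw [e]
        linarith [show (0 : ℝ) < al * al * (1 / 5) - x u * (al * (N + 1 / be + N * al)) from h3]
      rw [h.dcap_eq u]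
      exact add_nonneg (div_nonneg (mul_nonneg (mul_nonneg (sub_nonneg.2 (h.orbit.x_lt u).le) hx.le)
        hn0) (mul_pos (mul_pos hal hbe) (h.cap_den u)).le)
        (mul_nonneg_of_nonpos_of_nonpos h1.le (hneg u h2).le)
  have h1 := le_of_tendsto hcap ((eventually_le_atBot T).mono fun u hu =>
    hmono (mem_Iic.2 hu) self_mem_Iic hu)
  linarith [hneg T (hT T le_rfl).1.2]

/-- `(N-2) y P > (N-2-x) x Q`. -/
theorem cap_mul (h : IsRegular N al be x y P Q) (t : ℝ) :
    (N - 2 - x t) * (x t * Q t) < (N - 2) * (y t * P t) := by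
  have := h.orbit.x_pos t; have := h.orbit.y_pos t; have := h.orbit.Q_pos t
  have h1 := h.cap_pos t
  simp only [cap] at h1
  field_simp at h1
  linarith

end IsRegular

end Vale.Agent.P100.Bubble
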