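import Mathlib
import Vale.Agent.P100.Bubble.Band
import Vale.Agent.P100.Bubble.Trap
import Vale.Agent.P100.Bubble.TrapCap

/-!
# The trapping region of the bubble

For `s > 0`, with `x = -u'/u`, `y = -v'/v`, `P = v^p/u`, `Q = u^q/v` of the branch.
-/

open Set Filter Topology

namespace Vale.Agent.P100.Bubble.IsBranch

variable {N p q lo : ℝ} {U V : ℝ → ℝ}

/-- Limit of `ρ ↦ (ρ g)/(2 ρ a)` at the centre. -/
theorem tendsto_div_centre {a g : ℝ → ℝ} {c : ℝ} (ha : ContinuousAt a 0) (hg : ContinuousAt g 0)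
    (hc : c = g 0 / (2 * a 0)) (ha0 : a 0 ≠ 0) :
    Tendsto (fun t => Real.exp (2 * t) * g (Real.exp (2 * t)) /
      (2 * Real.exp (2 * t) * a (Real.exp (2 * t)))) atBot (𝓝 c) := by
  have he : Tendsto (fun t : ℝ => Real.exp (2 * t)) atBot (𝓝 0) :=
    Real.tendsto_exp_atBot.comp (tendsto_id.const_mul_atBot two_pos)
  refine hc ▸ ((hg.tendsto.comp he).div ((ha.tendsto.comp he).const_mul 2)
    (mul_ne_zero two_ne_zero ha0)).congr fun t => ?_
  have := Real.exp_pos (2 * t)
  simp only [Function.comp_apply, Pi.div_apply]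
  field_simp

theorem isRegular (h : IsBranch N p q lo U V) (hc : IsCrit N p q)
    (hW : ∀ r, lo < r → 0 < Wf N p q U V r) (h5 : 5 ≤ N) (hb : 1 ≤ N * (1 / (p + 1))) :
    IsRegular N (1 / (p + 1)) (1 / (q + 1))
      (fun t => -(2 * Real.exp (2 * t) * vel N p V (Real.exp (2 * t))) / U (Real.exp (2 * t)))
      (fun t => -(2 * Real.exp (2 * t) * vel N q U (Real.exp (2 * t))) / V (Real.exp (2 * t)))
      (fun t => Real.exp (2 * t) * V (Real.exp (2 * t)) ^ p / U (Real.exp (2 * t)))
      (fun t => Real.exp (2 * t) * U (Real.exp (2 * t)) ^ q / V (Real.exp (2 * t))) := by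
  have hN := hc.dim
  have ho := h.isOrbit hc
  have hpos : ∀ t : ℝ, 0 < Real.exp (2 * t) := fun t => Real.exp_pos _
  have hWp : ∀ t, 1 / (p + 1) *
      (-(2 * Real.exp (2 * t) * vel N p V (Real.exp (2 * t))) / U (Real.exp (2 * t))) <
      1 / (q + 1) *
      (-(2 * Real.exp (2 * t) * vel N q U (Real.exp (2 * t))) / V (Real.exp (2 * t))) := fun t => by
    have := mul_pos (mul_pos (two_pos (α := ℝ)) (hpos t)) (hW _ (h.lo_neg.trans (hpos t)))
    simp only [Wf] at this
    ring_nf at this ⊢
    linarith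
  have he : Tendsto (fun t : ℝ => Real.exp (2 * t)) atBot (𝓝 0) :=
    Real.tendsto_exp_atBot.comp (tendsto_id.const_mul_atBot two_pos)
  have cA := continuous_vel (N := N) (p := p) hN h.contV h.posV
  have cB := continuous_vel (N := N) (p := q) hN h.contU h.posU
  refine
    { orbit := ho
      strip := ⟨h5, ho.lt, ho.sum, hb⟩
      W_pos := hWp
      y_lt_x := fun t => ?_
      x_zero := ?_
      y_zero := ?_
      P_div := ?_
      Q_div := ?_
      ratio_zero := ho.ratio_tendsto (T := 0) fun t _ => by linarith [hWp t] }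
  · have h1 := mul_lt_mul_of_pos_left
      (((h.band hc hW).1 _ (h.lo_neg.trans (hpos t))).1 (hpos t)).2 (mul_pos two_pos (hpos t))
    ring_nf at h1 ⊢
    linarith
  · have h1 : Continuous fun s => -(2 * s * vel N p V s) / U s :=
      ((continuous_const.mul continuous_id).mul cA).neg.div h.contU fun s => (h.posU s).ne'
    simpa [Function.comp_def] using ((h1.tendsto 0).comp he)
  · have h1 : Continuous fun s => -(2 * s * vel N q U s) / V s :=
      ((continuous_const.mul continuous_id).mul cB).neg.div h.contV fun s => (h.posV s).ne'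
    simpa [Function.comp_def] using ((h1.tendsto 0).comp he)
  · have hg : ContinuousAt (fun s => V s ^ p) 0 :=
      h.contV.continuousAt.rpow_const (Or.inl (h.posV 0).ne')
    refine (tendsto_div_centre (a := fun s => -vel N p V s) cA.continuousAt.neg hg ?_
      (neg_pos.2 (vel_neg hN h.contV h.posV 0)).ne').congr fun t => ?_
    · have := (Real.rpow_pos_of_pos (h.posV 0) p).ne'
      rw [velU_zero hN]
      field_simp
    · have := (h.posU (Real.exp (2 * t))).ne'
      field_simp
  · have hg : ContinuousAt (fun s => U s ^ q) 0 :=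
      h.contU.continuousAt.rpow_const (Or.inl (h.posU 0).ne')
    refine (tendsto_div_centre (a := fun s => -vel N q U s) cB.continuousAt.neg hg ?_
      (neg_pos.2 (vel_neg hN h.contU h.posU 0)).ne').congr fun t => ?_
    · have := (Real.rpow_pos_of_pos (h.posU 0) q).ne'
      rw [velU_zero hN]
      field_simp
    · have := (h.posV (Real.exp (2 * t))).ne'
      field_simp

/-- **The trapping region** for `ρ > 0`: `ρc < y/x < k`, `2 ρ y < N al/be`, `x` and `y/x` increase. -/
theorem trap (h : IsBranch N p q lo U V) (hc : IsCrit N p q)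
    (hW : ∀ r, lo < r → 0 < Wf N p q U V r) (h5 : 5 ≤ N) (hb : 1 ≤ N * (1 / (p + 1))) {s : ℝ}
    (hs : 0 < s) :
    let x := -vel N p V s / U s
    let y := -vel N q U s / V s
    let P := V s ^ p / U s
    let Q := U s ^ q / V s
    1 / (p + 1) * (N + 2 * (1 / (q + 1))) * x < 1 / (q + 1) * (N + 2 * (1 / (p + 1))) * y ∧
      (N - 2) * (1 / (q + 1)) * y < N * (1 / (p + 1)) * x ∧
      1 / (q + 1) * (2 * s * y) < N * (1 / (p + 1)) ∧
      2 * x * (N - 2 - 2 * s * x) < P ∧ y * P < x * Q - 4 * s * x * y * (x - y) := by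
  intro x y P Q
  have := (h.isRegular hc hW h5 hb).trap (Real.log s / 2)
  simp only [mul_div_cancel₀ _ (two_ne_zero (α := ℝ)), Real.exp_log hs] at this
  obtain ⟨h1, h2, h3, h4, h6⟩ := this
  have e1 : -(2 * s * vel N p V s) / U s = 2 * s * x := by simp only [x]; ring
  have e2 : -(2 * s * vel N q U s) / V s = 2 * s * y := by simp only [y]; ring
  have e3 : s * V s ^ p / U s = s * P := by simp only [P]; ring
  have e4 : s * U s ^ q / V s = s * Q := by simp only [Q]; ring
  rw [e1, e2] at h1 h2 h6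
  rw [e2] at h3
  rw [e1, e3] at h4
  rw [e3, e4] at h6
  have hs2 : 0 < 2 * s := by linarith
  refine ⟨lt_of_mul_lt_mul_right (a := 2 * s) (by linarith) hs2.le,
    lt_of_mul_lt_mul_right (a := 2 * s) (by linarith) hs2.le, h3,
    lt_of_mul_lt_mul_right (a := s) (by linarith) hs.le,
    lt_of_mul_lt_mul_right (a := 2 * s * s) (by linarith) (by positivity)⟩

/-- The cap `(N-2-2sx) x Q < (N-2) y P`, that is `(x - z y)/s < 2x²/(N-2)`. -/
theorem trap_cap (h : IsBranch N p q lo U V) (hc : IsCrit N p q)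
    (hW : ∀ r, lo < r → 0 < Wf N p q U V r) (h5 : 5 ≤ N) (hb : 1 ≤ N * (1 / (p + 1))) {s : ℝ}
    (hs : 0 < s) :
    let x := -vel N p V s / U s
    let y := -vel N q U s / V s
    let P := V s ^ p / U s
    let Q := U s ^ q / V s
    (N - 2 - 2 * s * x) * (x * Q) < (N - 2) * (y * P) := by
  intro x y P Q
  have := (h.isRegular hc hW h5 hb).cap_mul (Real.log s / 2)
  simp only [mul_div_cancel₀ _ (two_ne_zero (α := ℝ)), Real.exp_log hs] at this
  rw [show -(2 * s * vel N p V s) / U s = 2 * s * x by simp only [x]; ring,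
    show -(2 * s * vel N q U s) / V s = 2 * s * y by simp only [y]; ring,
    show s * V s ^ p / U s = s * P by simp only [P]; ring,
    show s * U s ^ q / V s = s * Q by simp only [Q]; ring] at this
  exact lt_of_mul_lt_mul_right (a := 2 * s * s) (by linarith) (by positivity)

end Vale.Agent.P100.Bubble.IsBranch
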