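import Mathlib
import Vale.Agent.P100.Bubble.TrapCap

/-!
# The regular chart `(u, r, h)` of the orbit and forward barriers

`u = x/(N-2)`, `r = y/x`, `h = (1 - z r)/u` satisfy the regular system `(u ev, r dv, fh)`, lie in
`(0,1) × (ρc, min (1, k)) × (0,1)` and tend to `(0, r₀, hc r₀)` at `-∞`. A function positive there
whose derivative is positive at its zeros stays positive.
-/

open Set Filter Topology

namespace Vale.Agent.P100.Bubble

open Trap

namespace Chart

/-- `Q/y` in the chart. -/
noncomputable def qv (N al be u r h : ℝ) : ℝ :=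
  (N * (al + be * r) - (N - 2) * u * r) / (al + be * r - al * u * h)

/-- `x'/x` in the chart. -/
noncomputable def ev (N al be u r h : ℝ) : ℝ := (1 - u * h) * qv N al be u r h + (N - 2) * u - (N - 2)

/-- `r'/r` in the chart. -/
noncomputable def dv (N al be u r h : ℝ) : ℝ := u * (qv N al be u r h * h - (N - 2) * (1 - r))

/-- `h'` in the chart. -/
noncomputable def fh (N al be u r h : ℝ) : ℝ :=
  -((1 - u * h) * (qv N al be u r h * h - (N - 2) * (1 - r) - (N - 2) * (r / al - 1 / be))) -
    h * ev N al be u r h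

/-- The value of `h` at the centre. -/
noncomputable def hc (N al be r : ℝ) : ℝ := (N - 2) * (r / al - 1 / be + 1 - r) / (N + 2)

end Chart

open Chart

/-- A bounded solution of `f' = -c (f - l) + o(1)` tends to `l` at `-∞`. -/
theorem tendsto_atBot_of_stable {f f' : ℝ → ℝ} {l c B : ℝ} (hc : 0 < c)
    (hf : ∀ t, HasDerivAt f (f' t) t) (hB : ∀ t, |f t| ≤ B)
    (he : Tendsto (fun t => f' t + c * (f t - l)) atBot (𝓝 0)) : Tendsto f atBot (𝓝 l) := by
  have key : ∀ (g g' : ℝ → ℝ) (m : ℝ), (∀ t, HasDerivAt g (g' t) t) → (∀ t, |g t| ≤ B) →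
      Tendsto (fun t => g' t + c * (g t - m)) atBot (𝓝 0) → ∀ e > 0, ∀ᶠ t in atBot, g t < m + e := by
    intro g g' m hg hgB hge e he0
    obtain ⟨T, hT⟩ := eventually_atBot.1 (hge.eventually (Iio_mem_nhds (show 0 < c * e / 2 by positivity)))
    refine eventually_atBot.2 ⟨T, fun t ht => ?_⟩
    by_contra hn
    rw [not_lt] at hn
    have hge' : ∀ u < t, m + e < g u := by
      intro u hu
      by_contra hu'
      rw [not_lt] at hu'
      obtain ⟨d, hd, hdz, hfirst⟩ := exists_first (isClosed_le continuous_const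
        (continuous_iff_continuousAt.2 fun s => (hg s).continuousAt)) hu.le
        (show t ∈ {w | m + e ≤ g w} from hn)
      have hdz' : m + e ≤ g d := hdz
      rcases hd.1.eq_or_lt with hud | hud
      · subst hud
        have h0 : g u = m + e := le_antisymm hu' hdz'
        have hneg : g' u < 0 := by
          have := hT u (hu.le.trans ht)
          rw [h0] at this
          linarith [show g' u + c * (m + e - m) < c * e / 2 from this, mul_pos hc he0]
        obtain ⟨w, hw, hw'⟩ := ((eventually_lt_right (hg u) hneg).and (Ioo_mem_nhdsGT hu)).exists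
        obtain ⟨d', hd', hdz'', hfirst'⟩ := exists_first (isClosed_le continuous_const
          (continuous_iff_continuousAt.2 fun s => (hg s).continuousAt)) hw'.2.le
          (show t ∈ {w | m + e ≤ g w} from hn)
        have h3 : m + e ≤ g d' := hdz''
        have hwd : w < d' := lt_of_le_of_ne hd'.1 fun e' => by rw [← e'] at h3; linarith
        have h4 := deriv_nonpos_of_left (hg d').neg (by
          filter_upwards [Ioo_mem_nhdsLT hwd] with s hs
          have := hfirst' s ⟨hs.1.le, hs.2⟩
          simp only [mem_ofPred_eq, not_le] at this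
          simp only [Pi.neg_apply]; linarith)
        have h5 : g' d' + c * (g d' - m) < c * e / 2 := hT d' (hd'.2.trans ht)
        have h6 := mul_le_mul_of_nonneg_left (show e ≤ g d' - m by linarith) hc.le
        linarith [mul_pos hc he0]
      · have h4 := deriv_nonpos_of_left (hg d).neg (by
          filter_upwards [Ioo_mem_nhdsLT hud] with s hs
          have := hfirst s ⟨hs.1.le, hs.2⟩
          simp only [mem_ofPred_eq, not_le] at this
          simp only [Pi.neg_apply]; linarith)
        have h5 : g' d + c * (g d - m) < c * e / 2 := hT d (hd.2.trans ht)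
        have h6 := mul_le_mul_of_nonneg_left (show e ≤ g d - m by linarith) hc.le
        linarith [mul_pos hc he0]
    set L := (2 * B + 1) / (c * e / 2) with hL
    have hB0 : 0 ≤ B := (abs_nonneg _).trans (hgB 0)
    have hL0 : 0 < L := by positivity
    obtain ⟨d, hd, hslope⟩ := exists_hasDerivAt_eq_slope g g' (show t - L < t by linarith)
      (fun s _ => (hg s).continuousAt.continuousWithinAt) (fun s _ => hg s)
    have h5 : g' d + c * (g d - m) < c * e / 2 := hT d (hd.2.le.trans ht)
    have h6 := mul_le_mul_of_nonneg_left (show e ≤ g d - m by linarith [hge' d hd.2]) hc.le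
    have h7 : g' d < -(c * e / 2) := by linarith
    rw [hslope, div_lt_iff₀ (by linarith), show t - (t - L) = L by ring, hL, neg_mul,
      mul_div_cancel₀ _ (by positivity)] at h7
    linarith [abs_le.1 (hgB t), abs_le.1 (hgB (t - (2 * B + 1) / (c * e / 2)))]
  refine tendsto_order.2 ⟨fun a ha => ?_, fun a ha => ?_⟩
  · refine (key (fun t => -f t) (fun t => -f' t) (-l) (fun t => (hf t).neg)
      (fun t => by rw [abs_neg]; exact hB t) ?_ (l - a) (by linarith)).mono fun t ht => by linarith
    simpa using he.neg.congr fun t => by ring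
  · exact (key f f' l hf hB he (a - l) (by linarith)).mono fun t ht => by linarith

namespace IsRegular

variable {N al be : ℝ} {x y P Q : ℝ → ℝ}

/-- `x/(N-2)`. -/
noncomputable def uu (N : ℝ) (x : ℝ → ℝ) (t : ℝ) : ℝ := x t / (N - 2)

/-- `(1 - z r)/u`. -/
noncomputable def hv (N : ℝ) (x y P Q : ℝ → ℝ) (t : ℝ) : ℝ :=
  (1 - P t / x t / (Q t / y t)) * (N - 2) / x t

theorem uu_mem (h : IsRegular N al be x y P Q) (t : ℝ) : 0 < uu N x t ∧ uu N x t < 1 := by
  have hM : 0 < N - 2 := by linarith [h.strip.five]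
  exact ⟨div_pos (h.orbit.x_pos t) hM, (div_lt_one hM).2 (h.orbit.x_lt t)⟩

theorem uu_hv (h : IsRegular N al be x y P Q) (t : ℝ) :
    uu N x t * hv N x y P Q t = 1 - P t / x t / (Q t / y t) := by
  have := (h.orbit.x_pos t).ne'
  have : N - 2 ≠ 0 := by linarith [h.strip.five]
  simp only [uu, hv]
  field_simp

/-- The values of `Q/y`, `x'/x` and `r'/r` in the chart. -/
theorem chart_eq (h : IsRegular N al be x y P Q) (t : ℝ) :
    qv N al be (uu N x t) (rr x y t) (hv N x y P Q t) = Q t / y t ∧
      ev N al be (uu N x t) (rr x y t) (hv N x y P Q t) = ee N x P t ∧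
      dv N al be (uu N x t) (rr x y t) (hv N x y P Q t) = dd N x y P Q t := by
  have hx := h.orbit.x_pos t
  have hy := h.orbit.y_pos t
  have hQ := h.orbit.Q_pos t
  have hP := h.orbit.P_pos t
  have hal := h.strip.al_pos
  have hbe := h.strip.be_pos
  have hM : N - 2 ≠ 0 := by linarith [h.strip.five]
  have hzr : 0 < P t / x t / (Q t / y t) := by positivity
  have hr := (h.rr_mem t).1
  have hA : al + be * rr x y t - al * uu N x t * hv N x y P Q t =
      al * (P t / x t / (Q t / y t)) + be * rr x y t := by rw [mul_assoc, h.uu_hv]; ring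
  have hApos : 0 < al * (P t / x t / (Q t / y t)) + be * rr x y t := by positivity
  have e1 : qv N al be (uu N x t) (rr x y t) (hv N x y P Q t) = Q t / y t := by
    rw [qv, hA, div_eq_iff hApos.ne']
    have hq := h.orbit.quad t
    simp only [rr, uu]
    field_simp
    linear_combination (-1) * hq
  refine ⟨e1, ?_, ?_⟩
  · rw [ev, e1, h.uu_hv]
    simp only [ee, uu]
    field_simp
    ring
  · rw [dv, e1]
    simp only [dd, ee, uu, hv, rr]
    field_simp
    ring

theorem hasDerivAt_uu (h : IsRegular N al be x y P Q) (t : ℝ) : HasDerivAt (uu N x)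
    (uu N x t * ev N al be (uu N x t) (rr x y t) (hv N x y P Q t)) t := by
  rw [(h.chart_eq t).2.1]
  refine ((h.hasDerivAt_x t).div_const (N - 2)).congr_deriv ?_
  simp only [uu]; ring

theorem hasDerivAt_rr' (h : IsRegular N al be x y P Q) (t : ℝ) : HasDerivAt (rr x y)
    (rr x y t * dv N al be (uu N x t) (rr x y t) (hv N x y P Q t)) t := by
  rw [(h.chart_eq t).2.2]; exact h.hasDerivAt_rr t

theorem hasDerivAt_hv (h : IsRegular N al be x y P Q) (t : ℝ) : HasDerivAt (hv N x y P Q)
    (fh N al be (uu N x t) (rr x y t) (hv N x y P Q t)) t := by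
  have hx := h.orbit.x_pos t
  have hy := h.orbit.y_pos t
  have hQ := h.orbit.Q_pos t
  have hM : N - 2 ≠ 0 := by linarith [h.strip.five]
  have hg := ((h.hasDerivAt_cap t).fun_add ((h.orbit.dx t).const_sub (N - 2))).div_const (N - 2)
  have hz : HasDerivAt (fun s => P s / x s / (Q s / y s))
      ((dcap N al be x y P Q t + -(P t - x t * (N - 2 - x t))) / (N - 2)) t := by
    refine hg.congr_of_eventuallyEq (Eventually.of_forall fun s => ?_)
    simp only [cap]; field_simp; ring
  refine (((hz.const_sub 1).mul_const (N - 2)).fun_div (h.orbit.dx t) hx.ne').congr_deriv ?_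
  obtain ⟨e1, e2, e3⟩ := h.chart_eq t
  rw [fh, e2, h.uu_hv, e1]
  simp only [dcap, dd, ee, hv, rr]
  have := h.strip.al_pos
  have := h.strip.be_pos
  field_simp
  ring

/-- The range of `h`. -/
theorem hv_mem (h : IsRegular N al be x y P Q) (t : ℝ) :
    0 < hv N x y P Q t ∧ hv N x y P Q t < 1 ∧
      (N - 2) * (1 - rr x y t) < Q t / y t * hv N x y P Q t := by
  have hx := h.orbit.x_pos t
  have hM : 0 < N - 2 := by linarith [h.strip.five]
  obtain ⟨-, -, e3⟩ := h.chart_eq t
  have h1 : (N - 2) * (1 - rr x y t) < Q t / y t * hv N x y P Q t := by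
    have := h.dd_pos t
    rw [← e3, dv, (h.chart_eq t).1] at this
    have := pos_of_mul_pos_right this (h.uu_mem t).1.le
    linarith
  refine ⟨?_, ?_, h1⟩
  · have := mul_pos hM (sub_pos.2 (h.rr_mem t).2.1)
    exact pos_of_mul_pos_right (this.trans h1) (div_pos (h.orbit.Q_pos t) (h.orbit.y_pos t)).le
  · have := h.cap_pos t
    simp only [cap] at this
    rw [hv, div_lt_one hx]
    linarith

/-- The centre: `r → r₀ ∈ [ρc, min (1, k)]` and `h → hc r₀`. -/
theorem centre (h : IsRegular N al be x y P Q) :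
    ∃ r₀ : ℝ, 0 ≤ c0p N al be r₀ ∧ (∀ t, r₀ < rr x y t) ∧ Tendsto (uu N x) atBot (𝓝 0) ∧
      Tendsto (rr x y) atBot (𝓝 r₀) ∧ Tendsto (hv N x y P Q) atBot (𝓝 (hc N al be r₀)) := by
  have hal := h.strip.al_pos; have hbe := h.strip.be_pos; have hN := h.strip.five
  have hbdd : BddBelow (range (rr x y)) := ⟨0, fun v ⟨t, ht⟩ => ht ▸ (h.rr_mem t).1.le⟩
  have hr := tendsto_atBot_ciInf h.rr_strictMono.monotone hbdd
  set r₀ := ⨅ t, rr x y t with hr0
  have hle : ∀ t, r₀ < rr x y t := fun t =>
    (ciInf_le hbdd (t - 1)).trans_lt (h.rr_strictMono (by linarith))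
  have hr0nn : 0 ≤ r₀ := le_ciInf fun t => (h.rr_mem t).1.le
  have hc0 : 0 ≤ c0p N al be r₀ :=
    ge_of_tendsto ((hr.const_mul (be * (N + 2 * al))).sub_const (al * (N + 2 * be)))
      (Eventually.of_forall fun t => (h.c0p_pos t).le)
  have hu : Tendsto (uu N x) atBot (𝓝 0) := by
    unfold uu
    simpa using h.x_zero.div_const (N - 2)
  refine ⟨r₀, hc0, hle, hu, hr, tendsto_atBot_of_stable (c := N + 2) (B := 1) (by linarith)
    h.hasDerivAt_hv (fun t => ?_) ?_⟩
  · obtain ⟨h1, h2, -⟩ := h.hv_mem t
    rw [abs_of_pos h1]; exact h2.le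
  · have huh : Tendsto (fun t => uu N x t * hv N x y P Q t) atBot (𝓝 0) := by
      refine squeeze_zero (fun t => (mul_pos (h.uu_mem t).1 (h.hv_mem t).1).le) (fun t => ?_) hu
      exact mul_le_of_le_one_right (h.uu_mem t).1.le (h.hv_mem t).2.1.le
    have hA : al + be * r₀ ≠ 0 := by positivity
    have hq : Tendsto (fun t => qv N al be (uu N x t) (rr x y t) (hv N x y P Q t)) atBot (𝓝 N) :=
      h.Q_div.congr fun t => ((h.chart_eq t).1).symm
    have hall : Tendsto (fun t => (fh N al be (uu N x t) (rr x y t) (hv N x y P Q t) +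
        (N + 2) * (hv N x y P Q t - hc N al be r₀))) atBot (𝓝 0) := by
      have hbound : ∀ (g : ℝ → ℝ), Tendsto g atBot (𝓝 0) →
          Tendsto (fun t => g t * hv N x y P Q t) atBot (𝓝 0) := fun g hg =>
        squeeze_zero_norm (a := fun t => |g t|) (fun t => by
          rw [Real.norm_eq_abs, abs_mul, abs_of_pos (h.hv_mem t).1]
          exact mul_le_of_le_one_right (abs_nonneg _) (h.hv_mem t).2.1.le) (by simpa using hg.abs)
      have e1 := hbound _ (((((huh.const_sub 1).mul hq).mul_const (-1)).sub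
        (((huh.const_sub 1).mul hq).add ((hu.const_mul (N - 2)).sub_const (N - 2)))).add_const (N + 2)
          |>.trans (le_of_eq (by ring_nf)))
      have e2 := (((huh.const_sub 1).mul ((((hr.const_sub 1).const_mul (N - 2)).add
        (((hr.div_const al).sub_const (1 / be)).const_mul (N - 2)))))).sub_const
          ((N + 2) * hc N al be r₀)
      have e3 := e1.add e2
      refine (e3.congr fun t => ?_).trans (le_of_eq ?_)
      · simp only [fh, ev]; ring
      · congr 1
        simp only [hc]
        field_simp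
        ring
    exact hall

/-- **Forward barrier.** `G` positive at the centre and increasing at its zeros stays positive
while `u ≤ u₁`. -/
theorem barrier (h : IsRegular N al be x y P Q) {u₁ : ℝ} {G Gu Gr Gh : ℝ → ℝ → ℝ → ℝ}
    (hG : ∀ (a b c : ℝ → ℝ) (da db dc t : ℝ), HasDerivAt a da t → HasDerivAt b db t →
      HasDerivAt c dc t → HasDerivAt (fun s => G (a s) (b s) (c s))
        (Gu (a t) (b t) (c t) * da + Gr (a t) (b t) (c t) * db + Gh (a t) (b t) (c t) * dc) t)
    (hG0 : ∀ r, ContinuousAt (fun v : ℝ × ℝ × ℝ => G v.1 v.2.1 v.2.2) (0, r, hc N al be r))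
    (hstart : ∀ r, 0 ≤ c0p N al be r → r < 1 → (N - 2) * be * r < N * al →
      0 < G 0 r (hc N al be r))
    (hstep : ∀ t, uu N x t ≤ u₁ → G (uu N x t) (rr x y t) (hv N x y P Q t) = 0 →
      0 < Gu (uu N x t) (rr x y t) (hv N x y P Q t) *
          (uu N x t * ev N al be (uu N x t) (rr x y t) (hv N x y P Q t)) +
        Gr (uu N x t) (rr x y t) (hv N x y P Q t) *
          (rr x y t * dv N al be (uu N x t) (rr x y t) (hv N x y P Q t)) +
        Gh (uu N x t) (rr x y t) (hv N x y P Q t) *
          fh N al be (uu N x t) (rr x y t) (hv N x y P Q t))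
    {t : ℝ} (ht : uu N x t ≤ u₁) : 0 < G (uu N x t) (rr x y t) (hv N x y P Q t) := by
  have hbe := h.strip.be_pos
  have hM : 0 < N - 2 := by linarith [h.strip.five]
  obtain ⟨r₀, hc0, hlt, hu, hr, hh⟩ := h.centre
  set g := fun s => G (uu N x s) (rr x y s) (hv N x y P Q s) with hg
  have dg : ∀ s, HasDerivAt g _ s := fun s =>
    hG _ _ _ _ _ _ s (h.hasDerivAt_uu s) (h.hasDerivAt_rr' s) (h.hasDerivAt_hv s)
  have cg : Continuous g := continuous_iff_continuousAt.2 fun s => (dg s).continuousAt
  have hlim : Tendsto g atBot (𝓝 (G 0 r₀ (hc N al be r₀))) :=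
    (hG0 r₀).tendsto.comp (hu.prodMk_nhds (hr.prodMk_nhds hh))
  have hpos : 0 < G 0 r₀ (hc N al be r₀) := by
    refine hstart r₀ hc0 ((hlt 0).trans (h.rr_mem 0).2.1) ?_
    exact (mul_lt_mul_of_pos_left (hlt 0) (mul_pos hM hbe)).trans (h.rr_lt 0)
  obtain ⟨a, ha, hat⟩ := ((hlim.eventually (Ioi_mem_nhds hpos)).and (eventually_lt_atBot t)).exists
  have humono : Monotone (uu N x) := fun s s' hss =>
    div_le_div_of_nonneg_right ((strictMono_of_hasDerivAt_pos h.hasDerivAt_x
      fun w => mul_pos (h.orbit.x_pos w) (h.ee_pos w)).monotone hss) hM.le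
  by_contra hn
  obtain ⟨c, hc, hcz, hfirst⟩ := exists_first (isClosed_le cg continuous_const) hat.le
    (show t ∈ {s | g s ≤ 0} from not_lt.1 hn)
  have hcz' : g c ≤ 0 := hcz
  have hac : a < c := lt_of_le_of_ne hc.1 fun e => by
    rw [← e] at hcz'; exact not_lt.2 hcz' ha
  have hev : ∀ᶠ s in 𝓝[<] c, 0 < g s := by
    filter_upwards [Ioo_mem_nhdsLT hac] with s hs
    exact not_le.1 (hfirst s ⟨hs.1.le, hs.2⟩)
  have hc1 : g c = 0 := le_antisymm hcz'
    (ge_of_tendsto ((cg.tendsto c).mono_left nhdsWithin_le_nhds) (hev.mono fun s hs => hs.le))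
  have h1 := deriv_nonpos_of_left (dg c) (hev.mono fun s hs => by linarith)
  linarith [hstep c ((humono hc.2).trans ht) hc1]

end IsRegular

end Vale.Agent.P100.Bubble
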