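import Mathlib
import Vale.Agent.P100.Bubble.TrapBranch
import Vale.Agent.P100.Bubble.TrapChart

/-!
# Forward barriers along the bubble

At `s > 0`, with `x = -u'/u`, `y = -v'/v`, `z = v^(p+1)/u^(q+1)`:
`u = 2 s x/(N-2)`, `r = y/x`, `h = (N-2) (x - z y)/(2 s x²)`.
-/

open Set Filter Topology

namespace Vale.Agent.P100.Bubble

open Trap Chart

/-- `u` in orbit variables. -/
noncomputable def uOf (N R x : ℝ) : ℝ := 2 * R * x / (N - 2)

/-- `h` in orbit variables. -/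
noncomputable def hOf (N R x y z : ℝ) : ℝ := (N - 2) * (x - z * y) / (2 * R * x ^ 2)

/-- The open region where barriers are tested. -/
def InChart (N al be u r h : ℝ) : Prop :=
  0 < u ∧ u < 1 ∧ 0 < r ∧ r < 1 ∧ 0 < h ∧ h < 1 ∧ al < be * r ∧ 0 < c0p N al be r ∧
    (N - 2) * be * r < N * al ∧ (N - 2) * (1 - r) < qv N al be u r h * h

/-- The gradient of a function of the chart. -/
def HasGrad (G Gu Gr Gh : ℝ → ℝ → ℝ → ℝ) : Prop :=
  ∀ (a b c : ℝ → ℝ) (da db dc t : ℝ), HasDerivAt a da t → HasDerivAt b db t →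
    HasDerivAt c dc t → HasDerivAt (fun s => G (a s) (b s) (c s))
      (Gu (a t) (b t) (c t) * da + Gr (a t) (b t) (c t) * db + Gh (a t) (b t) (c t) * dc) t

namespace IsBranch

variable {N p q lo : ℝ} {U V : ℝ → ℝ}

theorem chart_spec (h : IsBranch N p q lo U V) (hc : IsCrit N p q)
    (hW : ∀ r, lo < r → 0 < Wf N p q U V r) (h5 : 5 ≤ N) (hb : 1 ≤ N * (1 / (p + 1))) (t : ℝ) :
    let x : ℝ → ℝ := fun t =>
      -(2 * Real.exp (2 * t) * vel N p V (Real.exp (2 * t))) / U (Real.exp (2 * t))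
    let y : ℝ → ℝ := fun t =>
      -(2 * Real.exp (2 * t) * vel N q U (Real.exp (2 * t))) / V (Real.exp (2 * t))
    let P : ℝ → ℝ := fun t => Real.exp (2 * t) * V (Real.exp (2 * t)) ^ p / U (Real.exp (2 * t))
    let Q : ℝ → ℝ := fun t => Real.exp (2 * t) * U (Real.exp (2 * t)) ^ q / V (Real.exp (2 * t))
    let s := Real.exp (2 * t)
    IsRegular.uu N x t = uOf N s (-vel N p V s / U s) ∧
      IsRegular.rr x y t = (-vel N q U s / V s) / (-vel N p V s / U s) ∧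
      IsRegular.hv N x y P Q t =
        hOf N s (-vel N p V s / U s) (-vel N q U s / V s) (zf p q U V s) ∧
      InChart N (1 / (p + 1)) (1 / (q + 1)) (IsRegular.uu N x t) (IsRegular.rr x y t)
        (IsRegular.hv N x y P Q t) := by
  intro x y P Q s
  have hr := h.isRegular hc hW h5 hb
  obtain ⟨hu1, hu2⟩ := hr.uu_mem t
  obtain ⟨hr1, hr2, hr3⟩ := hr.rr_mem t
  obtain ⟨hh1, hh2, hh3⟩ := hr.hv_mem t
  rw [← (hr.chart_eq t).1] at hh3
  have hN := hc.dim
  have hs : 0 < s := Real.exp_pos _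
  have hU := h.posU s
  have hV := h.posV s
  have hvU : vel N p V s ≠ 0 := (vel_neg hN h.contV h.posV s).ne
  have hvV : vel N q U s ≠ 0 := (vel_neg hN h.contU h.posU s).ne
  refine ⟨?_, ?_, ?_, hu1, hu2, hr1, hr2, hh1, hh2, hr3, hr.c0p_pos t, hr.rr_lt t, hh3⟩
  · simp only [IsRegular.uu, uOf, x, s]; ring
  · simp only [IsRegular.rr, x, y, s] at hvU hvV hU hV ⊢
    field_simp
  · simp only [IsRegular.hv, hOf, x, y, P, Q, zf, s] at hvU hvV hU hV hs ⊢
    rw [Real.rpow_add_one hU.ne', Real.rpow_add_one hV.ne']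
    have := (Real.rpow_pos_of_pos hU q).ne'
    field_simp
    ring

/-- **Forward barrier on the bubble.** `E` is any property already known along the orbit. -/
theorem barrier (h : IsBranch N p q lo U V) (hc : IsCrit N p q)
    (hW : ∀ r, lo < r → 0 < Wf N p q U V r) (h5 : 5 ≤ N) (hb : 1 ≤ N * (1 / (p + 1))) {u₁ : ℝ}
    {G Gu Gr Gh : ℝ → ℝ → ℝ → ℝ} {E : ℝ → ℝ → ℝ → Prop} (hG : HasGrad G Gu Gr Gh)
    (hG0 : ∀ r, ContinuousAt (fun v : ℝ × ℝ × ℝ => G v.1 v.2.1 v.2.2)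
      (0, r, Chart.hc N (1 / (p + 1)) (1 / (q + 1)) r))
    (hstart : ∀ r, 0 ≤ c0p N (1 / (p + 1)) (1 / (q + 1)) r → r < 1 →
      (N - 2) * (1 / (q + 1)) * r < N * (1 / (p + 1)) →
      0 < G 0 r (Chart.hc N (1 / (p + 1)) (1 / (q + 1)) r))
    (hE : ∀ s, 0 < s → uOf N s (-vel N p V s / U s) ≤ u₁ →
      E (uOf N s (-vel N p V s / U s)) ((-vel N q U s / V s) / (-vel N p V s / U s))
        (hOf N s (-vel N p V s / U s) (-vel N q U s / V s) (zf p q U V s)))
    (hstep : ∀ u r w, InChart N (1 / (p + 1)) (1 / (q + 1)) u r w → u ≤ u₁ → E u r w → G u r w = 0 →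
      0 < Gu u r w * (u * ev N (1 / (p + 1)) (1 / (q + 1)) u r w) +
        Gr u r w * (r * dv N (1 / (p + 1)) (1 / (q + 1)) u r w) +
        Gh u r w * fh N (1 / (p + 1)) (1 / (q + 1)) u r w)
    {s : ℝ} (hs : 0 < s) (hu : uOf N s (-vel N p V s / U s) ≤ u₁) :
    0 < G (uOf N s (-vel N p V s / U s)) ((-vel N q U s / V s) / (-vel N p V s / U s))
      (hOf N s (-vel N p V s / U s) (-vel N q U s / V s) (zf p q U V s)) := by
  obtain ⟨e1, e2, e3, -⟩ := h.chart_spec hc hW h5 hb (Real.log s / 2)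
  have es : Real.exp (2 * (Real.log s / 2)) = s := by
    rw [mul_div_cancel₀ _ (two_ne_zero (α := ℝ)), Real.exp_log hs]
  have key := (h.isRegular hc hW h5 hb).barrier (u₁ := u₁) hG hG0 hstart (fun t ht h0 => ?_)
    (t := Real.log s / 2) (by rw [e1, es]; exact hu)
  · rw [e1, e2, e3, es] at key
    exact key
  · obtain ⟨f1, f2, f3, f4⟩ := h.chart_spec hc hW h5 hb t
    refine hstep _ _ _ f4 ht ?_ h0
    rw [f1, f2, f3]
    exact hE _ (Real.exp_pos _) (f1 ▸ ht)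

end IsBranch

end Vale.Agent.P100.Bubble
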