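import Mathlib
import Vale.Agent.P100.Bubble.Band
import Vale.Agent.P100.Bubble.TrapLift

/-!
# The chart on both sides of the crossing

`2 s d/ds` of `(u, r, h)` is the regular field `(u ev, r dv, fh)` for every `s ≠ 0` of the branch,
in particular for `s < 0`, where `u < 0`.
-/

open Set Filter Topology

namespace Vale.Agent.P100.Bubble.IsBranch

open Chart

variable {N p q lo : ℝ} {U V : ℝ → ℝ}

/-- `1 - u h = z r > 0`. -/
theorem one_sub_uh (hN : 2 < N) {R x y z : ℝ} (hR : R ≠ 0) (hx : x ≠ 0) :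
    1 - uOf N R x * hOf N R x y z = z * (y / x) := by
  have : N - 2 ≠ 0 := by linarith
  simp only [uOf, hOf]
  field_simp
  ring

theorem qv_eq (h : IsBranch N p q lo U V) (hc : IsCrit N p q) {s : ℝ} (hs : lo < s) (h0 : s ≠ 0) :
    let x := -vel N p V s / U s
    let y := -vel N q U s / V s
    let z := zf p q U V s
    qv N (1 / (p + 1)) (1 / (q + 1)) (uOf N s x) (y / x) (hOf N s x y z) =
      U s ^ q / V s / (2 * y) := by
  intro x y z
  have hN := hc.dim
  have hU := h.posU s
  have hV := h.posV s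
  have hx : 0 < x := div_pos (neg_pos.2 (vel_neg hN h.contV h.posV s)) hU
  have hy : 0 < y := div_pos (neg_pos.2 (vel_neg hN h.contU h.posU s)) hV
  have hz : 0 < z := div_pos (Real.rpow_pos_of_pos hV _) (Real.rpow_pos_of_pos hU _)
  have hp := hc.p_pos
  have hq := hc.q_pos
  have hQ : 0 < U s ^ q / V s := div_pos (Real.rpow_pos_of_pos hU q) hV
  have hb := h.quadric hc hs
  have hzQ : z * (U s ^ q / V s) = V s ^ p / U s := by
    have := Real.rpow_pos_of_pos hU q
    simp only [z, zf, Real.rpow_add_one hU.ne', Real.rpow_add_one hV.ne']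
    field_simp
  rw [Real.rpow_add_one hV.ne', Real.rpow_add_one hU.ne',
    show V s ^ p = z * (U s ^ q / V s) * U s by rw [hzQ, div_mul_cancel₀ _ hU.ne'],
    show U s ^ q = U s ^ q / V s * V s by rw [div_mul_cancel₀ _ hV.ne'],
    show vel N p V s = -(x * U s) by simp only [x]; field_simp,
    show vel N q U s = -(y * V s) by simp only [y]; field_simp] at hb
  set Q := U s ^ q / V s
  clear_value x y z Q
  have e : 4 * s * x * y + 1 / (p + 1) * (z * Q) + 1 / (q + 1) * Q =
      2 * N * (1 / (p + 1) * x + 1 / (q + 1) * y) := by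
    field_simp at hb ⊢
    have hb2 := (mul_eq_zero.1 (hb.trans (mul_zero _))).resolve_left (mul_pos hU hV).ne'
    linear_combination hb2
  have hA : 0 < 1 / (p + 1) * (z * (y / x)) + 1 / (q + 1) * (y / x) := by positivity
  have hA' : 1 / (p + 1) + 1 / (q + 1) * (y / x) - 1 / (p + 1) * uOf N s x * hOf N s x y z =
      1 / (p + 1) * (z * (y / x)) + 1 / (q + 1) * (y / x) := by
    rw [← one_sub_uh (y := y) (z := z) hN h0 hx.ne']; ring
  have hM : (N - 2) * uOf N s x = 2 * s * x := by
    have : N - 2 ≠ 0 := by linarith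
    simp only [uOf]; field_simp
  rw [qv, hA', hM, div_eq_div_iff hA.ne' (by positivity)]
  field_simp at e ⊢
  linear_combination -e

/-- The regular field on both sides. -/
theorem chart_deriv (h : IsBranch N p q lo U V) (hc : IsCrit N p q) {s : ℝ} (hs : lo < s)
    (h0 : s ≠ 0) :
    let xf := fun r => -vel N p V r / U r
    let yf := fun r => -vel N q U r / V r
    let u := uOf N s (xf s)
    let r := yf s / xf s
    let w := hOf N s (xf s) (yf s) (zf p q U V s)
    HasDerivAt (fun t => uOf N t (xf t))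
        (u * ev N (1 / (p + 1)) (1 / (q + 1)) u r w / (2 * s)) s ∧
      HasDerivAt (fun t => yf t / xf t)
        (r * dv N (1 / (p + 1)) (1 / (q + 1)) u r w / (2 * s)) s ∧
      HasDerivAt (fun t => hOf N t (xf t) (yf t) (zf p q U V t))
        (fh N (1 / (p + 1)) (1 / (q + 1)) u r w / (2 * s)) s := by
  intro xf yf u r w
  have hN := hc.dim
  have hU := h.posU s
  have hV := h.posV s
  have hx : 0 < xf s := div_pos (neg_pos.2 (vel_neg hN h.contV h.posV s)) hU
  have hy : 0 < yf s := div_pos (neg_pos.2 (vel_neg hN h.contU h.posU s)) hV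
  have hM : N - 2 ≠ 0 := by linarith
  have hp := hc.p_pos
  have hq := hc.q_pos
  have hzQ : zf p q U V s * (U s ^ q / V s) = V s ^ p / U s := by
    have := Real.rpow_pos_of_pos hU q
    simp only [zf, Real.rpow_add_one hU.ne', Real.rpow_add_one hV.ne']
    field_simp
  have dx : HasDerivAt xf ((V s ^ p / U s / 4 - N / 2 * xf s) / s + xf s ^ 2) s :=
    hasDerivAt_quot (h.hasDerivAt_U hN hs) (h.velU_spec hN hs).1 (h.velU_spec hN hs).2 hU.ne' h0
  have dy : HasDerivAt yf ((U s ^ q / V s / 4 - N / 2 * yf s) / s + yf s ^ 2) s :=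
    hasDerivAt_quot (h.hasDerivAt_V hN hs) (h.velV_spec hN hs).1 (h.velV_spec hN hs).2 hV.ne' h0
  have dz := h.hasDerivAt_ratios' hN hc.p_pos hc.q_pos hs
  rw [← hzQ] at dx
  have eq1 : qv N (1 / (p + 1)) (1 / (q + 1)) u r w = U s ^ q / V s / (2 * yf s) :=
    h.qv_eq hc hs h0
  have euh : 1 - u * w = zf p q U V s * r := one_sub_uh hN h0 hx.ne'
  set Q := U s ^ q / V s
  refine ⟨?_, ?_, ?_⟩
  · refine ((((hasDerivAt_id s).const_mul 2).fun_mul dx).div_const (N - 2)).congr_deriv ?_
    rw [ev, eq1, euh]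
    simp only [u, r, uOf, id_eq]
    generalize xf s = X at hx ⊢
    generalize yf s = Y at hy ⊢
    field_simp
    ring
  · refine (dy.fun_div dx hx.ne').congr_deriv ?_
    rw [dv, eq1]
    simp only [u, r, w, uOf, hOf]
    generalize xf s = X at hx ⊢
    generalize yf s = Y at hy ⊢
    field_simp
    ring
  · refine (((dx.fun_sub (dz.fun_mul dy)).const_mul (N - 2)).fun_div
      (((hasDerivAt_id s).const_mul 2).fun_mul (dx.fun_pow 2))
      (mul_ne_zero (mul_ne_zero two_ne_zero h0) (pow_ne_zero 2 hx.ne'))).congr_deriv ?_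
    rw [fh, ev, eq1, euh]
    rw [show -vel N p V s / U s = xf s from rfl, show -vel N q U s / V s = yf s from rfl]
    simp only [u, r, w, uOf, hOf, id_eq, one_div_one_div]
    generalize xf s = X at hx ⊢
    generalize yf s = Y at hy ⊢
    field_simp
    ring

end Vale.Agent.P100.Bubble.IsBranch
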