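import Mathlib
import Vale.Agent.P100.Bubble.TrapSigned
import Vale.Agent.P100.Bubble.TrapBranch

/-!
# The centre of the chart and barriers past the crossing

`(u, r, h) → (0, r₀, hc r₀)` with `r₀ = 1/z(0) ∈ [ρc, min (1, k))` from both sides of `s = 0`, and
forward barriers propagate to `s < 0`.
-/

open Set Filter Topology

namespace Vale.Agent.P100.Bubble.IsBranch

open Chart Trap

variable {N p q lo : ℝ} {U V : ℝ → ℝ}

/-- `x` at `s`. -/
noncomputable def xs (N p : ℝ) (U V : ℝ → ℝ) (s : ℝ) : ℝ := -vel N p V s / U s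

/-- `y` at `s`. -/
noncomputable def ys (N q : ℝ) (U V : ℝ → ℝ) (s : ℝ) : ℝ := -vel N q U s / V s

/-- The chart point at `s`. -/
noncomputable def pt (N p q : ℝ) (U V : ℝ → ℝ) (s : ℝ) : ℝ × ℝ × ℝ :=
  (uOf N s (xs N p U V s), ys N q U V s / xs N p U V s,
    hOf N s (xs N p U V s) (ys N q U V s) (zf p q U V s))

theorem xs_pos (h : IsBranch N p q lo U V) (hN : 2 < N) (s : ℝ) :
    0 < xs N p U V s ∧ 0 < ys N q U V s :=
  ⟨div_pos (neg_pos.2 (vel_neg hN h.contV h.posV s)) (h.posU s),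
    div_pos (neg_pos.2 (vel_neg hN h.contU h.posU s)) (h.posV s)⟩

/-- **The centre**, from both sides. -/
theorem centre_pt (h : IsBranch N p q lo U V) (hc : IsCrit N p q)
    (hW : ∀ r, lo < r → 0 < Wf N p q U V r) (h5 : 5 ≤ N) (hb : 1 ≤ N * (1 / (p + 1))) :
    let al := 1 / (p + 1)
    let be := 1 / (q + 1)
    let r₀ := 1 / zf p q U V 0
    0 ≤ c0p N al be r₀ ∧ r₀ < 1 ∧ (N - 2) * be * r₀ < N * al ∧
      Tendsto (pt N p q U V) (𝓝[≠] 0) (𝓝 (0, r₀, Chart.hc N al be r₀)) := by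
  intro al be r₀
  have hN := hc.dim
  have hM : N - 2 ≠ 0 := by linarith
  obtain ⟨hx0, hy0⟩ := h.xs_pos (p := p) (q := q) hN 0
  have hz0 : 0 < zf p q U V 0 :=
    div_pos (Real.rpow_pos_of_pos (h.posV 0) _) (Real.rpow_pos_of_pos (h.posU 0) _)
  have hzy : zf p q U V 0 * ys N q U V 0 = xs N p U V 0 := by
    have hV := h.posV 0
    simp only [xs, ys, zf, velU_zero hN, h.one, Real.one_rpow, Real.rpow_add_one hV.ne']
    field_simp
  have hr0 : ys N q U V 0 / xs N p U V 0 = r₀ := by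
    rw [← hzy]; simp only [r₀]; field_simp
  have hq' := (h.velU_spec hN h.lo_neg).1.fun_neg.fun_div (h.hasDerivAt_U hN h.lo_neg) (h.posU 0).ne'
  have hp' := (h.velV_spec hN h.lo_neg).1.fun_neg.fun_div (h.hasDerivAt_V hN h.lo_neg) (h.posV 0).ne'
  have dz := h.hasDerivAt_ratios' hN hc.p_pos hc.q_pos h.lo_neg
  have dg := (hq'.fun_sub (dz.fun_mul hp'))
  have cx : Tendsto (xs N p U V) (𝓝[≠] 0) (𝓝 (xs N p U V 0)) :=
    hq'.continuousAt.tendsto.mono_left nhdsWithin_le_nhds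
  have cy : Tendsto (ys N q U V) (𝓝[≠] 0) (𝓝 (ys N q U V 0)) :=
    hp'.continuousAt.tendsto.mono_left nhdsWithin_le_nhds
  have cs : Tendsto (fun s : ℝ => s) (𝓝[≠] 0) (𝓝 0) :=
    tendsto_id.mono_left nhdsWithin_le_nhds
  obtain ⟨G, hG⟩ : ∃ G, Tendsto
      (fun s => (xs N p U V s - zf p q U V s * ys N q U V s) / s) (𝓝[≠] 0) (𝓝 G) :=
    ⟨_, (hasDerivAt_iff_tendsto_slope.1 dg).congr' (Eventually.of_forall fun s => by
      rw [slope_def_field, sub_zero]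
      show (xs N p U V s - zf p q U V s * ys N q U V s -
        (xs N p U V 0 - zf p q U V 0 * ys N q U V 0)) / s = _
      rw [hzy, sub_self, sub_zero])⟩
  have hu : Tendsto (fun s => uOf N s (xs N p U V s)) (𝓝[≠] 0) (𝓝 0) := by
    have := ((cs.const_mul 2).mul cx).div_const (N - 2)
    simp only [mul_zero, zero_mul, zero_div] at this
    exact this
  have hh : Tendsto (fun s => hOf N s (xs N p U V s) (ys N q U V s) (zf p q U V s)) (𝓝[≠] 0)
      (𝓝 ((N - 2) / (2 * xs N p U V 0 ^ 2) * G)) := by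
    refine (((cx.pow 2).const_mul 2).inv₀ (by positivity) |>.const_mul (N - 2) |>.mul hG).congr'
      (Eventually.of_forall fun s => ?_)
    simp only [hOf]; ring
  have hr : Tendsto (fun s => ys N q U V s / xs N p U V s) (𝓝[≠] 0) (𝓝 r₀) :=
    hr0 ▸ cy.div cx hx0.ne'
  -- compare with the centre of the orbit
  have hreg := h.isRegular hc hW h5 hb
  obtain ⟨r₁, hc0, hlt, -, hr1, hh1⟩ := hreg.centre
  have he : Tendsto (fun t : ℝ => Real.exp (2 * t)) atBot (𝓝[≠] 0) :=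
    tendsto_nhdsWithin_iff.2 ⟨Real.tendsto_exp_atBot.comp (tendsto_id.const_mul_atBot two_pos),
      Eventually.of_forall fun t => (Real.exp_pos _).ne'⟩
  have spec := fun t => h.chart_spec hc hW h5 hb t
  have er : r₁ = r₀ := tendsto_nhds_unique hr1
    ((hr.comp he).congr fun t => ((spec t).2.1).symm)
  subst er
  have eh : Chart.hc N al be r₀ = (N - 2) / (2 * xs N p U V 0 ^ 2) * G := tendsto_nhds_unique hh1
    ((hh.comp he).congr fun t => ((spec t).2.2.1).symm)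
  obtain ⟨hm1, hm2, -⟩ := hreg.rr_mem 0
  refine ⟨hc0, (hlt 0).trans hm2, ?_, hu.prodMk_nhds (hr.prodMk_nhds (eh ▸ hh))⟩
  exact (mul_lt_mul_of_pos_left (hlt 0) (mul_pos (by linarith) hreg.strip.be_pos)).trans
    (hreg.rr_lt 0)

/-- **Forward barrier past the crossing.** `E` is any property known on `[s₁, 0)`. -/
theorem barrier_neg (h : IsBranch N p q lo U V) (hc : IsCrit N p q)
    (hW : ∀ r, lo < r → 0 < Wf N p q U V r) (h5 : 5 ≤ N) (hb : 1 ≤ N * (1 / (p + 1)))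
    {G Gu Gr Gh : ℝ → ℝ → ℝ → ℝ} {E : ℝ → ℝ → ℝ → Prop} (hG : HasGrad G Gu Gr Gh)
    (hG0 : ∀ r, ContinuousAt (fun v : ℝ × ℝ × ℝ => G v.1 v.2.1 v.2.2)
      (0, r, Chart.hc N (1 / (p + 1)) (1 / (q + 1)) r))
    (hstart : ∀ r, 0 ≤ c0p N (1 / (p + 1)) (1 / (q + 1)) r → r < 1 →
      (N - 2) * (1 / (q + 1)) * r < N * (1 / (p + 1)) →
      0 < G 0 r (Chart.hc N (1 / (p + 1)) (1 / (q + 1)) r))
    {s₁ : ℝ} (hlo : lo < s₁)
    (hE : ∀ s ∈ Ico s₁ 0, E (pt N p q U V s).1 (pt N p q U V s).2.1 (pt N p q U V s).2.2)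
    (hstep : ∀ u r w, u < 0 → 0 < w → r ≤ 1 → 1 / (p + 1) < 1 / (q + 1) * r → E u r w →
      G u r w = 0 →
      0 < Gu u r w * (u * ev N (1 / (p + 1)) (1 / (q + 1)) u r w) +
        Gr u r w * (r * dv N (1 / (p + 1)) (1 / (q + 1)) u r w) +
        Gh u r w * fh N (1 / (p + 1)) (1 / (q + 1)) u r w)
    {s : ℝ} (hs : s ∈ Ico s₁ 0) :
    0 < G (pt N p q U V s).1 (pt N p q U V s).2.1 (pt N p q U V s).2.2 := by
  have hN := hc.dim
  obtain ⟨hc0, hr1, hk, hlim⟩ := h.centre_pt hc hW h5 hb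
  have hg : Tendsto (fun s => G (pt N p q U V s).1 (pt N p q U V s).2.1 (pt N p q U V s).2.2)
      (𝓝[<] 0) (𝓝 _) := (hG0 _).tendsto.comp (hlim.mono_left (nhdsWithin_mono _ fun v hv => ne_of_lt hv))
  obtain ⟨b, hb', hbs⟩ := ((hg.eventually (Ioi_mem_nhds (hstart _ hc0 hr1 hk))).and
    (Ioo_mem_nhdsLT hs.2)).exists
  set g := fun s => G (pt N p q U V s).1 (pt N p q U V s).2.1 (pt N p q U V s).2.2 with hgdef
  have dg : ∀ w, lo < w → w < 0 → HasDerivAt g _ w := fun w hw hw0 => by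
    obtain ⟨d1, d2, d3⟩ := h.chart_deriv hc hw hw0.ne
    exact hG _ _ _ _ _ _ w d1 d2 d3
  by_contra hn
  obtain ⟨c, hc', hcz, hlast⟩ : ∃ c ∈ Icc s b, g c ≤ 0 ∧ ∀ w ∈ Ioc c b, 0 < g w := by
    have hcont : ContinuousOn g (Icc s b) := fun w hw =>
      (dg w (hlo.trans_le (hs.1.trans hw.1)) (hw.2.trans_lt hbs.2)).continuousAt.continuousWithinAt
    have hcl : IsCompact (Icc s b ∩ g ⁻¹' Iic 0) := isCompact_Icc.of_isClosed_subset
      (hcont.preimage_isClosed_of_isClosed isClosed_Icc isClosed_Iic) inter_subset_left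
    obtain ⟨c, ⟨hcI, hcg⟩, hmax⟩ := hcl.exists_isGreatest
      ⟨s, ⟨⟨le_rfl, hbs.1.le⟩, show g s ≤ 0 from not_lt.1 hn⟩⟩
    exact ⟨c, hcI, hcg, fun w hw => not_le.1 fun hw' =>
      not_lt.2 (hmax ⟨⟨hcI.1.trans hw.1.le, hw.2⟩, hw'⟩) hw.1⟩
  have hcb : c < b := lt_of_le_of_ne hc'.2 fun e => by subst e; exact not_lt.2 hcz hb'
  have hlc : lo < c := hlo.trans_le (hs.1.trans hc'.1)
  have hc00 : c < 0 := hcb.trans hbs.2
  have hev : ∀ᶠ w in 𝓝[>] c, 0 < g w := by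
    filter_upwards [Ioo_mem_nhdsGT hcb] with w hw
    exact hlast w ⟨hw.1, hw.2.le⟩
  have d := dg c hlc hc00
  have hz : g c = 0 := le_antisymm hcz
    (ge_of_tendsto (d.continuousAt.tendsto.mono_left nhdsWithin_le_nhds) (hev.mono fun w hw => hw.le))
  have h1 := deriv_nonneg_of_right d (hev.mono fun w hw => by linarith)
  obtain ⟨hx, hy⟩ := h.xs_pos (p := p) (q := q) hN c
  obtain ⟨hband, hle⟩ := h.band hc hW
  have hh0 : 0 < (pt N p q U V c).2.2 := by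
    refine div_pos_of_neg_of_neg (mul_neg_of_pos_of_neg (by linarith) (sub_neg.2 ((hband c hlc).2 hc00)))
      (mul_neg_of_neg_of_pos (by linarith) (by positivity))
  have hu0 : (pt N p q U V c).1 < 0 :=
    div_neg_of_neg_of_pos (mul_neg_of_neg_of_pos (by linarith) hx) (by linarith)
  have hr2 : (pt N p q U V c).2.1 ≤ 1 := (div_le_one hx).2 (hle c hlc)
  have hr3 : 1 / (p + 1) < 1 / (q + 1) * (pt N p q U V c).2.1 := by
    have h2 : 0 < 1 / (q + 1) * ys N q U V c - 1 / (p + 1) * xs N p U V c := hW c hlc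
    show 1 / (p + 1) < 1 / (q + 1) * (ys N q U V c / xs N p U V c)
    rw [← mul_div_assoc, lt_div_iff₀ hx]
    linarith
  have h3 := hstep _ _ _ hu0 hh0 hr2 hr3 (hE c ⟨hs.1.trans hc'.1, hc00⟩) hz
  simp only [pt, xs, ys] at h1 h3
  rw [mul_div_assoc', mul_div_assoc', mul_div_assoc', ← add_div, ← add_div,
    le_div_iff_of_neg (by linarith)] at h1
  linarith

end Vale.Agent.P100.Bubble.IsBranch
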