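import Mathlib
import Vale.Agent.P100.Bubble.TrapLift
import Vale.Agent.P100.Bubble.TrapNeg

/-!
# Barriers `h = L (u, r)` touching the centre

If `e (hc r - L (0, r)) ≥ 0` and `e (flow · ∇ (h - L)) > 0` on `h = L`, then `e (h - L) > 0`
while `u ≤ u₁` (`e` a sign).
-/

open Set Filter Topology

namespace Vale.Agent.P100.Bubble

open Chart Trap

/-- The gradient of a function of `(u, r)`. -/
def HasGradTwo (L Lu Lr : ℝ → ℝ → ℝ) : Prop :=
  ∀ (a b : ℝ → ℝ) (da db t : ℝ), HasDerivAt a da t → HasDerivAt b db t →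
    HasDerivAt (fun s => L (a s) (b s)) (Lu (a t) (b t) * da + Lr (a t) (b t) * db) t

namespace Chart

/-- The flow applied to `h - L`, at height `h`. -/
noncomputable def lie (N al be : ℝ) (Lu Lr : ℝ → ℝ → ℝ) (u r h : ℝ) : ℝ :=
  fh N al be u r h - Lu u r * (u * ev N al be u r h) - Lr u r * (r * dv N al be u r h)

/-- The difference quotient of `lie` in `h`, between `h` and `g`. -/
noncomputable def lieDiff (N al be : ℝ) (Lu Lr : ℝ → ℝ → ℝ) (u r h g : ℝ) : ℝ :=
  -(1 - u * h) * (qv N al be u r h * al * u / (al + be * r - al * u * g) * h +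
      qv N al be u r g) +
    u * (qv N al be u r g * g - (N - 2) * (1 - r) - (N - 2) * (r / al - 1 / be)) -
    ev N al be u r h -
    (g + Lu u r * u) * ((1 - u * h) * (qv N al be u r h * al * u / (al + be * r - al * u * g)) -
      u * qv N al be u r g) -
    Lr u r * r * (u * (qv N al be u r h * al * u / (al + be * r - al * u * g) * h +
      qv N al be u r g))

theorem lie_sub {N al be : ℝ} {Lu Lr : ℝ → ℝ → ℝ} {u r h g : ℝ}
    (hh : al + be * r - al * u * h ≠ 0) (hg : al + be * r - al * u * g ≠ 0) :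
    lie N al be Lu Lr u r h =
      lie N al be Lu Lr u r g + (h - g) * lieDiff N al be Lu Lr u r h g := by
  have key : qv N al be u r h = qv N al be u r g +
      (h - g) * (qv N al be u r h * al * u / (al + be * r - al * u * g)) := by
    simp only [qv]
    generalize hA : N * (al + be * r) - (N - 2) * u * r = A
    generalize hD : al + be * r - al * u * h = D at hh ⊢
    generalize hE : al + be * r - al * u * g = E at hg ⊢
    field_simp
    subst hD hE
    ring
  simp only [lie, lieDiff, fh, ev, dv]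
  generalize qv N al be u r h * al * u / (al + be * r - al * u * g) = k at key ⊢
  rw [key]
  ring

/-- Near the centre the difference quotient tends to `-(N + 2)`. -/
theorem lieDiff_tendsto {N al be r₀ c₀ l₀ : ℝ} {Lu Lr : ℝ → ℝ → ℝ} {ι : Type} {F : Filter ι}
    {U Z H K : ι → ℝ} (hA : al + be * r₀ ≠ 0) (hu : Tendsto U F (𝓝 0)) (hr : Tendsto Z F (𝓝 r₀))
    (hh : Tendsto H F (𝓝 c₀)) (hK : Tendsto K F (𝓝 l₀))
    (cu : ContinuousAt (fun v : ℝ × ℝ => Lu v.1 v.2) (0, r₀))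
    (cr : ContinuousAt (fun v : ℝ × ℝ => Lr v.1 v.2) (0, r₀)) :
    Tendsto (fun s => lieDiff N al be Lu Lr (U s) (Z s) (H s) (K s)) F (𝓝 (-(N + 2))) ∧
      Tendsto (fun s => al + be * Z s - al * U s * K s) F (𝓝 (al + be * r₀)) ∧
      Tendsto (fun s => al + be * Z s - al * U s * H s) F (𝓝 (al + be * r₀)) := by
  have hden : ∀ {g' : ι → ℝ} {l : ℝ}, Tendsto g' F (𝓝 l) →
      Tendsto (fun s => al + be * Z s - al * U s * g' s) F (𝓝 (al + be * r₀)) := fun hg' => by
    simpa using ((hr.const_mul be).const_add al).sub ((hu.const_mul al).mul hg')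
  have hqv : ∀ {g' : ι → ℝ} {l : ℝ}, Tendsto g' F (𝓝 l) →
      Tendsto (fun s => qv N al be (U s) (Z s) (g' s)) F (𝓝 N) := fun hg' => by
    have := ((((hr.const_mul be).const_add al).const_mul N).sub
      ((hu.const_mul (N - 2)).mul hr)).div (hden hg') hA
    rw [mul_zero, zero_mul, sub_zero, mul_div_cancel_right₀ _ hA] at this
    exact this
  have hk : Tendsto (fun s => qv N al be (U s) (Z s) (H s) * al * U s /
      (al + be * Z s - al * U s * (K s))) F (𝓝 0) := by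
    have := (((hqv hh).mul_const al).mul hu).div (hden hK) hA
    rw [mul_zero, zero_div] at this
    exact this
  have huh : Tendsto (fun s => 1 - U s * H s) F (𝓝 1) := by
    simpa using (hu.mul hh).const_sub 1
  have hev' : Tendsto (fun s => ev N al be (U s) (Z s) (H s)) F (𝓝 2) := by
    have := ((huh.mul (hqv hh)).add (hu.const_mul (N - 2))).sub_const (N - 2)
    simp only [one_mul, mul_zero, add_zero, sub_sub_cancel] at this
    exact this
  have hLu := cu.tendsto.comp (hu.prodMk_nhds hr)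
  have hLr := cr.tendsto.comp (hu.prodMk_nhds hr)
  have hσ : Tendsto (fun s => lieDiff N al be Lu Lr (U s) (Z s) (H s) ((K s))) F
      (𝓝 (-(N + 2))) := by
    have t1 := huh.neg.mul ((hk.mul hh).add (hqv hK))
    have t2 := hu.mul ((((hqv hK).mul hK).sub ((hr.const_sub 1).const_mul (N - 2))).sub
      (((hr.div_const al).sub_const (1 / be)).const_mul (N - 2)))
    have t4 := (hK.add (hLu.mul hu)).mul ((huh.mul hk).sub (hu.mul (hqv hK)))
    have t5 := (hLr.mul hr).mul (hu.mul ((hk.mul hh).add (hqv hK)))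
    have := (((t1.add t2).sub hev').sub t4).sub t5
    simp only [zero_mul, mul_zero, zero_add, add_zero, sub_zero] at this
    rw [show -(N + 2) = -1 * N - 2 by ring]
    exact this
  exact ⟨hσ, hden hK, hden hh⟩

end Chart

namespace IsRegular

variable {N al be : ℝ} {x y P Q : ℝ → ℝ}

/-- **Band barrier at the centre.** -/
theorem band_barrier (h : IsRegular N al be x y P Q) {e u₁ : ℝ} (he : e * e = 1)
    {L Lu Lr : ℝ → ℝ → ℝ} {E : ℝ → ℝ → Prop} (hL : HasGradTwo L Lu Lr)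
    (cL : ∀ r, ContinuousAt (fun v : ℝ × ℝ => L v.1 v.2) (0, r))
    (cu : ∀ r, ContinuousAt (fun v : ℝ × ℝ => Lu v.1 v.2) (0, r))
    (cr : ∀ r, ContinuousAt (fun v : ℝ × ℝ => Lr v.1 v.2) (0, r))
    (hstart : ∀ r, 0 ≤ c0p N al be r → r < 1 → (N - 2) * be * r < N * al →
      0 ≤ e * (hc N al be r - L 0 r))
    (hE : ∀ t, uu N x t ≤ u₁ → E (uu N x t) (rr x y t))
    (hstep : ∀ u r, 0 < u → u < 1 → u ≤ u₁ → 0 < r → r < 1 → al < be * r → 0 < c0p N al be r →
      (N - 2) * be * r < N * al → E u r → 0 < e * lie N al be Lu Lr u r (L u r))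
    {t : ℝ} (ht : uu N x t ≤ u₁) : 0 < e * (hv N x y P Q t - L (uu N x t) (rr x y t)) := by
  have hal := h.strip.al_pos; have hbe := h.strip.be_pos
  have hM : 0 < N - 2 := by linarith [h.strip.five]
  set U := uu N x with hU
  set Z := rr x y with hR
  set H := hv N x y P Q with hH
  set g := fun s => e * (H s - L (U s) (Z s)) with hg
  have dg : ∀ s, HasDerivAt g (e * lie N al be Lu Lr (U s) (Z s) (H s)) s := fun s =>
    (((h.hasDerivAt_hv s).fun_sub (hL _ _ _ _ s (h.hasDerivAt_uu s) (h.hasDerivAt_rr' s))).const_mul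
      e).congr_deriv (by simp only [lie, U, Z, H]; ring)
  have humono : Monotone U := fun s s' hss =>
    div_le_div_of_nonneg_right ((strictMono_of_hasDerivAt_pos h.hasDerivAt_x
      fun w => mul_pos (h.orbit.x_pos w) (h.ee_pos w)).monotone hss) hM.le
  have hat : ∀ s, U s ≤ u₁ → 0 < e * lie N al be Lu Lr (U s) (Z s) (L (U s) (Z s)) := fun s hs => by
    obtain ⟨h1, h2⟩ := h.uu_mem s
    obtain ⟨h3, h4, h5⟩ := h.rr_mem s
    exact hstep _ _ h1 h2 hs h3 h4 h5 (h.c0p_pos s) (h.rr_lt s) (hE s hs)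
  have h0 : ∀ s, U s ≤ u₁ → g s = 0 → 0 < e * lie N al be Lu Lr (U s) (Z s) (H s) := fun s hs hs0 => by
    have : H s = L (U s) (Z s) := by
      have := (mul_eq_zero.1 hs0).resolve_left (fun h' => by rw [h', mul_zero] at he; exact zero_ne_one he)
      linarith
    rw [this]; exact hat s hs
  -- a zero-or-negative value propagates backwards
  by_contra hn
  rw [not_lt] at hn
  have hback : ∀ s < t, g s < 0 := by
    intro s hs
    by_contra hge
    rw [not_lt] at hge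
    have cg : Continuous g := continuous_iff_continuousAt.2 fun w => (dg w).continuousAt
    obtain ⟨a, ha1, ha2, ha3⟩ : ∃ a, s ≤ a ∧ a < t ∧ 0 < g a := by
      rcases hge.eq_or_lt with he0 | he0
      · obtain ⟨w, hw, hw'⟩ := ((eventually_pos_right (dg s) he0.symm
          (h0 s ((humono hs.le).trans ht) he0.symm)).and (Ioo_mem_nhdsGT hs)).exists
        exact ⟨w, hw'.1.le, hw'.2, hw⟩
      · exact ⟨s, le_rfl, hs, he0⟩
    obtain ⟨c, hc, hcz, hfirst⟩ := exists_first (isClosed_le cg continuous_const) ha2.le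
      (show t ∈ {w | g w ≤ 0} from hn)
    have hcz' : g c ≤ 0 := hcz
    have hac : a < c := lt_of_le_of_ne hc.1 fun e' => by rw [← e'] at hcz'; linarith
    have hev : ∀ᶠ w in 𝓝[<] c, 0 < g w := by
      filter_upwards [Ioo_mem_nhdsLT hac] with w hw
      exact not_le.1 (hfirst w ⟨hw.1.le, hw.2⟩)
    have hc0 : g c = 0 := le_antisymm hcz'
      (ge_of_tendsto ((cg.tendsto c).mono_left nhdsWithin_le_nhds) (hev.mono fun w hw => hw.le))
    have := deriv_nonpos_of_left (dg c) (hev.mono fun w hw => by linarith)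
    linarith [h0 c ((humono hc.2).trans ht) hc0]
  obtain ⟨r₀, hc0, hlt, hu, hr, hh⟩ := h.centre
  have hLlim : Tendsto (fun s => L (U s) (Z s)) atBot (𝓝 (L 0 r₀)) :=
    (cL r₀).tendsto.comp (hu.prodMk_nhds hr)
  have hglim : Tendsto g atBot (𝓝 (e * (hc N al be r₀ - L 0 r₀))) := (hh.sub hLlim).const_mul e
  have hst : 0 ≤ e * (hc N al be r₀ - L 0 r₀) :=
    hstart r₀ hc0 ((hlt 0).trans (h.rr_mem 0).2.1)
      ((mul_lt_mul_of_pos_left (hlt 0) (mul_pos hM hbe)).trans (h.rr_lt 0))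
  have hr0 : 0 < r₀ := by
    have h2 : 0 ≤ r₀ := ge_of_tendsto hr (Eventually.of_forall fun s => (h.rr_mem s).1.le)
    refine lt_of_le_of_ne h2 fun e0 => ?_
    rw [← e0] at hc0
    simp only [c0p, mul_zero, zero_sub, Left.nonneg_neg_iff] at hc0
    have := mul_pos hal (show 0 < N + 2 * be by linarith)
    linarith
  have hA : al + be * r₀ ≠ 0 := (by positivity : 0 < al + be * r₀).ne'
  obtain ⟨hσ, hdenL, hdenH⟩ := Chart.lieDiff_tendsto (N := N) (Lu := Lu) (Lr := Lr) hA hu hr hh hLlim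
    (cu r₀) (cr r₀)
  obtain ⟨T, hT⟩ := eventually_atBot.1 ((((hσ.eventually (Iio_mem_nhds
    (show -(N + 2) < 0 by linarith))).and (hdenL.eventually_ne hA)).and
      (hdenH.eventually_ne hA)).and (eventually_lt_atBot t))
  have hmono : StrictMonoOn g (Iic T) := strictMonoOn_of_hasDerivWithinAt_pos (convex_Iic T)
    (fun s _ => (dg s).continuousAt.continuousWithinAt) (fun s _ => (dg s).hasDerivWithinAt)
    fun s hs => by
      rw [interior_Iic] at hs
      obtain ⟨⟨⟨h1, h2⟩, h3⟩, h4⟩ := hT s hs.le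
      rw [lie_sub h3 h2, mul_add, ← mul_assoc]
      exact add_pos (hat s ((humono h4.le).trans ht))
        (mul_pos_of_neg_of_neg (hback s h4) h1)
  have h1 := le_of_tendsto hglim ((eventually_le_atBot T).mono fun s hs =>
    hmono.monotoneOn (mem_Iic.2 hs) self_mem_Iic hs)
  linarith [hback T (hT T le_rfl).2]

end IsRegular

namespace IsBranch

variable {N p q lo : ℝ} {U V : ℝ → ℝ}

/-- Band barrier on the bubble, `s > 0`. -/
theorem band_barrier (h : IsBranch N p q lo U V) (hc : IsCrit N p q)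
    (hW : ∀ r, lo < r → 0 < Wf N p q U V r) (h5 : 5 ≤ N) (hb : 1 ≤ N * (1 / (p + 1)))
    {e u₁ : ℝ} (he : e * e = 1) {L Lu Lr : ℝ → ℝ → ℝ} {E : ℝ → ℝ → Prop} (hL : HasGradTwo L Lu Lr)
    (cL : ∀ r, ContinuousAt (fun v : ℝ × ℝ => L v.1 v.2) (0, r))
    (cu : ∀ r, ContinuousAt (fun v : ℝ × ℝ => Lu v.1 v.2) (0, r))
    (cr : ∀ r, ContinuousAt (fun v : ℝ × ℝ => Lr v.1 v.2) (0, r))
    (hstart : ∀ r, 0 ≤ c0p N (1 / (p + 1)) (1 / (q + 1)) r → r < 1 →
      (N - 2) * (1 / (q + 1)) * r < N * (1 / (p + 1)) →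
      0 ≤ e * (Chart.hc N (1 / (p + 1)) (1 / (q + 1)) r - L 0 r))
    (hE : ∀ s, 0 < s → uOf N s (xs N p U V s) ≤ u₁ →
      E (pt N p q U V s).1 (pt N p q U V s).2.1)
    (hstep : ∀ u r, 0 < u → u < 1 → u ≤ u₁ → 0 < r → r < 1 → 1 / (p + 1) < 1 / (q + 1) * r →
      0 < c0p N (1 / (p + 1)) (1 / (q + 1)) r →
      (N - 2) * (1 / (q + 1)) * r < N * (1 / (p + 1)) → E u r →
      0 < e * lie N (1 / (p + 1)) (1 / (q + 1)) Lu Lr u r (L u r))
    {s : ℝ} (hs : 0 < s) (hu : uOf N s (xs N p U V s) ≤ u₁) :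
    0 < e * ((pt N p q U V s).2.2 - L (pt N p q U V s).1 (pt N p q U V s).2.1) := by
  obtain ⟨e1, e2, e3, -⟩ := h.chart_spec hc hW h5 hb (Real.log s / 2)
  have es : Real.exp (2 * (Real.log s / 2)) = s := by
    rw [mul_div_cancel₀ _ (two_ne_zero (α := ℝ)), Real.exp_log hs]
  have key := (h.isRegular hc hW h5 hb).band_barrier (u₁ := u₁) he hL cL cu cr hstart (E := E)
    (fun t ht => ?_) hstep (t := Real.log s / 2) (by rw [e1, es]; exact hu)
  · rw [e1, e2, e3, es] at key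
    exact key
  · obtain ⟨f1, f2, -, -⟩ := h.chart_spec hc hW h5 hb t
    rw [f1, f2]
    exact hE _ (Real.exp_pos _) (f1 ▸ ht)

/-- Band barrier on the bubble, `s < 0`. -/
theorem band_barrier_neg (h : IsBranch N p q lo U V) (hc : IsCrit N p q)
    (hW : ∀ r, lo < r → 0 < Wf N p q U V r) (h5 : 5 ≤ N) (hb : 1 ≤ N * (1 / (p + 1)))
    {e s₁ : ℝ} (he : e * e = 1) {L Lu Lr : ℝ → ℝ → ℝ} {E : ℝ → ℝ → Prop} (hL : HasGradTwo L Lu Lr)
    (cL : ∀ r, ContinuousAt (fun v : ℝ × ℝ => L v.1 v.2) (0, r))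
    (cu : ∀ r, ContinuousAt (fun v : ℝ × ℝ => Lu v.1 v.2) (0, r))
    (cr : ∀ r, ContinuousAt (fun v : ℝ × ℝ => Lr v.1 v.2) (0, r))
    (hstart : ∀ r, 0 ≤ c0p N (1 / (p + 1)) (1 / (q + 1)) r → r < 1 →
      (N - 2) * (1 / (q + 1)) * r < N * (1 / (p + 1)) →
      0 ≤ e * (Chart.hc N (1 / (p + 1)) (1 / (q + 1)) r - L 0 r))
    (hlo : lo < s₁)
    (hE : ∀ s ∈ Ico s₁ 0, E (pt N p q U V s).1 (pt N p q U V s).2.1)
    (hstep : ∀ u r, u < 0 → r ≤ 1 → 1 / (p + 1) < 1 / (q + 1) * r → E u r →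
      0 < e * lie N (1 / (p + 1)) (1 / (q + 1)) Lu Lr u r (L u r))
    {s : ℝ} (hs : s ∈ Ico s₁ 0) :
    0 < e * ((pt N p q U V s).2.2 - L (pt N p q U V s).1 (pt N p q U V s).2.1) := by
  have hN := hc.dim
  obtain ⟨hc0, hr1, hk, hlim⟩ := h.centre_pt hc hW h5 hb
  set al := 1 / (p + 1) with hal
  set be := 1 / (q + 1) with hbe
  set r₀ := 1 / zf p q U V 0
  set u : ℝ → ℝ := fun w => (pt N p q U V w).1 with hu'
  set r : ℝ → ℝ := fun w => (pt N p q U V w).2.1 with hr'
  set w' : ℝ → ℝ := fun w => (pt N p q U V w).2.2 with hw'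
  set g : ℝ → ℝ := fun w => e * (w' w - L (u w) (r w)) with hg
  have hband := h.band hc hW
  have hdom : ∀ w, lo < w → w < 0 → u w < 0 ∧ r w ≤ 1 ∧ al < be * r w := fun w hw hw0 => by
    obtain ⟨hx, -⟩ := h.xs_pos (p := p) (q := q) hN w
    refine ⟨div_neg_of_neg_of_pos (mul_neg_of_neg_of_pos (by linarith) hx) (by linarith),
      (div_le_one hx).2 (hband.2 w hw), ?_⟩
    have h2 : 0 < be * ys N q U V w - al * xs N p U V w := hW w hw
    simp only [r, pt]
    rw [← mul_div_assoc, lt_div_iff₀ hx]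
    linarith
  have dg : ∀ w, lo < w → w < 0 →
      HasDerivAt g (e * lie N al be Lu Lr (u w) (r w) (w' w) / (2 * w)) w := fun w hw hw0 => by
    obtain ⟨d1, d2, d3⟩ := h.chart_deriv hc hw hw0.ne
    refine ((d3.fun_sub (hL _ _ _ _ w d1 d2)).const_mul e).congr_deriv ?_
    simp only [lie, u, r, w', pt, xs, ys, al, be]
    ring
  have hlo' : ∀ w, s₁ ≤ w → lo < w := fun w hw => hlo.trans_le hw
  have hat : ∀ w ∈ Ico s₁ 0, 0 < e * lie N al be Lu Lr (u w) (r w) (L (u w) (r w)) := fun w hw => by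
    obtain ⟨h1, h2, h3⟩ := hdom w (hlo' w hw.1) hw.2
    exact hstep _ _ h1 h2 h3 (hE w hw)
  by_contra hn
  have hn' : g s ≤ 0 := not_lt.1 hn
  have hprop : ∀ b ∈ Ioo s 0, g b < 0 := by
    intro b hb'
    by_contra hge
    rw [not_lt] at hge
    have hcont : ∀ c ∈ Icc s b, ContinuousAt g c := fun c hc' =>
      (dg c (hlo' c (hs.1.trans hc'.1)) (hc'.2.trans_lt hb'.2)).continuousAt
    have hz : ∀ c ∈ Icc s b, g c = 0 → e * lie N al be Lu Lr (u c) (r c) (w' c) / (2 * c) < 0 :=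
      fun c hc' h0' => by
        have hc0' : c < 0 := hc'.2.trans_lt hb'.2
        have hwl : w' c = L (u c) (r c) := by
          have := (mul_eq_zero.1 h0').resolve_left
            (fun h' => by rw [h', mul_zero] at he; exact zero_ne_one he)
          linarith
        rw [hwl]
        exact div_neg_of_pos_of_neg (hat c ⟨hs.1.trans hc'.1, hc0'⟩) (by linarith)
    -- pass to a point with `g > 0`
    obtain ⟨b', hb1, hb2, hb3⟩ : ∃ b', s < b' ∧ b' ≤ b ∧ 0 < g b' := by
      rcases hge.eq_or_lt with he0 | he0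
      · obtain ⟨c, hc', hc''⟩ := ((eventually_lt_left (dg b (hlo' b (hs.1.trans hb'.1.le)) hb'.2).neg
          (neg_pos.2 (hz b (right_mem_Icc.2 hb'.1.le) he0.symm))).and (Ioo_mem_nhdsLT hb'.1)).exists
        simp only [Pi.neg_apply] at hc'
        exact ⟨c, hc''.1, hc''.2.le, by linarith⟩
      · exact ⟨b, hb'.1, le_rfl, he0⟩
    have hcont' : ContinuousOn g (Icc s b') := fun c hc' =>
      (hcont c ⟨hc'.1, hc'.2.trans hb2⟩).continuousWithinAt
    have hcl : IsCompact (Icc s b' ∩ g ⁻¹' Iic 0) := isCompact_Icc.of_isClosed_subset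
      (hcont'.preimage_isClosed_of_isClosed isClosed_Icc isClosed_Iic) inter_subset_left
    obtain ⟨c, ⟨hcI, hcg⟩, hmax⟩ := hcl.exists_isGreatest ⟨s, ⟨⟨le_rfl, hb1.le⟩, hn'⟩⟩
    have hcb : c < b' := lt_of_le_of_ne hcI.2 fun e' => by subst e'; exact not_lt.2 hcg hb3
    have hev : ∀ᶠ v in 𝓝[>] c, 0 < g v := by
      filter_upwards [Ioo_mem_nhdsGT hcb] with v hv
      exact not_le.1 fun hv' => not_lt.2 (hmax ⟨⟨hcI.1.trans hv.1.le, hv.2.le⟩, hv'⟩) hv.1
    have hz0 : g c = 0 := le_antisymm hcg (ge_of_tendsto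
      ((hcont c ⟨hcI.1, hcI.2.trans hb2⟩).tendsto.mono_left nhdsWithin_le_nhds)
      (hev.mono fun v hv => hv.le))
    have h1 := deriv_nonneg_of_right (dg c (hlo' c (hs.1.trans hcI.1))
      ((hcI.2.trans hb2).trans_lt hb'.2)) (hev.mono fun v hv => by linarith)
    linarith [hz c ⟨hcI.1, hcI.2.trans hb2⟩ hz0]
  have hlim' := hlim.mono_left (nhdsWithin_mono _ (fun v (hv : v ∈ Iio (0 : ℝ)) => ne_of_lt hv))
  have hu : Tendsto u (𝓝[<] 0) (𝓝 0) := (continuous_fst.tendsto _).comp hlim'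
  have hr : Tendsto r (𝓝[<] 0) (𝓝 r₀) :=
    (continuous_fst.tendsto _).comp ((continuous_snd.tendsto _).comp hlim')
  have hh : Tendsto w' (𝓝[<] 0) (𝓝 (Chart.hc N al be r₀)) :=
    (continuous_snd.tendsto _).comp ((continuous_snd.tendsto _).comp hlim')
  have hLlim : Tendsto (fun v => L (u v) (r v)) (𝓝[<] 0) (𝓝 (L 0 r₀)) :=
    (cL r₀).tendsto.comp (hu.prodMk_nhds hr)
  have hA : al + be * r₀ ≠ 0 := by
    have h1 : 0 < al := by simp only [al]; have := hc.p_pos; positivity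
    have h2 : 0 < be := by simp only [be]; have := hc.q_pos; positivity
    have h3 : 0 < r₀ := by
      have hz : 0 < zf p q U V 0 := div_pos (Real.rpow_pos_of_pos (h.posV 0) _)
        (Real.rpow_pos_of_pos (h.posU 0) _)
      positivity
    positivity
  obtain ⟨hσ, hdL, hdH⟩ := Chart.lieDiff_tendsto (N := N) (Lu := Lu) (Lr := Lr) hA hu hr hh hLlim
    (cu r₀) (cr r₀)
  obtain ⟨l, hl, hsub⟩ := mem_nhdsLT_iff_exists_Ioo_subset.1 ((((hσ.eventually (Iio_mem_nhds
    (show -(N + 2) < 0 by linarith))).and (hdL.eventually_ne hA)).and (hdH.eventually_ne hA)).and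
      (Ioo_mem_nhdsLT hs.2))
  obtain ⟨b, hb1, hb2⟩ := exists_between (mem_Iio.1 hl)
  have hbs : s < b := (hsub ⟨hb1, hb2⟩).2.1
  have hanti : AntitoneOn g (Ico b 0) := antitoneOn_of_hasDerivWithinAt_nonpos (convex_Ico b 0)
    (fun v hv => (dg v (hlo' v (hs.1.trans (hbs.le.trans hv.1))) hv.2).continuousAt.continuousWithinAt)
    (fun v hv => by
      rw [interior_Ico] at hv
      exact (dg v (hlo' v (hs.1.trans (hbs.le.trans hv.1.le))) hv.2).hasDerivWithinAt)
    fun v hv => by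
      rw [interior_Ico] at hv
      obtain ⟨⟨⟨h1, h2⟩, h3⟩, h4⟩ := hsub ⟨hb1.trans hv.1, hv.2⟩
      refine div_nonpos_of_nonneg_of_nonpos ?_ (by linarith [hv.2])
      rw [lie_sub h3 h2, mul_add, ← mul_assoc]
      exact add_nonneg (hat v ⟨hs.1.trans h4.1.le, hv.2⟩).le
        (mul_pos_of_neg_of_neg (hprop v h4) h1).le
  have hglim : Tendsto g (𝓝[<] 0) (𝓝 (e * (Chart.hc N al be r₀ - L 0 r₀))) :=
    (hh.sub hLlim).const_mul e
  have h1 := le_of_tendsto hglim (Filter.mem_of_superset (Ioo_mem_nhdsLT hb2)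
    fun v hv => hanti (left_mem_Ico.2 hb2) ⟨hv.1.le, hv.2⟩ hv.1.le)
  linarith [hprop b ⟨hbs, hb2⟩, hstart r₀ hc0 hr1 hk]

end IsBranch

end Vale.Agent.P100.Bubble
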