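import Mathlib
import Vale.Agent.P100.Bubble.TrapLift
import Vale.Agent.P100.Bubble.TrapNeg

/-!
# Exit barriers

If `G ≤ 0` can only decrease along the flow (`flow · ∇G < 0` on `G = 0`) and `G > 0` on the whole
chart at `u = u₁ < 1`, then `G > 0` while `u ≤ u₁`. With `G = φ u - r` this bounds `r` from above.
-/

open Set Filter Topology

namespace Vale.Agent.P100.Bubble

open Chart Trap

namespace IsRegular

variable {N al be : ℝ} {x y P Q : ℝ → ℝ}

/-- **Exit barrier.** -/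
theorem exit_barrier (h : IsRegular N al be x y P Q) {u₁ : ℝ} (hu₁ : u₁ < 1)
    {G Gu Gr Gh : ℝ → ℝ → ℝ → ℝ} (hG : HasGrad G Gu Gr Gh)
    (hend : ∀ t, uu N x t = u₁ → 0 < G (uu N x t) (rr x y t) (hv N x y P Q t))
    (hstep : ∀ t, uu N x t ≤ u₁ → G (uu N x t) (rr x y t) (hv N x y P Q t) = 0 →
      Gu (uu N x t) (rr x y t) (hv N x y P Q t) *
          (uu N x t * ev N al be (uu N x t) (rr x y t) (hv N x y P Q t)) +
        Gr (uu N x t) (rr x y t) (hv N x y P Q t) *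
          (rr x y t * dv N al be (uu N x t) (rr x y t) (hv N x y P Q t)) +
        Gh (uu N x t) (rr x y t) (hv N x y P Q t) *
          fh N al be (uu N x t) (rr x y t) (hv N x y P Q t) < 0)
    {t : ℝ} (ht : uu N x t ≤ u₁) : 0 < G (uu N x t) (rr x y t) (hv N x y P Q t) := by
  have hM : 0 < N - 2 := by linarith [h.strip.five]
  set g := fun s => G (uu N x s) (rr x y s) (hv N x y P Q s) with hg
  have dg : ∀ s, HasDerivAt g _ s := fun s =>
    hG _ _ _ _ _ _ s (h.hasDerivAt_uu s) (h.hasDerivAt_rr' s) (h.hasDerivAt_hv s)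
  have cg : Continuous g := continuous_iff_continuousAt.2 fun s => (dg s).continuousAt
  have cu : Continuous (uu N x) :=
    continuous_iff_continuousAt.2 fun s => (h.hasDerivAt_uu s).continuousAt
  have humono : Monotone (uu N x) := fun s s' hss =>
    div_le_div_of_nonneg_right ((strictMono_of_hasDerivAt_pos h.hasDerivAt_x
      fun w => mul_pos (h.orbit.x_pos w) (h.ee_pos w)).monotone hss) hM.le
  have hlim : Tendsto (uu N x) atTop (𝓝 1) := by
    have := (h.orbit.x_tendsto h.ratio_zero).div_const (N - 2)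
    rw [div_self hM.ne'] at this
    exact this
  obtain ⟨b₀, hb0, htb0⟩ := ((hlim.eventually (Ioi_mem_nhds hu₁)).and (eventually_ge_atTop t)).exists
  obtain ⟨b, hb, hbu⟩ := intermediate_value_Icc htb0 cu.continuousOn
    (show u₁ ∈ Icc (uu N x t) (uu N x b₀) from ⟨ht, (le_of_lt hb0)⟩)
  by_contra hn
  have hgb : 0 < g b := hend b hbu
  have hcl : IsCompact (Icc t b ∩ g ⁻¹' Iic 0) := isCompact_Icc.of_isClosed_subset
    (cg.continuousOn.preimage_isClosed_of_isClosed isClosed_Icc isClosed_Iic) inter_subset_left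
  obtain ⟨c, ⟨hcI, hcg⟩, hmax⟩ := hcl.exists_isGreatest
    ⟨t, ⟨⟨le_rfl, hb.1⟩, show g t ≤ 0 from not_lt.1 hn⟩⟩
  have hcb : c < b := lt_of_le_of_ne hcI.2 fun e => by subst e; exact not_lt.2 hcg hgb
  have hev : ∀ᶠ s in 𝓝[>] c, 0 < g s := by
    filter_upwards [Ioo_mem_nhdsGT hcb] with s hs
    exact not_le.1 fun hs' => not_lt.2 (hmax ⟨⟨hcI.1.trans hs.1.le, hs.2.le⟩, hs'⟩) hs.1
  have hc0 : g c = 0 := le_antisymm hcg
    (ge_of_tendsto ((cg.tendsto c).mono_left nhdsWithin_le_nhds) (hev.mono fun s hs => hs.le))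
  have h1 := deriv_nonneg_of_right (dg c) (hev.mono fun s hs => by linarith)
  linarith [hstep c ((humono hcI.2).trans hbu.le) hc0]

end IsRegular

namespace IsBranch

variable {N p q lo : ℝ} {U V : ℝ → ℝ}

/-- Exit barrier on the bubble. -/
theorem exit_barrier (h : IsBranch N p q lo U V) (hc : IsCrit N p q)
    (hW : ∀ r, lo < r → 0 < Wf N p q U V r) (h5 : 5 ≤ N) (hb : 1 ≤ N * (1 / (p + 1))) {u₁ : ℝ}
    (hu₁ : u₁ < 1) {G Gu Gr Gh : ℝ → ℝ → ℝ → ℝ} {E : ℝ → ℝ → ℝ → Prop} (hG : HasGrad G Gu Gr Gh)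
    (hE : ∀ s, 0 < s → uOf N s (xs N p U V s) ≤ u₁ →
      E (pt N p q U V s).1 (pt N p q U V s).2.1 (pt N p q U V s).2.2)
    (hend : ∀ r w, InChart N (1 / (p + 1)) (1 / (q + 1)) u₁ r w → E u₁ r w → 0 < G u₁ r w)
    (hstep : ∀ u r w, InChart N (1 / (p + 1)) (1 / (q + 1)) u r w → u ≤ u₁ → E u r w → G u r w = 0 →
      Gu u r w * (u * ev N (1 / (p + 1)) (1 / (q + 1)) u r w) +
        Gr u r w * (r * dv N (1 / (p + 1)) (1 / (q + 1)) u r w) +
        Gh u r w * fh N (1 / (p + 1)) (1 / (q + 1)) u r w < 0)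
    {s : ℝ} (hs : 0 < s) (hu : uOf N s (xs N p U V s) ≤ u₁) :
    0 < G (pt N p q U V s).1 (pt N p q U V s).2.1 (pt N p q U V s).2.2 := by
  obtain ⟨e1, e2, e3, -⟩ := h.chart_spec hc hW h5 hb (Real.log s / 2)
  have es : Real.exp (2 * (Real.log s / 2)) = s := by
    rw [mul_div_cancel₀ _ (two_ne_zero (α := ℝ)), Real.exp_log hs]
  have key := (h.isRegular hc hW h5 hb).exit_barrier hu₁ hG (fun t ht => ?_) (fun t ht h0 => ?_)
    (t := Real.log s / 2) (by rw [e1, es]; exact hu)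
  · rw [e1, e2, e3, es] at key
    exact key
  · obtain ⟨f1, f2, f3, f4⟩ := h.chart_spec hc hW h5 hb t
    rw [ht] at f4 ⊢
    refine hend _ _ f4 ?_
    have := hE _ (Real.exp_pos (2 * t)) (f1 ▸ ht.le)
    simp only [pt, xs, ys] at this
    rw [← f1, ← f2, ← f3, ht] at this
    exact this
  · obtain ⟨f1, f2, f3, f4⟩ := h.chart_spec hc hW h5 hb t
    refine hstep _ _ _ f4 ht ?_ h0
    rw [f1, f2, f3]
    exact hE _ (Real.exp_pos _) (f1 ▸ ht)

end IsBranch

end Vale.Agent.P100.Bubble
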