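import Mathlib
import Vale.Agent.P100.Bubble.Backward
import Vale.Agent.P100.Bubble.Tail
import Vale.Agent.P100.Bubble.Band
import Vale.Agent.P100.Bubble.TrapBranch
import Vale.Agent.P100.Bubble.TrapLift
import Vale.Agent.P100.Bubble.TrapNeg
import Vale.Agent.P100.Bubble.TrapBand
import Vale.Agent.P100.Bubble.TrapExit

/-!
# The critical orbit parametrised by `z`

With `X = -2 R x`, `Y = -2 R y`, `Zq = R s`, `Zp = z R s` the bubble gives continuously
differentiable functions `R, x, y, s` of `z` on an open set containing `(0, (p+1)/(q+1)]`.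
-/

open Set Filter Topology

namespace Vale.Agent.P100.Bubble

variable {N p q : ℝ}

/-- The orbit as functions of `z`. -/
structure IsOrbitFns (N p q : ℝ) (S : Set ℝ) (R x y s dx dy : ℝ → ℝ) : Prop where
  isOpen : IsOpen S
  cover : Ioc 0 ((p + 1) / (q + 1)) ⊆ S
  pos : S ⊆ Ioi 0
  x_pos : ∀ z ∈ S, 0 < x z
  y_pos : ∀ z ∈ S, 0 < y z
  s_pos : ∀ z ∈ S, 0 < s z
  W_pos : ∀ z ∈ S, 0 < 1 / (q + 1) * y z - 1 / (p + 1) * x z
  quad : ∀ z ∈ S, 4 * R z * x z * y z + 1 / (p + 1) * (z * s z) + 1 / (q + 1) * s z =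
    2 * N * (1 / (p + 1) * x z + 1 / (q + 1) * y z)
  dR : ∀ z ∈ S, HasDerivAt R
    (-(1 / (p + 1) * (1 / (q + 1))) / (z * (1 / (q + 1) * y z - 1 / (p + 1) * x z))) z
  deriv_x : ∀ z ∈ S, HasDerivAt x
    (dx z * (-(1 / (p + 1) * (1 / (q + 1))) / (z * (1 / (q + 1) * y z - 1 / (p + 1) * x z)))) z
  deriv_y : ∀ z ∈ S, HasDerivAt y
    (dy z * (-(1 / (p + 1) * (1 / (q + 1))) / (z * (1 / (q + 1) * y z - 1 / (p + 1) * x z)))) z
  deriv_s : ∀ z ∈ S, HasDerivAt s
    (s z * (y z - q * x z) *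
      (-(1 / (p + 1) * (1 / (q + 1))) / (z * (1 / (q + 1) * y z - 1 / (p + 1) * x z)))) z
  cont_dx : ContinuousOn dx S
  cont_dy : ContinuousOn dy S
  ode_x : ∀ z ∈ S, R z * dx z = z * s z / 4 - N / 2 * x z + R z * x z ^ 2
  ode_y : ∀ z ∈ S, R z * dy z = s z / 4 - N / 2 * y z + R z * y z ^ 2
  zero_x : ∀ z ∈ S, R z = 0 → (1 + N / 2) * dx z = z * s z * (x z - p * y z) / 4 + x z ^ 2
  zero_y : ∀ z ∈ S, R z = 0 → (1 + N / 2) * dy z = s z * (y z - q * x z) / 4 + y z ^ 2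
  smooth : ContDiffOn ℝ 1 R S ∧ ContDiffOn ℝ 1 x S ∧ ContDiffOn ℝ 1 y S ∧ ContDiffOn ℝ 1 s S
  anti : StrictAntiOn R S
  crossing : ∃ z₀ ∈ Ioo 0 ((p + 1) / (q + 1)), R z₀ = 0
  x_lt : ∀ z ∈ S, 0 < R z → 2 * R z * x z < N - 2
  y_lt : ∀ z ∈ S, 0 < R z → 2 * R z * y z < N - 2
  band : ∀ z ∈ S, y z ≤ x z ∧ (0 < R z → z * y z < x z ∧ y z < x z) ∧ (R z < 0 → x z < z * y z)
  trap : 5 ≤ N → 1 ≤ N * (1 / (p + 1)) → ∀ z ∈ S, 0 < R z →
    1 / (p + 1) * (N + 2 * (1 / (q + 1))) * x z < 1 / (q + 1) * (N + 2 * (1 / (p + 1))) * y z ∧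
      (N - 2) * (1 / (q + 1)) * y z < N * (1 / (p + 1)) * x z ∧
      1 / (q + 1) * (2 * R z * y z) < N * (1 / (p + 1)) ∧
      2 * x z * (N - 2 - 2 * R z * x z) < z * s z ∧
      y z * (z * s z) < x z * s z - 4 * R z * x z * y z * (x z - y z)
  trap_cap : 5 ≤ N → 1 ≤ N * (1 / (p + 1)) → ∀ z ∈ S, 0 < R z →
    (N - 2 - 2 * R z * x z) * x z < (N - 2) * (z * y z)
  chart : 5 ≤ N → 1 ≤ N * (1 / (p + 1)) → ∀ z ∈ S, 0 < R z →
    InChart N (1 / (p + 1)) (1 / (q + 1)) (uOf N (R z) (x z)) (y z / x z)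
      (hOf N (R z) (x z) (y z) z)
  barrier : 5 ≤ N → 1 ≤ N * (1 / (p + 1)) → ∀ (u₁ : ℝ) (G Gu Gr Gh : ℝ → ℝ → ℝ → ℝ)
    (E : ℝ → ℝ → ℝ → Prop), HasGrad G Gu Gr Gh →
    (∀ r, ContinuousAt (fun v : ℝ × ℝ × ℝ => G v.1 v.2.1 v.2.2)
      (0, r, Chart.hc N (1 / (p + 1)) (1 / (q + 1)) r)) →
    (∀ r, 0 ≤ Trap.c0p N (1 / (p + 1)) (1 / (q + 1)) r → r < 1 →
      (N - 2) * (1 / (q + 1)) * r < N * (1 / (p + 1)) →
      0 < G 0 r (Chart.hc N (1 / (p + 1)) (1 / (q + 1)) r)) →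
    (∀ z ∈ S, 0 < R z → uOf N (R z) (x z) ≤ u₁ →
      E (uOf N (R z) (x z)) (y z / x z) (hOf N (R z) (x z) (y z) z)) →
    (∀ u r w, InChart N (1 / (p + 1)) (1 / (q + 1)) u r w → u ≤ u₁ → E u r w → G u r w = 0 →
      0 < Gu u r w * (u * Chart.ev N (1 / (p + 1)) (1 / (q + 1)) u r w) +
        Gr u r w * (r * Chart.dv N (1 / (p + 1)) (1 / (q + 1)) u r w) +
        Gh u r w * Chart.fh N (1 / (p + 1)) (1 / (q + 1)) u r w) →
    ∀ z ∈ S, 0 < R z → uOf N (R z) (x z) ≤ u₁ →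
      0 < G (uOf N (R z) (x z)) (y z / x z) (hOf N (R z) (x z) (y z) z)
  centre : 5 ≤ N → 1 ≤ N * (1 / (p + 1)) → ∀ z ∈ S, R z = 0 →
    0 ≤ Trap.c0p N (1 / (p + 1)) (1 / (q + 1)) (1 / z) ∧ 1 / z < 1 ∧
      (N - 2) * (1 / (q + 1)) * (1 / z) < N * (1 / (p + 1))
  barrier_neg : 5 ≤ N → 1 ≤ N * (1 / (p + 1)) → ∀ (G Gu Gr Gh : ℝ → ℝ → ℝ → ℝ)
    (E : ℝ → ℝ → ℝ → Prop), HasGrad G Gu Gr Gh →
    (∀ r, ContinuousAt (fun v : ℝ × ℝ × ℝ => G v.1 v.2.1 v.2.2)
      (0, r, Chart.hc N (1 / (p + 1)) (1 / (q + 1)) r)) →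
    (∀ r, 0 ≤ Trap.c0p N (1 / (p + 1)) (1 / (q + 1)) r → r < 1 →
      (N - 2) * (1 / (q + 1)) * r < N * (1 / (p + 1)) →
      0 < G 0 r (Chart.hc N (1 / (p + 1)) (1 / (q + 1)) r)) →
    ∀ z₁ ∈ S, (∀ z ∈ S, z ≤ z₁ → R z < 0 →
      E (uOf N (R z) (x z)) (y z / x z) (hOf N (R z) (x z) (y z) z)) →
    (∀ u r w, u < 0 → 0 < w → r ≤ 1 → 1 / (p + 1) < 1 / (q + 1) * r → E u r w → G u r w = 0 →
      0 < Gu u r w * (u * Chart.ev N (1 / (p + 1)) (1 / (q + 1)) u r w) +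
        Gr u r w * (r * Chart.dv N (1 / (p + 1)) (1 / (q + 1)) u r w) +
        Gh u r w * Chart.fh N (1 / (p + 1)) (1 / (q + 1)) u r w) →
    ∀ z ∈ S, z ≤ z₁ → R z < 0 →
      0 < G (uOf N (R z) (x z)) (y z / x z) (hOf N (R z) (x z) (y z) z)
  band_barrier : 5 ≤ N → 1 ≤ N * (1 / (p + 1)) → ∀ (e u₁ : ℝ), e * e = 1 →
    ∀ (L Lu Lr : ℝ → ℝ → ℝ) (E : ℝ → ℝ → Prop), HasGradTwo L Lu Lr →
    (∀ r, ContinuousAt (fun v : ℝ × ℝ => L v.1 v.2) (0, r) ∧
      ContinuousAt (fun v : ℝ × ℝ => Lu v.1 v.2) (0, r) ∧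
      ContinuousAt (fun v : ℝ × ℝ => Lr v.1 v.2) (0, r)) →
    (∀ r, 0 ≤ Trap.c0p N (1 / (p + 1)) (1 / (q + 1)) r → r < 1 →
      (N - 2) * (1 / (q + 1)) * r < N * (1 / (p + 1)) →
      0 ≤ e * (Chart.hc N (1 / (p + 1)) (1 / (q + 1)) r - L 0 r)) →
    (∀ z ∈ S, 0 < R z → uOf N (R z) (x z) ≤ u₁ → E (uOf N (R z) (x z)) (y z / x z)) →
    (∀ u r, 0 < u → u < 1 → u ≤ u₁ → 0 < r → r < 1 → 1 / (p + 1) < 1 / (q + 1) * r →
      0 < Trap.c0p N (1 / (p + 1)) (1 / (q + 1)) r →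
      (N - 2) * (1 / (q + 1)) * r < N * (1 / (p + 1)) → E u r →
      0 < e * Chart.lie N (1 / (p + 1)) (1 / (q + 1)) Lu Lr u r (L u r)) →
    ∀ z ∈ S, 0 < R z → uOf N (R z) (x z) ≤ u₁ →
      0 < e * (hOf N (R z) (x z) (y z) z - L (uOf N (R z) (x z)) (y z / x z))
  band_barrier_neg : 5 ≤ N → 1 ≤ N * (1 / (p + 1)) → ∀ (e : ℝ), e * e = 1 →
    ∀ (L Lu Lr : ℝ → ℝ → ℝ) (E : ℝ → ℝ → Prop), HasGradTwo L Lu Lr →
    (∀ r, ContinuousAt (fun v : ℝ × ℝ => L v.1 v.2) (0, r) ∧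
      ContinuousAt (fun v : ℝ × ℝ => Lu v.1 v.2) (0, r) ∧
      ContinuousAt (fun v : ℝ × ℝ => Lr v.1 v.2) (0, r)) →
    (∀ r, 0 ≤ Trap.c0p N (1 / (p + 1)) (1 / (q + 1)) r → r < 1 →
      (N - 2) * (1 / (q + 1)) * r < N * (1 / (p + 1)) →
      0 ≤ e * (Chart.hc N (1 / (p + 1)) (1 / (q + 1)) r - L 0 r)) →
    ∀ z₁ ∈ S, (∀ z ∈ S, z ≤ z₁ → R z < 0 → E (uOf N (R z) (x z)) (y z / x z)) →
    (∀ u r, u < 0 → r ≤ 1 → 1 / (p + 1) < 1 / (q + 1) * r → E u r →
      0 < e * Chart.lie N (1 / (p + 1)) (1 / (q + 1)) Lu Lr u r (L u r)) →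
    ∀ z ∈ S, z ≤ z₁ → R z < 0 →
      0 < e * (hOf N (R z) (x z) (y z) z - L (uOf N (R z) (x z)) (y z / x z))
  exit_barrier : 5 ≤ N → 1 ≤ N * (1 / (p + 1)) → ∀ (u₁ : ℝ), u₁ < 1 →
    ∀ (G Gu Gr Gh : ℝ → ℝ → ℝ → ℝ) (E : ℝ → ℝ → ℝ → Prop), HasGrad G Gu Gr Gh →
    (∀ z ∈ S, 0 < R z → uOf N (R z) (x z) ≤ u₁ →
      E (uOf N (R z) (x z)) (y z / x z) (hOf N (R z) (x z) (y z) z)) →
    (∀ r w, InChart N (1 / (p + 1)) (1 / (q + 1)) u₁ r w → E u₁ r w → 0 < G u₁ r w) →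
    (∀ u r w, InChart N (1 / (p + 1)) (1 / (q + 1)) u r w → u ≤ u₁ → E u r w → G u r w = 0 →
      Gu u r w * (u * Chart.ev N (1 / (p + 1)) (1 / (q + 1)) u r w) +
        Gr u r w * (r * Chart.dv N (1 / (p + 1)) (1 / (q + 1)) u r w) +
        Gh u r w * Chart.fh N (1 / (p + 1)) (1 / (q + 1)) u r w < 0) →
    ∀ z ∈ S, 0 < R z → uOf N (R z) (x z) ≤ u₁ →
      0 < G (uOf N (R z) (x z)) (y z / x z) (hOf N (R z) (x z) (y z) z)
  R_tendsto : Tendsto R (𝓝[>] 0) atTop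
  X_tendsto : Tendsto (fun z => 2 * R z * x z) (𝓝[>] 0) (𝓝 (N - 2))
  Y_tendsto : Tendsto (fun z => 2 * R z * y z) (𝓝[>] 0)
    (𝓝 (min (N - 2) (N * (1 / (p + 1)) / (1 / (q + 1)))))
  Q_tendsto : Tendsto (fun z => R z * s z) (𝓝[>] 0)
    (𝓝 (N * (1 / (p + 1)) / (1 / (q + 1)) *
      (N - 2 - min (N - 2) (N * (1 / (p + 1)) / (1 / (q + 1))))))

/-- The derivative of `- u'/u`. -/
noncomputable def dquot (N p : ℝ) (U V B : ℝ → ℝ) (ρ : ℝ) : ℝ :=
  (-(acc N p V B ρ) * U ρ + vel N p V ρ * vel N p V ρ) / U ρ ^ 2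

theorem contDiffOn_one_of_deriv {f f' : ℝ → ℝ} {S : Set ℝ} (hS : IsOpen S)
    (hd : ∀ z ∈ S, HasDerivAt f (f' z) z) (hc : ContinuousOn f' S) : ContDiffOn ℝ 1 f S := by
  rw [show (1 : WithTop ℕ∞) = 0 + 1 by norm_num, contDiffOn_succ_iff_deriv_of_isOpen hS]
  exact ⟨fun z hz => (hd z hz).differentiableAt.differentiableWithinAt, by simp,
    contDiffOn_zero.2 (hc.congr fun z hz => (hd z hz).deriv)⟩

namespace IsBranch

variable {lo : ℝ} {U V : ℝ → ℝ}

theorem dquot_spec {B : ℝ → ℝ} {ρ : ℝ} (du : HasDerivAt U (vel N p V ρ) ρ)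
    (dA : HasDerivAt (vel N p V) (acc N p V B ρ) ρ)
    (eA : ρ * acc N p V B ρ = -(1 / 4) * V ρ ^ p - N / 2 * vel N p V ρ) (hu : U ρ ≠ 0) :
    HasDerivAt (fun r => -vel N p V r / U r) (dquot N p U V B ρ) ρ ∧
      ρ * dquot N p U V B ρ = V ρ ^ p / U ρ / 4 - N / 2 * (-vel N p V ρ / U ρ) +
        ρ * (-vel N p V ρ / U ρ) ^ 2 := by
  refine ⟨(dA.fun_neg.fun_div du hu).congr_deriv ?_, ?_⟩
  · simp only [dquot]; ring
  · simp only [dquot]
    field_simp
    linear_combination (-8 * U ρ) * eA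

theorem dquot_zero (hN : 2 < N) {B : ℝ → ℝ} {e : ℝ} (hlo : lo < 0) (cB : ContinuousAt (dquot N p U V B) 0)
    (hs : ∀ r, lo < r → HasDerivAt (fun r => -vel N p V r / U r) (dquot N p U V B r) r ∧
      r * dquot N p U V B r = V r ^ p / U r / 4 - N / 2 * (-vel N p V r / U r) +
        r * (-vel N p V r / U r) ^ 2)
    (he : HasDerivAt (fun r => V r ^ p / U r) e 0) :
    (1 + N / 2) * dquot N p U V B 0 = e / 4 + (-vel N p V 0 / U 0) ^ 2 := by
  have d0 := (hs 0 hlo).1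
  have hR := ((he.div_const 4).fun_sub (d0.const_mul (N / 2))).fun_add
    ((hasDerivAt_id (0 : ℝ)).fun_mul (d0.fun_pow 2))
  have heq := ((hasDerivAt_mul_self cB).congr_of_eventuallyEq
    (eventuallyEq_of_mem (Ioi_mem_nhds hlo) fun r hr => ((hs r hr).2).symm)).unique hR
  simp only [id_eq, zero_mul, one_mul, add_zero] at heq
  linarith

theorem hasDerivAt_ratios (h : IsBranch N p q lo U V) (hN : 2 < N) (hp : 0 < p) (hq : 0 < q) {ρ : ℝ}
    (hρ : lo < ρ) :
    HasDerivAt (zf p q U V)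
      (-(zf p q U V ρ * Wf N p q U V ρ) / (1 / (p + 1) * (1 / (q + 1)))) ρ ∧
    HasDerivAt (fun r => V r ^ p / U r)
      (V ρ ^ p / U ρ * (-vel N p V ρ / U ρ - p * (-vel N q U ρ / V ρ))) ρ ∧
    HasDerivAt (fun r => U r ^ q / V r)
      (U ρ ^ q / V ρ * (-vel N q U ρ / V ρ - q * (-vel N p V ρ / U ρ))) ρ := by
  have hU := h.posU ρ
  have hV := h.posV ρ
  have du := h.hasDerivAt_U hN hρ
  have dv := h.hasDerivAt_V hN hρ
  refine ⟨?_, ?_, ?_⟩
  · refine ((dv.rpow_const (p := p + 1) (Or.inl hV.ne')).fun_div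
      (du.rpow_const (p := q + 1) (Or.inl hU.ne')) (Real.rpow_pos_of_pos hU _).ne').congr_deriv ?_
    simp only [zf, Wf, add_sub_cancel_right]
    rw [Real.rpow_add_one hV.ne', Real.rpow_add_one hU.ne']
    have := Real.rpow_pos_of_pos hU q
    field_simp
    ring
  · refine ((dv.rpow_const (p := p) (Or.inl hV.ne')).fun_div du hU.ne').congr_deriv ?_
    rw [Real.rpow_sub_one hV.ne']
    field_simp
    ring
  · refine ((du.rpow_const (p := q) (Or.inl hU.ne')).fun_div dv hV.ne').congr_deriv ?_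
    rw [Real.rpow_sub_one hU.ne']
    field_simp
    ring

end IsBranch

/-- **The orbit functions exist.** -/
theorem exists_orbitFns (hc : IsCrit N p q) :
    ∃ (S : Set ℝ) (R x y s dx dy : ℝ → ℝ), IsOrbitFns N p q S R x y s dx dy := by
  obtain ⟨lo, ρk, U, V, h, hlok, hρk, hk, hW⟩ := exists_full_branch hc
  have hN := hc.dim
  have hp := hc.p_pos
  have hq := hc.q_pos
  obtain ⟨hal, hlt, -⟩ := hc.weights
  set κ : ℝ := (p + 1) / (q + 1) with hκ
  set f : ℝ → ℝ := zf p q U V with hf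
  have hfpos : ∀ r, 0 < f r := fun r =>
    div_pos (Real.rpow_pos_of_pos (h.posV r) _) (Real.rpow_pos_of_pos (h.posU r) _)
  have df : ∀ r, lo < r →
      HasDerivAt f (-(f r * Wf N p q U V r) / (1 / (p + 1) * (1 / (q + 1)))) r :=
    fun r hr => (h.hasDerivAt_ratios hN hp hq hr).1
  have df_neg : ∀ r, lo < r → -(f r * Wf N p q U V r) / (1 / (p + 1) * (1 / (q + 1))) < 0 := fun r hr =>
    div_neg_of_neg_of_pos (neg_neg_of_pos (mul_pos (hfpos r) (hW r hr))) (by positivity)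
  have hanti : StrictAntiOn f (Ioi lo) := strictAntiOn_of_hasDerivWithinAt_neg (convex_Ioi lo)
    (fun r hr => (df r hr).continuousAt.continuousWithinAt)
    (fun r hr => (df r (by simpa using hr)).hasDerivWithinAt) fun r hr => df_neg r (by simpa using hr)
  set a : ℝ := (lo + ρk) / 2 with ha
  have hloa : lo < a := by linarith
  have hak : a < ρk := by linarith
  set S : Set ℝ := Ioo 0 (f a) with hS
  have hlim : Tendsto f atTop (𝓝 0) := h.zf_tendsto hc
  have hex : ∀ z ∈ S, ∃ r, a < r ∧ f r = z := by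
    intro z hz
    obtain ⟨b, hb, hfb⟩ := ((hlim.eventually (Iio_mem_nhds hz.1)).and (eventually_gt_atTop a)).exists
    obtain ⟨r, hr, hrz⟩ := intermediate_value_Ioo' hfb.le
      (fun r hr => (df r (hloa.trans_le hr.1)).continuousAt.continuousWithinAt)
      (show z ∈ Ioo (f b) (f a) from ⟨hb, hz.2⟩)
    exact ⟨r, hr.1, hrz⟩
  set R : ℝ → ℝ := Function.invFunOn f (Ioi a) with hR
  have hRm : ∀ z ∈ S, a < R z ∧ f (R z) = z := fun z hz =>
    ⟨Function.invFunOn_mem (hex z hz), Function.invFunOn_eq (hex z hz)⟩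
  have hlo_R : ∀ z ∈ S, lo < R z := fun z hz => hloa.trans (hRm z hz).1
  have hRanti : StrictAntiOn R S := fun z hz w hw hzw => by
    by_contra hle
    have := hanti.antitoneOn (mem_Ioi.2 (hlo_R z hz)) (mem_Ioi.2 (hlo_R w hw)) (not_lt.1 hle)
    rw [(hRm z hz).2, (hRm w hw).2] at this
    linarith
  have hRgt : ∀ z ∈ S, ∀ c, lo < c → z < f c → c < R z := fun z hz c hc hzc => by
    by_contra hle
    have := hanti.antitoneOn (mem_Ioi.2 (hlo_R z hz)) (mem_Ioi.2 hc) (not_lt.1 hle)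
    rw [(hRm z hz).2] at this
    linarith
  have hRlt : ∀ z ∈ S, ∀ c, lo < c → f c < z → R z < c := fun z hz c hc hzc => by
    by_contra hle
    have := hanti.antitoneOn (mem_Ioi.2 hc) (mem_Ioi.2 (hlo_R z hz)) (not_lt.1 hle)
    rw [(hRm z hz).2] at this
    linarith
  have hRc : ∀ z ∈ S, ContinuousAt R z := fun z hz => by
    refine tendsto_order.2 ⟨fun c hc => ?_, fun c hc => ?_⟩
    · obtain ⟨d, hd⟩ := exists_between (max_lt (hlo_R z hz) hc)
      have h1 : z < f d := by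
        have := hanti (mem_Ioi.2 ((le_max_left _ _).trans_lt hd.1)) (mem_Ioi.2 (hlo_R z hz)) hd.2
        rwa [(hRm z hz).2] at this
      filter_upwards [isOpen_Ioo.mem_nhds hz, Iio_mem_nhds h1] with w hw hwd
      exact (le_max_right _ _).trans_lt
        (hd.1.trans (hRgt w hw d ((le_max_left _ _).trans_lt hd.1) hwd))
    · have h1 : f c < z := by
        have := hanti (mem_Ioi.2 (hlo_R z hz)) (mem_Ioi.2 ((hlo_R z hz).trans hc)) hc
        rwa [(hRm z hz).2] at this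
      filter_upwards [isOpen_Ioo.mem_nhds hz, Ioi_mem_nhds h1] with w hw hwd
      exact hRlt w hw c ((hlo_R z hz).trans hc) hwd
  set x : ℝ → ℝ := fun z => -vel N p V (R z) / U (R z) with hx
  set y : ℝ → ℝ := fun z => -vel N q U (R z) / V (R z) with hy
  set s : ℝ → ℝ := fun z => U (R z) ^ q / V (R z) with hs
  set dx : ℝ → ℝ := fun z => dquot N p U V (vel N q U) (R z) with hdx
  set dy : ℝ → ℝ := fun z => dquot N q V U (vel N p V) (R z) with hdy
  set R' : ℝ → ℝ := fun z =>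
    -(1 / (p + 1) * (1 / (q + 1))) / (z * (1 / (q + 1) * y z - 1 / (p + 1) * x z)) with hR'
  have hdR : ∀ z ∈ S, HasDerivAt R (R' z) z := fun z hz => by
    have h1 := HasDerivAt.of_local_left_inverse (hRc z hz) (df _ (hlo_R z hz))
      (df_neg _ (hlo_R z hz)).ne
      (eventually_of_mem (isOpen_Ioo.mem_nhds hz) fun w hw => (hRm w hw).2)
    refine h1.congr_deriv ?_
    rw [(hRm z hz).2, inv_div, div_neg, ← neg_div]
    rfl
  have hq' : ∀ ρ, lo < ρ → _ := fun ρ hρ => IsBranch.dquot_spec (N := N) (p := p)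
    (h.hasDerivAt_U hN hρ) (h.velU_spec hN hρ).1 (h.velU_spec hN hρ).2 (h.posU ρ).ne'
  have hp' : ∀ ρ, lo < ρ → _ := fun ρ hρ => IsBranch.dquot_spec (N := N) (p := q)
    (h.hasDerivAt_V hN hρ) (h.velV_spec hN hρ).1 (h.velV_spec hN hρ).2 (h.posV ρ).ne'
  have cA : Continuous (vel N p V) := continuous_vel hN h.contV h.posV
  have cB : Continuous (vel N q U) := continuous_vel hN h.contU h.posU
  have cdU : Continuous (dquot N p U V (vel N q U)) :=
    (((continuous_acc hN h.contV h.posV cB).neg.mul h.contU).add (cA.mul cA)).div (h.contU.pow 2)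
      fun r => (pow_pos (h.posU r) 2).ne'
  have cdV : Continuous (dquot N q V U (vel N p V)) :=
    (((continuous_acc hN h.contU h.posU cA).neg.mul h.contV).add (cB.mul cB)).div (h.contV.pow 2)
      fun r => (pow_pos (h.posV r) 2).ne'
  have cR : ContinuousOn R S := fun z hz => (hRc z hz).continuousWithinAt
  have hzs : ∀ z ∈ S, z * s z = V (R z) ^ p / U (R z) := fun z hz => by
    rw [show z * s z = f (R z) * s z by rw [(hRm z hz).2]]
    have hU := h.posU (R z); have hV := h.posV (R z)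
    simp only [s, f, zf]
    rw [Real.rpow_add_one hU.ne', Real.rpow_add_one hV.ne']
    have := Real.rpow_pos_of_pos hU q
    field_simp
  have hdx' : ∀ z ∈ S, HasDerivAt x (dx z * R' z) z := fun z hz =>
    (hq' (R z) (hlo_R z hz)).1.comp z (hdR z hz)
  have hdy' : ∀ z ∈ S, HasDerivAt y (dy z * R' z) z := fun z hz =>
    (hp' (R z) (hlo_R z hz)).1.comp z (hdR z hz)
  have hds : ∀ z ∈ S, HasDerivAt s (s z * (y z - q * x z) * R' z) z := fun z hz =>
    (h.hasDerivAt_ratios hN hp hq (hlo_R z hz)).2.2.comp z (hdR z hz)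
  have cx : ContinuousOn x S := fun z hz => (hdx' z hz).continuousAt.continuousWithinAt
  have cy : ContinuousOn y S := fun z hz => (hdy' z hz).continuousAt.continuousWithinAt
  have cs : ContinuousOn s S := fun z hz => (hds z hz).continuousAt.continuousWithinAt
  have cR' : ContinuousOn R' S := continuousOn_const.div
    (continuousOn_id.mul ((continuousOn_const.mul cy).sub (continuousOn_const.mul cx)))
    fun z hz => (mul_pos hz.1 (hW (R z) (hlo_R z hz))).ne'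
  have hκS : κ < f a := by
    have h1 : f ρk = κ := by
      simp only [f, zf, hκ]
      have := Real.rpow_pos_of_pos (h.posU ρk) (q + 1)
      field_simp at hk ⊢
      linarith
    rw [← h1]
    exact hanti (mem_Ioi.2 hloa) (mem_Ioi.2 hlok) hak
  have hcover : Ioc 0 κ ⊆ S := fun z hz => ⟨hz.1, hz.2.trans_lt hκS⟩
  have hRtop : Tendsto R (𝓝[>] 0) atTop := by
    refine tendsto_atTop.2 fun b => ?_
    have hb : lo < max b a := hloa.trans_le (le_max_right _ _)
    filter_upwards [Ioo_mem_nhdsGT (lt_min (hfpos a) (hfpos (max b a)))] with z hz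
    exact ((le_max_left _ _).trans_lt (hRgt z ⟨hz.1, hz.2.trans_le (min_le_left _ _)⟩ _ hb
      (hz.2.trans_le (min_le_right _ _)))).le
  have ho := h.isOrbit hc
  have hT : ∀ t ≤ (0 : ℝ), 0 < 1 / (q + 1) *
      (-(2 * Real.exp (2 * t) * vel N q U (Real.exp (2 * t))) / V (Real.exp (2 * t))) -
      1 / (p + 1) * (-(2 * Real.exp (2 * t) * vel N p V (Real.exp (2 * t))) /
        U (Real.exp (2 * t))) := fun t _ => by
    have := mul_pos (mul_pos (two_pos (α := ℝ)) (Real.exp_pos (2 * t)))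
      (h.Wf_pos hc (Real.exp_pos (2 * t)).le)
    simp only [Wf] at this
    ring_nf at this ⊢
    linarith
  have hr := ho.ratio_tendsto hT
  have hlog : Tendsto (fun z => Real.log (R z) / 2) (𝓝[>] 0) atTop :=
    (Real.tendsto_log_atTop.comp hRtop).atTop_div_const two_pos
  have hback : ∀ᶠ z in 𝓝[>] (0 : ℝ), Real.exp (2 * (Real.log (R z) / 2)) = R z := by
    filter_upwards [hRtop.eventually (eventually_gt_atTop 0)] with z hz
    rw [mul_div_cancel₀ _ two_ne_zero, Real.exp_log hz]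
  have hz0 : (1 : ℝ) / (p + 1) * V 0 ^ (p + 1) < 1 / (q + 1) * U 0 ^ (q + 1) := h.below hc le_rfl
  refine ⟨S, R, x, y, s, dx, dy,
    { isOpen := isOpen_Ioo
      cover := hcover
      pos := fun z hz => hz.1
      x_pos := fun z _ => div_pos (neg_pos.2 (vel_neg hN h.contV h.posV _)) (h.posU _)
      y_pos := fun z _ => div_pos (neg_pos.2 (vel_neg hN h.contU h.posU _)) (h.posV _)
      s_pos := fun z _ => div_pos (Real.rpow_pos_of_pos (h.posU _) q) (h.posV _)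
      W_pos := fun z hz => hW (R z) (hlo_R z hz)
      quad := fun z hz => ?_
      dR := hdR
      deriv_x := hdx'
      deriv_y := hdy'
      deriv_s := hds
      cont_dx := cdU.comp_continuousOn cR
      cont_dy := cdV.comp_continuousOn cR
      ode_x := fun z hz => ?_
      ode_y := fun z hz => (hp' (R z) (hlo_R z hz)).2
      zero_x := fun z hz h0 => ?_
      zero_y := fun z hz h0 => ?_
      smooth := ⟨contDiffOn_one_of_deriv isOpen_Ioo hdR cR',
        contDiffOn_one_of_deriv isOpen_Ioo hdx' ((cdU.comp_continuousOn cR).mul cR'),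
        contDiffOn_one_of_deriv isOpen_Ioo hdy' ((cdV.comp_continuousOn cR).mul cR'),
        contDiffOn_one_of_deriv isOpen_Ioo hds
          ((cs.mul (cy.sub (continuousOn_const.mul cx))).mul cR')⟩
      anti := hRanti
      crossing := ?_
      x_lt := fun z _ h0 => ?_
      y_lt := fun z _ h0 => ?_
      band := fun z hz => ?_
      trap := fun h5 hb z hz h0 => ?_
      trap_cap := fun h5 hb z hz h0 => ?_
      chart := fun h5 hb z hz h0 => ?_
      barrier := fun h5 hb u₁ G Gu Gr Gh E hG hG0 hst hE hstep z hz h0 hu => ?_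
      centre := fun h5 hb z hz h0 => ?_
      barrier_neg := fun h5 hb G Gu Gr Gh E hG hG0 hst z₁ hz₁ hE hstep z hz hle h0 => ?_
      band_barrier := fun h5 hb e u₁ he L Lu Lr E hL cL hst hE hstep z hz h0 hu => ?_
      band_barrier_neg := fun h5 hb e he L Lu Lr E hL cL hst z₁ hz₁ hE hstep z hz hle h0 => ?_
      exit_barrier := fun h5 hb u₁ hu₁ G Gu Gr Gh E hG hE hend hstep z hz h0 hu => ?_
      R_tendsto := hRtop
      X_tendsto := ((ho.x_tendsto hr).comp hlog).congr' (hback.mono fun z hz => ?_)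
      Y_tendsto := ((ho.y_Q_tendsto hr).1.comp hlog).congr' (hback.mono fun z hz => ?_)
      Q_tendsto := ((ho.y_Q_tendsto hr).2.comp hlog).congr' (hback.mono fun z hz => ?_) }⟩
  · rw [hzs z hz]
    have hb := h.quadric hc (hlo_R z hz)
    have hU := h.posU (R z); have hV := h.posV (R z)
    rw [Real.rpow_add_one hU.ne', Real.rpow_add_one hV.ne'] at hb
    simp only [x, y, s]
    field_simp at hb ⊢
    linear_combination hb
  · rw [hzs z hz]
    exact (hq' (R z) (hlo_R z hz)).2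
  · have h1 := IsBranch.dquot_zero (N := N) hN h.lo_neg cdU.continuousAt hq'
      (h.hasDerivAt_ratios hN hp hq h.lo_neg).2.1
    rw [hzs z hz]
    simp only [dx, x, y, h0]
    exact h1
  · have h1 := IsBranch.dquot_zero (N := N) hN h.lo_neg cdV.continuousAt hp'
      (h.hasDerivAt_ratios hN hp hq h.lo_neg).2.2
    simp only [dy, x, y, s, h0]
    exact h1
  · have hlt0 : f 0 < κ := by
      simp only [f, zf, hκ]
      rw [div_lt_iff₀ (Real.rpow_pos_of_pos (h.posU 0) _)]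
      field_simp at hz0 ⊢
      linarith
    have hzS : f 0 ∈ S := ⟨hfpos 0, hlt0.trans hκS⟩
    exact ⟨f 0, ⟨hfpos 0, hlt0⟩, hanti.injOn (mem_Ioi.2 (hlo_R _ hzS)) (mem_Ioi.2 h.lo_neg)
      (hRm _ hzS).2⟩
  · have := ho.x_lt (Real.log (R z) / 2)
    rw [mul_div_cancel₀ _ two_ne_zero, Real.exp_log h0] at this
    refine (le_of_eq ?_).trans_lt this
    simp only [x]; ring
  · have := ho.y_lt (Real.log (R z) / 2)
    rw [mul_div_cancel₀ _ two_ne_zero, Real.exp_log h0] at this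
    refine (le_of_eq ?_).trans_lt this
    simp only [y]; ring
  · obtain ⟨hb1, hb2⟩ := (h.band hc hW).1 (R z) (hlo_R z hz)
    have hb3 := (h.band hc hW).2 (R z) (hlo_R z hz)
    have e : zf p q U V (R z) = z := (hRm z hz).2
    rw [e] at hb1 hb2
    exact ⟨hb3, hb1, hb2⟩
  · have := h.trap hc hW h5 hb h0
    rw [hzs z hz]
    exact this
  · have := h.trap_cap hc hW h5 hb h0
    rw [← hzs z hz] at this
    exact lt_of_mul_lt_mul_right
      (show (N - 2 - 2 * R z * x z) * x z * s z < (N - 2) * (z * y z) * s z by linarith)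
      (div_pos (Real.rpow_pos_of_pos (h.posU _) q) (h.posV _)).le
  · obtain ⟨e1, e2, e3, e4⟩ := h.chart_spec hc hW h5 hb (Real.log (R z) / 2)
    rw [e1, e2, e3, mul_div_cancel₀ _ (two_ne_zero (α := ℝ)), Real.exp_log h0,
      show zf p q U V (R z) = z from (hRm z hz).2] at e4
    exact e4
  · have key := h.barrier hc hW h5 hb hG hG0 hst (E := E) (fun r hr hru => ?_) hstep h0
      (u₁ := u₁) hu
    · rw [show zf p q U V (R z) = z from (hRm z hz).2] at key
      exact key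
    · have hlr : lo < r := h.lo_neg.trans hr
      have har : a < r := (show a < 0 by linarith).trans hr
      have hzS : f r ∈ S := ⟨hfpos r, hanti (mem_Ioi.2 hloa) (mem_Ioi.2 hlr) har⟩
      have hRf : R (f r) = r :=
        hanti.injOn (mem_Ioi.2 (hlo_R _ hzS)) (mem_Ioi.2 hlr) (hRm _ hzS).2
      have key := hE (f r) hzS (by rw [hRf]; exact hr) (by simp only [x, hRf]; exact hru)
      simp only [x, y, hRf] at key
      exact key
  · obtain ⟨c1, c2, c3, -⟩ := h.centre_pt hc hW h5 hb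
    rw [show zf p q U V 0 = z by rw [← h0]; exact (hRm z hz).2] at c1 c2 c3
    exact ⟨c1, c2, c3⟩
  · have key := h.barrier_neg hc hW h5 hb hG hG0 hst (E := E) (s₁ := R z₁) (hlo_R z₁ hz₁)
      (fun r hr => ?_) hstep (s := R z) ⟨hRanti.antitoneOn hz hz₁ hle, h0⟩
    · simp only [IsBranch.pt, IsBranch.xs, IsBranch.ys] at key
      rw [show zf p q U V (R z) = z from (hRm z hz).2] at key
      exact key
    · have hlr : lo < r := (hlo_R z₁ hz₁).trans_le hr.1
      have har : a < r := (hRm z₁ hz₁).1.trans_le hr.1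
      have hzS : f r ∈ S := ⟨hfpos r, hanti (mem_Ioi.2 hloa) (mem_Ioi.2 hlr) har⟩
      have hRf : R (f r) = r :=
        hanti.injOn (mem_Ioi.2 (hlo_R _ hzS)) (mem_Ioi.2 hlr) (hRm _ hzS).2
      have hle' : f r ≤ z₁ := by
        have := hanti.antitoneOn (mem_Ioi.2 (hlo_R z₁ hz₁)) (mem_Ioi.2 hlr) hr.1
        rwa [(hRm z₁ hz₁).2] at this
      have key := hE (f r) hzS hle' (by rw [hRf]; exact hr.2)
      simp only [x, y, hRf] at key
      exact key
  · have key := h.band_barrier hc hW h5 hb he hL (fun r => (cL r).1) (fun r => (cL r).2.1)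
      (fun r => (cL r).2.2) hst (E := E) (fun r hr hru => ?_) hstep h0 (u₁ := u₁) hu
    · simp only [IsBranch.pt, IsBranch.xs, IsBranch.ys] at key
      rw [show zf p q U V (R z) = z from (hRm z hz).2] at key
      exact key
    · have hlr : lo < r := h.lo_neg.trans hr
      have har : a < r := (show a < 0 by linarith).trans hr
      have hzS : f r ∈ S := ⟨hfpos r, hanti (mem_Ioi.2 hloa) (mem_Ioi.2 hlr) har⟩
      have hRf : R (f r) = r :=
        hanti.injOn (mem_Ioi.2 (hlo_R _ hzS)) (mem_Ioi.2 hlr) (hRm _ hzS).2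
      have key := hE (f r) hzS (by rw [hRf]; exact hr)
        (by simp only [x, hRf]; exact hru)
      simp only [x, y, hRf] at key
      exact key
  · have key := h.band_barrier_neg hc hW h5 hb he hL (fun r => (cL r).1) (fun r => (cL r).2.1)
      (fun r => (cL r).2.2) hst (E := E) (hlo_R z₁ hz₁) (fun r hr => ?_) hstep
      (s := R z) ⟨hRanti.antitoneOn hz hz₁ hle, h0⟩
    · simp only [IsBranch.pt, IsBranch.xs, IsBranch.ys] at key
      rw [show zf p q U V (R z) = z from (hRm z hz).2] at key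
      exact key
    · have hlr : lo < r := (hlo_R z₁ hz₁).trans_le hr.1
      have har : a < r := (hRm z₁ hz₁).1.trans_le hr.1
      have hzS : f r ∈ S := ⟨hfpos r, hanti (mem_Ioi.2 hloa) (mem_Ioi.2 hlr) har⟩
      have hRf : R (f r) = r :=
        hanti.injOn (mem_Ioi.2 (hlo_R _ hzS)) (mem_Ioi.2 hlr) (hRm _ hzS).2
      have hle' : f r ≤ z₁ := by
        have := hanti.antitoneOn (mem_Ioi.2 (hlo_R z₁ hz₁)) (mem_Ioi.2 hlr) hr.1
        rwa [(hRm z₁ hz₁).2] at this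
      have key := hE (f r) hzS hle' (by rw [hRf]; exact hr.2)
      simp only [x, y, hRf] at key
      exact key
  · have key := h.exit_barrier hc hW h5 hb hu₁ hG (E := E) (fun r hr hru => ?_) hend hstep h0 hu
    · simp only [IsBranch.pt, IsBranch.xs, IsBranch.ys] at key
      rw [show zf p q U V (R z) = z from (hRm z hz).2] at key
      exact key
    · have hlr : lo < r := h.lo_neg.trans hr
      have har : a < r := (show a < 0 by linarith).trans hr
      have hzS : f r ∈ S := ⟨hfpos r, hanti (mem_Ioi.2 hloa) (mem_Ioi.2 hlr) har⟩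
      have hRf : R (f r) = r :=
        hanti.injOn (mem_Ioi.2 (hlo_R _ hzS)) (mem_Ioi.2 hlr) (hRm _ hzS).2
      have key := hE (f r) hzS (by rw [hRf]; exact hr) (by simp only [x, hRf]; exact hru)
      simp only [x, y, hRf] at key
      exact key
  · simp only [Function.comp_apply, hz, x]; ring
  · simp only [Function.comp_apply, hz, y]; ring
  · simp only [Function.comp_apply, hz, s]; ring

end Vale.Agent.P100.Bubble
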